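import Vale.Agent.P261Z.T2.BTr

/-!
# P261, block T2 (base): the monomial basis of `Tr N ι M`

`Tr.coef t` is the coefficient of the monomial `Tr.mon N t`; `Tr.sum_coef`, `Tr.coef_sum`.
-/

open Vale.Agent.P251.F Vale.Agent.P251.M

namespace Vale.Agent.P261Z.T2

namespace Tr

variable {N N' : Type} [CommRing N] [CommRing N'] {ι : Type} [Fintype ι] {M : ℕ}

/-- the exponent of a monomial -/
noncomputable def expo (t : ι → Fin M) : ι →₀ ℕ :=
  Finsupp.equivFunOnFinite.symm fun b => (t b : ℕ)

@[simp] theorem expo_apply (t : ι → Fin M) (b : ι) : expo t b = (t b : ℕ) := rfl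

theorem expo_injective : Function.Injective (expo : (ι → Fin M) → _) := fun t t' h =>
  funext fun b => Fin.ext (by rw [← expo_apply, ← expo_apply, h])

theorem mon_eq (t : ι → Fin M) : mon N t = mk (MvPolynomial.monomial (expo t) (1 : N)) := by
  rw [MvPolynomial.monomial_eq, MvPolynomial.C_1, one_mul, Finsupp.prod_fintype _ _
    (fun _ => pow_zero _), map_prod, mon]
  exact Finset.prod_congr rfl fun b _ => by rw [map_pow, expo_apply]; rfl

omit [Fintype ι] in
theorem trI_eq : trI N ι M = Ideal.span ((fun d => MvPolynomial.monomial d (1 : N)) ''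
    Set.range fun b : ι => Finsupp.single b M) := by
  rw [trI, ← Set.range_comp]
  congr 2
  funext b
  exact MvPolynomial.X_pow_eq_monomial

theorem coeff_expo_of_mem {f : MvPolynomial ι N} (hf : f ∈ trI N ι M) (t : ι → Fin M) :
    MvPolynomial.coeff (expo t) f = 0 := by
  by_contra h
  rw [trI_eq, MvPolynomial.mem_ideal_span_monomial_image] at hf
  obtain ⟨_, ⟨b, rfl⟩, hb⟩ := hf _ (MvPolynomial.mem_support_iff.2 h)
  have h1 := hb b
  rw [Finsupp.single_eq_same, expo_apply] at h1
  exact absurd (t b).2 (not_lt.2 h1)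

/-- the coefficient of a monomial -/
noncomputable def coef (t : ι → Fin M) : Tr N ι M →+ N :=
  QuotientAddGroup.lift (trI N ι M).toAddSubgroup (MvPolynomial.coeffAddMonoidHom (expo t))
    fun _ hf => coeff_expo_of_mem hf t

theorem coef_mk (t : ι → Fin M) (f : MvPolynomial ι N) :
    coef t (mk f : Tr N ι M) = MvPolynomial.coeff (expo t) f := rfl

theorem coef_C_mul (t : ι → Fin M) (a : N) (y : Tr N ι M) :
    coef t (C ι M a * y) = a * coef t y := by
  obtain ⟨f, rfl⟩ := mk_surjective y
  rw [C, RingHom.comp_apply, ← map_mul, coef_mk, coef_mk, MvPolynomial.coeff_C_mul]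

theorem coef_mon_self (t : ι → Fin M) : coef t (mon N t) = 1 := by
  classical
  rw [mon_eq, coef_mk, MvPolynomial.coeff_monomial, if_pos rfl]

theorem coef_mon_ne {t t' : ι → Fin M} (h : t' ≠ t) : coef t (mon N t') = 0 := by
  classical
  rw [mon_eq, coef_mk, MvPolynomial.coeff_monomial, if_neg fun e => h (expo_injective e)]

theorem coef_map (φ : N →+* N') (t : ι → Fin M) (y : Tr N ι M) :
    coef t (map ι M φ y) = φ (coef t y) := by
  obtain ⟨f, rfl⟩ := mk_surjective y
  have h : (map ι M φ).comp mk = mk.comp (MvPolynomial.map φ) := by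
    refine MvPolynomial.ringHom_ext (fun a => ?_) fun b => ?_
    · rw [RingHom.comp_apply, RingHom.comp_apply, MvPolynomial.map_C]
      exact mapP_C φ id a
    · rw [RingHom.comp_apply, RingHom.comp_apply, MvPolynomial.map_X]
      exact mapP_x φ id b
  have h1 := DFunLike.congr_fun h f
  rw [RingHom.comp_apply, RingHom.comp_apply] at h1
  rw [h1, coef_mk, coef_mk, MvPolynomial.coeff_map]

variable [DecidableEq ι]

theorem coef_sum (l : (ι → Fin M) → N) (t : ι → Fin M) :
    coef t (∑ t', C ι M (l t') * mon N t') = l t := by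
  rw [map_sum, Finset.sum_eq_single t, coef_C_mul, coef_mon_self, mul_one]
  · intro t' _ h
    rw [coef_C_mul, coef_mon_ne h, mul_zero]
  · intro h
    exact absurd (Finset.mem_univ t) h

theorem sum_coef (y : Tr N ι M) : ∑ t, C ι M (coef t y) * mon N t = y := by
  obtain ⟨f, rfl⟩ := mk_surjective y
  induction f using MvPolynomial.induction_on' with
  | monomial d a =>
    by_cases h : ∀ b, d b < M
    · have e : d = expo fun b => (⟨d b, h b⟩ : Fin M) := Finsupp.ext fun _ => rfl
      have e2 : (mk (MvPolynomial.monomial d a) : Tr N ι M) =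
          C ι M a * mon N fun b => (⟨d b, h b⟩ : Fin M) := by
        rw [mon_eq, ← e, C, RingHom.comp_apply, ← map_mul, MvPolynomial.C_mul_monomial, mul_one]
      rw [e2, Finset.sum_eq_single fun b => (⟨d b, h b⟩ : Fin M), coef_C_mul, coef_mon_self,
        mul_one]
      · intro t' _ h'
        rw [coef_C_mul, coef_mon_ne h'.symm, mul_zero, map_zero, zero_mul]
      · intro h'
        exact absurd (Finset.mem_univ _) h'
    · have e : (mk (MvPolynomial.monomial d a) : Tr N ι M) = 0 := by
        rw [mk_eq_zero, trI_eq, MvPolynomial.mem_ideal_span_monomial_image]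
        intro xi hxi
        obtain rfl : xi = d := Finset.mem_singleton.1 (MvPolynomial.support_monomial_subset hxi)
        obtain ⟨b, hb⟩ := not_forall.1 h
        exact ⟨_, ⟨b, rfl⟩, Finsupp.single_le_iff.2 (not_lt.1 hb)⟩
      rw [e]
      exact Finset.sum_eq_zero fun t _ => by rw [map_zero, map_zero, zero_mul]
  | add f g hf hg =>
    rw [map_add]
    conv_rhs => rw [← hf, ← hg, ← Finset.sum_add_distrib]
    exact Finset.sum_congr rfl fun t _ => by rw [map_add, map_add, add_mul]

theorem ext_coef {y y' : Tr N ι M} (h : ∀ t, coef t y = coef t y') : y = y' := by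
  rw [← sum_coef y, ← sum_coef y']
  exact Finset.sum_congr rfl fun t _ => by rw [h]

end Tr

end Vale.Agent.P261Z.T2
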