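import Vale.Agent.P261Z.T2.BDefs
import Vale.Agent.P261Z.T2.BTrB
import Vale.Agent.P261Z.X.Defs

/-!
# P261, block T2 (base): the algebra of the cobar model with coefficients in `Tr`

* `bas : BAS`, `wt : WT`;
* `Lam`: the maps `EY → Cob (Tr (NN p h j) B M) s` for a group `EY` with `EY ≅ E^J`;
  `Lam_map`, `Lam_perm`, `exists_limX`.
-/

open Vale.Agent.P251 Vale.Agent.P251.F Vale.Agent.P251.M Vale.Agent.P251.S

set_option linter.unusedSectionVars false

noncomputable section

namespace Vale.Agent.P261Z.T2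

namespace Tr

variable {N N' : Type} [CommRing N] [CommRing N'] {B : Type} [Fintype B] [DecidableEq B] {M s : ℕ}

theorem coeff_ccomb (l : (B → Fin M) → Cob N s) (d : Fin s × ℕ →₀ ℕ) :
    MvPolynomial.coeff d (ccomb N s l) = ∑ t, C B M (MvPolynomial.coeff d (l t)) * mon N t := by
  rw [ccomb_apply, MvPolynomial.coeff_sum]
  refine Finset.sum_congr rfl fun t _ => ?_
  rw [cmon, mul_comm, MvPolynomial.coeff_C_mul, cC, Cob.mapRing, MvPolynomial.coeff_map, mul_comm]

theorem ccomb_injective : Function.Injective (ccomb N (B := B) (M := M) s) := by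
  intro l l' h
  funext t
  refine MvPolynomial.ext _ _ fun d => ?_
  have h1 := congrArg (fun y => coef t (MvPolynomial.coeff d y)) h
  simpa only [coeff_ccomb, coef_sum] using h1

theorem ccomb_surjective : Function.Surjective (ccomb N (B := B) (M := M) s) := by
  classical
  intro y
  refine ⟨fun t => ∑ d ∈ y.support, MvPolynomial.monomial d (coef t (MvPolynomial.coeff d y)), ?_⟩
  refine MvPolynomial.ext _ _ fun d => ?_
  rw [coeff_ccomb, ← sum_coef (MvPolynomial.coeff d y)]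
  refine Finset.sum_congr rfl fun t _ => ?_
  congr 2
  rw [MvPolynomial.coeff_sum, Finset.sum_eq_single d, MvPolynomial.coeff_monomial, if_pos rfl]
  · intro d' _ h
    rw [MvPolynomial.coeff_monomial, if_neg h]
  · intro h
    rw [MvPolynomial.notMem_support_iff.1 h, map_zero, map_zero, MvPolynomial.coeff_zero]

theorem mapRing_cC (φ : N →+* N') (σ : B → B) (y : Cob N s) :
    Cob.mapRing (mapP φ σ : Tr N B M →+* _) s (cC B M s y) = cC B M s (Cob.mapRing φ s y) := by
  rw [cC, cC, Cob.mapRing_mapRing, Cob.mapRing_mapRing, mapP_comp_C]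

theorem mapRing_cmon (φ : N →+* N') (σ : Equiv.Perm B) (t : B → Fin M) :
    Cob.mapRing (mapP φ σ : Tr N B M →+* _) s (cmon N s (t ∘ σ)) = cmon N' s t := by
  rw [cmon, cmon, Cob.mapRing, MvPolynomial.map_C, mapP_mon]

theorem map_ccomb (φ : N →+* N') (l : (B → Fin M) → Cob N s) :
    Cob.mapRing (map B M φ) s (ccomb N s l) = ccomb N' s fun t => Cob.mapRing φ s (l t) := by
  rw [ccomb_apply, ccomb_apply, map_sum]
  refine Finset.sum_congr rfl fun t _ => ?_
  rw [map_mul, mapRing_cC]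
  congr 1
  exact mapRing_cmon φ (Equiv.refl B) t

theorem perm_ccomb (σ : Equiv.Perm B) (l : (B → Fin M) → Cob N s) :
    Cob.mapRing (perm N M σ⁻¹) s (ccomb N s l) = ccomb N s fun t => l (t ∘ σ.symm) := by
  rw [ccomb_apply, ccomb_apply, map_sum]
  refine (Fintype.sum_equiv (Equiv.arrowCongr σ (Equiv.refl (Fin M))) _ _ fun t => ?_).symm
  have h : Equiv.arrowCongr σ (Equiv.refl (Fin M)) t = t ∘ (σ⁻¹ : Equiv.Perm B) := rfl
  rw [h, map_mul, mapRing_cC, mapRing_cmon]
  rw [Cob.mapRing, MvPolynomial.map_id]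
  rfl

variable [LawRing N]

theorem ev_scale_cmon {A : Type} [CommRing A] (c : Chain (Tr N B M) s A) (u : Aˣ)
    (t : B → Fin M) : Cob.ev (c.scale u) (cmon N s t) =
      ((u ^ (-deg t) : Aˣ) : A) * Cob.ev c (cmon N s t) := by
  have h1 : ∀ b, (c.scale u).pt (x N M b) = ((u⁻¹ : Aˣ) : A) * c.pt (x N M b) := by
    intro b
    have hn : IsNilpotent (c.pt (x N M b)) := ⟨M, map_x_pow c.pt b⟩
    change LawRing.act (InvSeries.lin u)⁻¹ c.pt (x N M b) = _
    rw [act_x, ← map_inv, InvSeries.lin_val]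
    exact (Q.nev1_mul hn _ _).trans (by
      rw [Q.nev1_C hn, Q.nev1_X hn]
      rfl)
  rw [cmon, Cob.ev_C, Cob.ev_C, mon, map_prod, map_prod, deg, ← Nat.cast_sum, zpow_neg,
    zpow_natCast, ← inv_pow, Units.val_pow_eq_pow_val, ← Finset.prod_pow_eq_pow_sum,
    ← Finset.prod_mul_distrib]
  exact Finset.prod_congr rfl fun b _ => by rw [map_pow, map_pow, h1, mul_pow]

theorem isWt_cmon (t : B → Fin M) : Cob.IsWt (-deg t) (cmon N s t) :=
  fun _ _ c u => ev_scale_cmon c u t

theorem isWt_ccomb {w : ℤ} {l : (B → Fin M) → Cob N s} (h : ∀ t, Cob.IsWt (w + deg t) (l t)) :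
    Cob.IsWt w (ccomb N s l) := by
  rw [ccomb_apply]
  refine Finset.sum_induction _ (Cob.IsWt w) (fun _ _ => Cob.IsWt.add) (Cob.isWt_zero w)
    fun t _ => ?_
  have h1 := ((h t).mapRing (isLawHom_C (ι := B) (M := M))).mul (isWt_cmon t)
  rwa [add_neg_cancel_right] at h1

variable (B M) in
/-- the extension of a chain to the truncated polynomial rings -/
def extCh {A : Type} [CommRing A] (c : Chain N s A) : Chain (Tr N B M) s (Tr A B M) where
  pt := map B M c.pt
  g := (c.map (C B M)).g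
  strict := (c.map (C B M)).strict
  zero := (c.map (C B M)).zero

theorem extCh_pre {A : Type} [CommRing A] (c : Chain N s A) :
    (extCh B M c).pre (C B M) = c.map (C B M) := by
  ext1
  · exact mapP_comp_C _ _
  · rfl

theorem ev_extCh_cmon {A : Type} [CommRing A] (c : Chain N s A) (t : B → Fin M) :
    Cob.ev (extCh B M c) (cmon N s t) = mon A t := by
  rw [cmon, Cob.ev_C]
  exact mapP_mon c.pt (Equiv.refl B) t

theorem isWt_of_ccomb {w : ℤ} {l : (B → Fin M) → Cob N s} (h : Cob.IsWt w (ccomb N s l))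
    (t : B → Fin M) : Cob.IsWt (w + deg t) (l t) := by
  intro A _ c u
  have h1 := h (Tr A B M) (extCh B M c) (Units.map (C B M : A →+* Tr A B M) u)
  have e1 : ∀ k : ℤ, ((Units.map (C B M : A →+* Tr A B M) u ^ k : (Tr A B M)ˣ) : Tr A B M) =
      C B M ((u ^ k : Aˣ) : A) := fun k => by
    rw [← map_zpow]
    rfl
  have e2 : Cob.ev ((extCh B M c).scale (Units.map (C B M : A →+* Tr A B M) u)) (ccomb N s l) =
      ∑ t, C B M (Cob.ev (c.scale u) (l t) * ((u ^ (-deg t) : Aˣ) : A)) * mon A t := by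
    rw [ccomb_apply, map_sum]
    refine Finset.sum_congr rfl fun t _ => ?_
    rw [map_mul, ev_scale_cmon, ev_extCh_cmon, cC, Cob.ev_mapRing,
      Chain.pre_scale isLawHom_C, extCh_pre, ← Cob.map_scale, Cob.ev_map, e1, map_mul, mul_assoc]
  have e3 : ((Units.map (C B M : A →+* Tr A B M) u ^ w : (Tr A B M)ˣ) : Tr A B M) *
      Cob.ev (extCh B M c) (ccomb N s l) =
      ∑ t, C B M (((u ^ w : Aˣ) : A) * Cob.ev c (l t)) * mon A t := by
    rw [ccomb_apply, map_sum, Finset.mul_sum]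
    refine Finset.sum_congr rfl fun t _ => ?_
    rw [map_mul, ev_extCh_cmon, cC, Cob.ev_mapRing, extCh_pre, Cob.ev_map, e1, map_mul, mul_assoc]
  rw [e2, e3] at h1
  have h2 := congrArg (coef t) h1
  rw [coef_sum, coef_sum] at h2
  have h3 : ((u ^ (-deg t) : Aˣ) : A) * ((u ^ deg t : Aˣ) : A) = 1 := by
    rw [← Units.val_mul, ← zpow_add, neg_add_cancel, zpow_zero, Units.val_one]
  rw [zpow_add, Units.val_mul, mul_right_comm, ← h2, mul_assoc, h3, mul_one]

/-- The matrix of a cosimplicial map over `Laz` is the matrix over every law ring. -/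
theorem map_cmon {k n : ℕ} (α : Fin (k + 1) → Fin (n + 1)) (t : B → Fin M)
    {a : (B → Fin M) → Cob Laz n} (h : Cob.map α (cmon Laz k t) = ccomb Laz n a) :
    Cob.map α (cmon N k t) =
      ccomb N n fun J => Cob.mapRing (LawRing.ofLaz N) n (a J) := by
  have h1 := congrArg (Cob.mapRing (map B M (LawRing.ofLaz N)) n) h
  rw [map_ccomb, Cob.mapRing_map (isLawHom_mapP LawRing.isLawHom_ofLaz id)] at h1
  rw [← h1]
  congr 1
  exact (mapRing_cmon (LawRing.ofLaz N) (Equiv.refl B) t).symm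

theorem map_ccomb_cos {k n : ℕ} (α : Fin (k + 1) → Fin (n + 1))
    {a : (B → Fin M) → (B → Fin M) → Cob Laz n}
    (h : ∀ t, Cob.map α (cmon Laz k t) = ccomb Laz n (a t)) (l : (B → Fin M) → Cob N k) :
    Cob.map α (ccomb N k l) = ccomb N n fun J =>
      ∑ t, Cob.mapRing (LawRing.ofLaz N) n (a t J) * Cob.map α (l t) := by
  rw [ccomb_apply, map_sum, ccomb_apply]
  simp only [map_sum, Finset.sum_mul]
  rw [Finset.sum_comm]
  refine Finset.sum_congr rfl fun t _ => ?_
  rw [map_mul, map_cmon α t (h t), ccomb_apply, Finset.mul_sum, cC,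
    ← Cob.mapRing_map isLawHom_C]
  refine Finset.sum_congr rfl fun J _ => ?_
  rw [map_mul, cC]
  ring

end Tr

theorem bas : BAS := fun _ _ _ _ _ _ _ => ⟨Tr.ccomb_injective, Tr.ccomb_surjective⟩

theorem wt : WT := fun _ _ _ _ _ _ _ _ _ _ => ⟨Tr.isWt_of_ccomb, Tr.isWt_ccomb⟩

/-! ### the maps `Lam` -/

section Lam

variable {p h : ℕ} [Fact p.Prime] {B : Type} [Fintype B] [DecidableEq B] {M s : ℕ}
  {E : Type*} [AddCommGroup E] [Module (Cob Laz s) E] {u : E} (H : CobCompl p h s u)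
  {EY : Type*} [AddCommGroup EY] (κ : ((B → Fin M) → E) ≃+ EY)

/-- `Lam (κ e) = ∑ t, lam (e t) * x ^ t` -/
def Lam (j : ℕ) : EY →+ Cob (Tr (NN p h j) B M) s :=
  (Tr.ccomb (NN p h j) s).comp (((H.lam j).compLeft (B → Fin M)).comp κ.symm.toAddMonoidHom)

theorem Lam_apply (j : ℕ) (e : (B → Fin M) → E) :
    Lam H κ j (κ e) = Tr.ccomb (NN p h j) s fun t => H.lam j (e t) := by
  change Tr.ccomb (NN p h j) s (fun t => H.lam j (κ.symm (κ e) t)) = _
  rw [AddEquiv.symm_apply_apply]

theorem Lam_perm (σ : Equiv.Perm B) (π : EY → EY)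
    (hπ : ∀ e, π (κ e) = κ fun t => e (t ∘ σ.symm)) (j : ℕ) (y : EY) :
    Lam H κ j (π y) = Cob.mapRing (Tr.perm (NN p h j) M σ⁻¹) s (Lam H κ j y) := by
  obtain ⟨e, rfl⟩ := κ.surjective y
  rw [hπ, Lam_apply, Lam_apply, Tr.perm_ccomb]

theorem Lam_map {n : ℕ} {E' : Type*} [AddCommGroup E'] [Module (Cob Laz n) E'] {u' : E'}
    (H' : CobCompl p h n u') {EY' : Type*} [AddCommGroup EY'] (κ' : ((B → Fin M) → E') ≃+ EY')
    {α : Fin (s + 1) → Fin (n + 1)} {f : E →+ E'}
    (hf : ∀ (c : Cob Laz s) (e : E), f (c • e) = Cob.map α c • f e) (hu : f u = u')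
    {a : (B → Fin M) → (B → Fin M) → Cob Laz n}
    (ha : ∀ t, Cob.map α (Tr.cmon Laz s t) = Tr.ccomb Laz n (a t)) (g : EY → EY')
    (hg : ∀ e, g (κ e) = κ' fun J => ∑ t, a t J • f (e t)) (j : ℕ) (y : EY) :
    Lam H' κ' j (g y) = Cob.map α (Lam H κ j y) := by
  obtain ⟨e, rfl⟩ := κ.surjective y
  rw [hg, Lam_apply, Lam_apply, Tr.map_ccomb_cos α ha]
  congr 1
  funext J
  rw [map_sum]
  refine Finset.sum_congr rfl fun t _ => ?_
  rw [H'.lam_smul, H.lam_map H' hf hu]
  rfl

theorem red_Lam {a b : ℕ} (hab : a ≤ b) (y : EY) :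
    Cob.mapRing (Tr.map B M (NN.red p h hab)) s (Lam H κ b y) = Lam H κ a y := by
  obtain ⟨e, rfl⟩ := κ.surjective y
  rw [Lam_apply, Lam_apply, Tr.map_ccomb]
  congr 1
  funext t
  exact H.red_lam hab (e t)

/-- The part of weight `w` of `EY` is the limit of the tower `towerX`. -/
theorem exists_limX (D : CobCompl.WtProj s u) (w : ℤ) (ε : EY → EY)
    (hε : ∀ e, ε (κ e) = κ fun t => D.ε (w + Tr.deg t) (e t))
    {G : Type*} [AddCommGroup G] (i : G →+ EY) (hi : Function.Injective i)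
    (hr : ∀ y, ε y = y ↔ ∃ g, i g = y) :
    ∃ φ : G ≃+ (X.towerX p h B M w).lim s,
      ∀ (g : G) (j : ℕ), X.xval ((φ g).1 j) = Lam H κ (j + 1) (i g) := by
  have h1 : ∀ g j, Cob.IsWt w (Lam H κ (j + 1) (i g)) := by
    intro g j
    have h2 := (hr _).2 ⟨g, rfl⟩
    obtain ⟨e, he⟩ := κ.surjective (i g)
    rw [← he] at h2 ⊢
    rw [hε] at h2
    rw [Lam_apply]
    exact Tr.isWt_ccomb fun t => H.isWt_lam D _ (congrFun (κ.injective h2) t)
  let φ : G →+ (X.towerX p h B M w).lim s :=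
    { toFun := fun g => ⟨fun j => (⟨Lam H κ (j + 1) (i g), h1 g j⟩ :
          Cob.wt (Tr (NN p h (j + 1)) B M) s w),
        fun j => Subtype.ext (red_Lam H κ (Nat.le_succ (j + 1)) (i g))⟩
      map_zero' := by
        apply Subtype.ext
        funext j
        apply Subtype.ext
        change Lam H κ (j + 1) (i 0) = 0
        rw [map_zero, map_zero]
      map_add' := fun g g' => by
        apply Subtype.ext
        funext j
        apply Subtype.ext
        change Lam H κ (j + 1) (i (g + g')) = Lam H κ (j + 1) (i g) + Lam H κ (j + 1) (i g')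
        rw [map_add, map_add] }
  have hφ : ∀ (g : G) (j : ℕ), X.xval ((φ g).1 j) = Lam H κ (j + 1) (i g) := fun _ _ => rfl
  refine ⟨AddEquiv.ofBijective φ ⟨?_, ?_⟩, hφ⟩
  · intro g g' hgg
    apply hi
    obtain ⟨e, he⟩ := κ.surjective (i g)
    obtain ⟨e', he'⟩ := κ.surjective (i g')
    rw [← he, ← he']
    congr 1
    funext t
    refine H.ext_lam fun j => ?_
    have h2 : Lam H κ (j + 1) (κ e) = Lam H κ (j + 1) (κ e') := by
      rw [he, he', ← hφ, ← hφ, hgg]
    rw [Lam_apply, Lam_apply] at h2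
    exact congrFun (Tr.ccomb_injective h2) t
  · rintro ⟨y, hy⟩
    choose l hl using fun j => Tr.ccomb_surjective (X.xval (y j))
    have h2 : ∀ j t, Cob.mapRing (NN.red p h (Nat.le_succ (j + 1))) s (l (j + 1) t) = l j t := by
      intro j t
      have h3 : Cob.mapRing (Tr.map B M (NN.red p h (Nat.le_succ (j + 1)))) s
          (X.xval (y (j + 1))) = X.xval (y j) := congrArg X.xval (hy j)
      rw [← hl, ← hl, Tr.map_ccomb] at h3
      exact congrFun (Tr.ccomb_injective h3) t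
    choose e he using fun t => H.exists_of_compatible (fun j => l j t) fun j => h2 j t
    have h4 : ε (κ e) = κ e := by
      rw [hε]
      congr 1
      funext t
      refine H.ε_of_isWt_lam D fun j => ?_
      rw [he]
      refine Tr.isWt_of_ccomb ?_ t
      rw [hl]
      exact (show Cob.wt (Tr (NN p h (j + 1)) B M) s w from y j).2
    obtain ⟨g, hg⟩ := (hr _).1 h4
    refine ⟨g, Subtype.ext (funext fun j => X.xval_injective ?_)⟩
    refine (hφ g j).trans ?_
    rw [hg, Lam_apply, ← hl]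
    congr 1
    funext t
    exact he t j

end Lam

end Vale.Agent.P261Z.T2
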