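import Vale.Agent.P261Z.T2.BDefs
import Vale.Agent.P251.M.LimTheory
import Vale.Agent.P251.M.EvenPer
import Vale.Agent.P251.M.Strict

/-!
# P261, block T2 (base): the monomials in the Euler classes as maps of the stable category
-/

open CategoryTheory MonoidalCategory Limits Pretriangulated MonObj

set_option linter.unusedSectionVars false

noncomputable section

universe v u

namespace Vale.Agent.P261Z.T2

open Vale.Agent.P251 Vale.Agent.P251.T Vale.Agent.P251.S Vale.Agent.P251.I Vale.Agent.P251.G
  Vale.Agent.P251.F Vale.Agent.P251.M Vale.Agent.P251.M.EvenSpheres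

namespace Cl

theorem kap_self {T : Type u} [Category.{v} T] [Preadditive T] [MonoidalCategory T]
    [MonoidalPreadditive T] [SymmetricCategory T] {P Y : T} [MonObj P] [IsCommMonObj P]
    (y : Y ⟶ P) (x : 𝟙_ T ⟶ P) : kap (ModStr.self P) y x = y ≫ (ModStr.self P).smul x := by
  rw [ModStr.smul, ModStr.self, leftUnitor_inv_naturality_assoc, whisker_exchange_assoc,
    ← tensorHom_def_assoc, ← rightUnitor_inv_braiding, Category.assoc,
    ← BraidedCategory.braiding_naturality_assoc, IsCommMonObj.mul_comm]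
  rfl

section theory

variable {E : Q.MultTheory.{v}} (o : Q.Orientation E) {B : Type} [Fintype B] {m : ℕ}

theorem ucl_deg (t : B → Fin (m + 1)) : ucl o t ∈ E.deg _ (Tr.deg t) := by
  have := Q.good_gr_one o (Fin (m + 1))
  have h : ∀ s : Finset B, ∏ b ∈ s, o.lc (Q.evL (m + 1) b) ^ (t b : ℕ) ∈
      E.deg _ (∑ b ∈ s, ((t b : ℕ) : ℤ)) := fun s => by
    classical
    induction s using Finset.induction_on with
    | empty =>
      rw [Finset.prod_empty, Finset.sum_empty]
      exact Q.MultTheory.oneU_deg _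
    | insert i s hi ih =>
      rw [Finset.prod_insert hi, Finset.sum_insert hi]
      have h1 := Q.pow_deg (Q.lc_deg o (Q.evL (m + 1) i)) (t i)
      rw [_root_.mul_one] at h1
      exact Q.MultTheory.mul_deg h1 ih
  exact h _

theorem ucl_push {E' : Q.MultTheory.{v}} (φ : Q.MultTheory.Hom E E') (t : B → Fin (m + 1)) :
    ucl (φ.push o) t = φ.app _ (ucl o t) := by
  have := Q.good_gr_one o (Fin (m + 1))
  have := Q.good_gr_one (φ.push o) (Fin (m + 1))
  refine Eq.trans (Finset.prod_congr rfl fun b _ => ?_) (map_prod (φ.mapU _) _ _).symm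
  rw [map_pow, push_lc]
  rfl

theorem ucl_perm (σ : Equiv.Perm B) (t : B → Fin (m + 1)) :
    E.map (Dl.perm (Q.CP (Fin (m + 1))) σ) (ucl o t) = ucl o (t ∘ σ) := by
  have := Q.good_gr_one o (Fin (m + 1))
  let f : C(Q.powObj (Q.CP (Fin (m + 1))) B, Q.powObj (Q.CP (Fin (m + 1))) B) :=
    ⟨fun a b => a (σ.symm b), continuous_pi fun _ => continuous_apply _⟩
  have h : Dl.perm (Q.CP (Fin (m + 1))) σ = Q.cmap f := LC.hom_ext fun _ => rfl
  refine (congrArg (fun k => E.map k _) h).trans ((map_prod (E.mapAlg f) _ _).trans ?_)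
  refine Eq.trans ?_ (Finset.prod_congr rfl fun b _ => congrArg
    (fun c => o.lc (Q.evL (m + 1) c) ^ (t (σ b) : ℕ)) (σ.symm_apply_apply b))
  refine Eq.trans (Finset.prod_congr rfl fun b _ => ?_)
    (Equiv.prod_comp σ fun b => o.lc (Q.evL (m + 1) (σ.symm b)) ^ (t b : ℕ)).symm
  rw [map_pow, Q.mapAlg_lc]
  rfl

end theory

end Cl

variable {T : Type u} [Category.{v} T] [Preadditive T] [HasZeroObject T]
    [HasShift T ℤ] [∀ n : ℤ, (shiftFunctor T n).Additive] [Pretriangulated T] [IsTriangulated T]
    [MonoidalCategory T] [SymmetricCategory T] [TensorTriangulated T] [MonoidalClosed T]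
    [HasCoproducts.{0} T] [HasProducts.{0} T] [StableCat T]
  {S : EvenSpheres T} {F : SpaceFunctor T} (e : F.S.obj CCF ≅ S.L)

theorem Cl.tU_bijective (K : T) [MonObj K] [IsCommMonObj K] (X : FCat) :
    Function.Bijective (tU e K X) := by
  have h := isCpt_space F (cofTriangles F) X.property
  have h1 : Function.Bijective (tK (S := S) K (F.S.obj X)) :=
    ⟨tK_injective h, tt_surjective (A := SeqMonoid.const K) (isTel_constSeq K) h⟩
  exact h1.comp ⟨fun _ _ => uev_inj X.property, fun x => ⟨umk X.property x, rfl⟩⟩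

open Cl

theorem cls (B : Type) [Fintype B] [DecidableEq B] (m : ℕ) : CLS e B m where
  fre K _ _ o := by
    have := Q.good_gr_one o (Fin (m + 1))
    have h1 := (tU_bijective e K (YF B m)).comp (Q.freeOn_lc o (m + 1) B).bijective_smul
    have h2 := Function.Bijective.piMap fun _ : B → Fin (m + 1) =>
      (sharpTot_bijective (E := S) K).comp (coefK_bijective e K)
    refine (Function.Bijective.of_comp_iff _ h2).1 ?_
    convert h1 using 1
    funext c
    refine Eq.trans (Finset.sum_congr rfl fun t _ => ?_) (map_sum (tU e K (YF B m)) _ _).symm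
    exact (kap_self _ _).trans (tU_smul e _ _ _).symm
  deg K _ _ o t := by
    obtain ⟨a, ha⟩ := (mem_udeg (YF B m).property).1 (ucl_deg o t)
    exact ⟨_, (congrArg (tK K _) ha.symm).trans (tK_tof _ a)⟩
  push K K' _ _ _ _ f _ o t :=
    (congrArg (tU e K' (YF B m)) (ucl_push o _ t)).trans (tU_push e f _ _)
  perm K _ _ o σ t :=
    (tU_map e _ _).symm.trans (congrArg (tU e K (YF B m)) (ucl_perm o σ t))

end Vale.Agent.P261Z.T2
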