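import Vale.Agent.P261Z.T2.BDefs

/-! P261, block T2 (base): change of the orientation. -/

set_option linter.unusedSectionVars false

noncomputable section

namespace Vale.Agent.P261Z.T2

open Vale.Agent.P251 Vale.Agent.P251.F Vale.Agent.P251.M

theorem cos : COS := by
  intro E B _ _ m k n _ o α t a h
  let φ := algebraMap E.A (E.U (Q.powObj (Q.CP (Fin (m + 1))) B))
  have hp : ∀ b : B, (o 0).lc (Q.evL (m + 1) b) ^ (m + 1) = 0 := fun b =>
    Q.lc_evL_pow (o 0) (m + 1) b
  let c : Chain (Tr Laz B (m + 1)) n (E.U (Q.powObj (Q.CP (Fin (m + 1))) B)) :=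
    { pt := Tr.lift (φ.comp (Laz.lift (o 0).law)) (fun b => (o 0).lc (Q.evL (m + 1) b)) hp
      g := fun i => InvSeries.map φ ((oChain o).g i)
      strict := fun i => map_mem_strict φ ((oChain o).strict i)
      zero := by rw [(oChain o).zero, map_one] }
  have hx : ∀ b, c.pt (Tr.x Laz (m + 1) b) = (o 0).lc (Q.evL (m + 1) b) := fun b =>
    Tr.lift_x _ _ hp b
  have h1 : (Cob.ev c).comp (Tr.cC B (m + 1) n) = φ.comp (oEv o) := by
    refine MvPolynomial.ringHom_ext (fun r => ?_) fun im => ?_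
    · rw [RingHom.comp_apply, RingHom.comp_apply, oEv_C, Tr.cC, Cob.ev_mapRing, Cob.ev_C]
      exact Tr.lift_C _ _ hp r
    · rw [RingHom.comp_apply, RingHom.comp_apply, oEv, LChain.ev_X, Tr.cC, Cob.ev_mapRing,
        Cob.ev_X]
      exact InvSeries.c_map _ _ _
  have h2 : ∀ J, Cob.ev c (Tr.cmon Laz n J) = ucl (o 0) J := fun J => by
    rw [Tr.cmon, Cob.ev_C, Tr.mon, map_prod]
    exact Finset.prod_congr rfl fun b _ => by rw [map_pow, hx]
  have h3 : ∀ i (b : B), nev1 ((o 0).lc (Q.evL (m + 1) b)) (c.g i).val = (o i).lc (Q.evL (m + 1) b) :=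
    fun i b => by
      have e := CPSys.Coord.isCmp_cmp (coordO (o 0)) (coordO (o i)) (z_one_eq _ _) m
      have e' := map_nev1_semi φ (E.mapAlg (Q.evL (m + 1) b)).toRingHom
        (fun r => (E.mapAlg (Q.evL (m + 1) b)).commutes r) ((coordO (o 0)).nil m)
        ((oChain o).g i).val
      exact e'.symm.trans (congrArg (E.mapAlg (Q.evL (m + 1) b)) e.symm)
  have h4 := congrArg (Cob.ev c) h
  rw [Cob.ev_map_res, Tr.cmon, Cob.ev_C, Chain.res_pt, Tr.mon, map_prod, Tr.ccomb_apply,
    map_sum] at h4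
  refine Eq.trans (Finset.prod_congr rfl fun b _ => ?_) (h4.trans (Finset.sum_congr rfl
    fun J _ => ?_))
  · rw [map_pow, Tr.act_x, hx, h3]
  · rw [map_mul, h2, Algebra.smul_def]
    exact congrArg (· * _) (DFunLike.congr_fun h1 (a J))

end Vale.Agent.P261Z.T2
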