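import Vale.Agent.P251.X.HQ
import Vale.Agent.P251.S.Conv4
import Vale.Agent.P251.M.Kleisli
import Vale.Agent.P251.M.PiZero
import Vale.Agent.P251.I.CofTriangle
import Mathlib.CategoryTheory.Monoidal.Rigid.Basic
import Mathlib.LinearAlgebra.Trace

/-!
# P261, block T2, theorem DELTA: finite objects, traces, small endomorphisms

* `Fn Y` : finite objects; `Ev m Y` : objects built from `m` even spheres;
* `ctr P f` : the categorical trace;
* `RatD T` : the rational Eilenberg-Mac Lane object, `V`, `Vm` : rational homology,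
  `lef` : the Lefschetz number; `Co` : homology of a quotient = coinvariants;
* `Nil f Z`, `Sm Λ f` : small endomorphisms;
* `TrR T` : the rules of a trace function used for powers of spaces.
-/

open CategoryTheory MonoidalCategory Limits Pretriangulated MonObj

set_option linter.unusedSectionVars false

noncomputable section

universe v u

namespace Vale.Agent.P261Z.Dl

open Vale.Agent.P251 Vale.Agent.P251.T Vale.Agent.P251.S Vale.Agent.P251.I Vale.Agent.P251.G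

/-! ### The categorical trace -/

section Ctr

variable {C : Type u} [Category.{v} C] [MonoidalCategory C] [SymmetricCategory C]

/-- the categorical trace -/
def ctr {Y D : C} (P : ExactPairing Y D) (f : Y ⟶ Y) : 𝟙_ C ⟶ 𝟙_ C :=
  P.coevaluation' ≫ f ▷ D ≫ (β_ Y D).hom ≫ P.evaluation'

end Ctr

variable {T : Type u} [Category.{v} T] [Preadditive T] [HasZeroObject T]
    [HasShift T ℤ] [∀ n : ℤ, (shiftFunctor T n).Additive] [Pretriangulated T]
    [MonoidalCategory T] [SymmetricCategory T] [TensorTriangulated T]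

/-! ### Finite objects -/

/-- finite objects -/
inductive Fn : T → Prop
  | zero {Z : T} (h : IsZero Z) : Fn Z
  | sphere (k : ℤ) : Fn ((𝟙_ T)⟦k⟧)
  | ext (Δ : Triangle T) (hΔ : Δ ∈ distTriang T) (h₁ : Fn Δ.obj₁) (h₃ : Fn Δ.obj₃) : Fn Δ.obj₂

open scoped ZeroObject in
theorem Fn.of_iso {X Y : T} (e : X ≅ Y) (h : Fn X) : Fn Y := by
  have h0 : Triangle.mk e.hom (0 : Y ⟶ (0 : T)) 0 ∈ distTriang T :=
    (Triangle.distinguished_iff_of_isZero₃ (Triangle.mk e.hom (0 : Y ⟶ (0 : T)) 0)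
      (isZero_zero T)).2 (by change IsIso e.hom; infer_instance)
  exact Fn.ext _ h0 h (Fn.zero (isZero_zero T))

theorem Fn.shift {X : T} (h : Fn X) (n : ℤ) : Fn (X⟦n⟧) := by
  induction h with
  | zero h => exact Fn.zero ((shiftFunctor T n).map_isZero h)
  | sphere k => exact (Fn.sphere (k + n)).of_iso ((shiftFunctorAdd T k n).app _)
  | ext Δ hΔ _ _ ih₁ ih₃ => exact Fn.ext _ (Triangle.shift_distinguished Δ hΔ n) ih₁ ih₃

theorem Fn.one : Fn (𝟙_ T) := (Fn.sphere 0).of_iso ((shiftFunctorZero T ℤ).app _)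

theorem Fn.of_shift {X : T} (n : ℤ) (h : Fn (X⟦n⟧)) : Fn X :=
  (h.shift (-n)).of_iso ((shiftFunctorCompIsoId T n (-n) (by simp)).app X)

theorem Fn.ext₃ (Δ : Triangle T) (hΔ : Δ ∈ distTriang T) (h₁ : Fn Δ.obj₁) (h₂ : Fn Δ.obj₂) :
    Fn Δ.obj₃ := Fn.ext _ (rot_of_distTriang _ hΔ) h₂ (h₁.shift 1)

theorem Fn.ext₁ (Δ : Triangle T) (hΔ : Δ ∈ distTriang T) (h₂ : Fn Δ.obj₂) (h₃ : Fn Δ.obj₃) :
    Fn Δ.obj₁ := Fn.ext _ (inv_rot_of_distTriang _ hΔ) (h₃.shift (-1)) h₂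

theorem Fn.tensor {Z W : T} (hZ : Fn Z) (hW : Fn W) : Fn (Z ⊗ W) := by
  induction hZ with
  | zero h => exact Fn.zero ((tensorRight W).map_isZero h)
  | sphere k =>
    exact (hW.shift k).of_iso ((M.tensorUnitShiftIso W k).symm ≪≫ β_ _ _)
  | ext Δ hΔ _ _ ih₁ ih₃ =>
    obtain ⟨h, -, hh⟩ := triL W Δ hΔ
    have h2 := Fn.ext _ hh (ih₁.of_iso (β_ _ _)) (ih₃.of_iso (β_ _ _))
    exact h2.of_iso (β_ W Δ.obj₂)

/-- suspension spectra of finite cell spaces are finite -/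
theorem fn_S (F : SpaceFunctor T) (X : FCat) : Fn (F.S.obj X) := by
  obtain ⟨X, hX⟩ := X
  induction hX with
  | empty => exact Fn.zero (F.isZero (X := FCat.mk LC.FC.empty) (inferInstanceAs (IsEmpty Empty)))
  | sph n => exact (Fn.sphere n).of_iso (M.sphIso F n).symm
  | @hequiv X Y hX e ih =>
    obtain ⟨f, g, h1, h2⟩ := e
    have := F.isIso_map (X := FCat.mk hX) (Y := FCat.mk (hX.hequiv ⟨f, g, h1, h2⟩)) (FCat.hom f)
      ⟨g, h1, h2⟩
    exact ih.of_iso (asIso (F.S.map (X := FCat.mk hX) (Y := FCat.mk (hX.hequiv ⟨f, g, h1, h2⟩))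
      (FCat.hom f)))
  | @ext A B i hi hA hC ihA ihC =>
    exact Fn.ext _ (F.cof_distinguished (A := FCat.mk hA) (B := FCat.mk (LC.FC.ext hi hA hC))
      (FCat.hom i) hi) ihA ihC

/-- objects built from `m` even spheres -/
inductive Ev : ℕ → T → Prop
  | zero {Z : T} (h : IsZero Z) : Ev 0 Z
  | ext {m : ℕ} (Δ : Triangle T) (hΔ : Δ ∈ distTriang T) (h₁ : Ev m Δ.obj₁) (k : ℤ)
      (e : Δ.obj₃ ≅ (𝟙_ T)⟦2 * k⟧) : Ev (m + 1) Δ.obj₂

/-! ### Rational homology -/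

/-- uniquely divisible groups are rational vector spaces -/
@[reducible] def ratModule (M : Type v) [AddCommGroup M]
    (h : ∀ m : ℤ, m ≠ 0 → Function.Bijective fun x : M => m • x) : Module ℚ M :=
  haveI : IsLocalizedModule (nonZeroDivisors ℤ) (LinearMap.id : M →ₗ[ℤ] M) :=
    { map_units := fun s => (Module.End.isUnit_iff _).2 (h s.1 (nonZeroDivisors.ne_zero s.2))
      surj := fun y => ⟨(y, 1), by simp⟩
      exists_of_eq := fun e => ⟨1, by simpa using e⟩ }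
  IsLocalizedModule.module (nonZeroDivisors ℤ) (LinearMap.id : M →ₗ[ℤ] M)

/-- the rational Eilenberg-Mac Lane object -/
structure RatD (T : Type u) [Category.{v} T] [Preadditive T] [HasShift T ℤ]
    [MonoidalCategory T] [SymmetricCategory T] where
  /-- the object -/
  Q : T
  [mon : MonObj Q]
  [comm : IsCommMonObj Q]
  conc : ∀ k : ℤ, k ≠ 0 → ∀ g : (𝟙_ T)⟦k⟧ ⟶ Q, g = 0
  inj : ∀ m : ℤ, m • (η[Q] : 𝟙_ T ⟶ Q) = 0 → m = 0
  iso : ∀ m : ℤ, m ≠ 0 → IsIso (m • 𝟙 Q)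
  gen : ∀ f : 𝟙_ T ⟶ Q, ∃ a m : ℤ, m ≠ 0 ∧ m • f = a • (η[Q] : 𝟙_ T ⟶ Q)

attribute [instance] RatD.mon RatD.comm

theorem exists_ratD [IsTriangulated T] [MonoidalClosed T] [HasCoproducts.{0} T]
    [HasProducts.{0} T] [StableCat T] [LocallySmall.{0} T] (F : SpaceFunctor T) :
    Nonempty (RatD T) := by
  obtain ⟨K, _, _, h0, h1, h2, h3⟩ := X.exists_HQ F
  refine ⟨⟨K, h0, fun m hm => ?_, fun m hm => X.isIso_zsmul h0 (h2 m hm), h3⟩⟩
  by_contra h
  exact h1 ((h2 m h).1 (hm.trans (smul_zero m).symm))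

namespace RatD

variable (R : RatD T)

theorem bij (A Y : T) (m : ℤ) (hm : m ≠ 0) :
    Function.Bijective fun x : A ⟶ R.Q ⊗ Y => m • x := by
  have := R.iso m hm
  have h : (fun x : A ⟶ R.Q ⊗ Y => m • x) = fun x => x ≫ (m • 𝟙 R.Q) ▷ Y := by
    funext x
    have h1 : (m • 𝟙 R.Q) ▷ Y = m • 𝟙 (R.Q ⊗ Y) := by
      have h2 := (tensorRight Y).map_zsmul (r := m) (f := 𝟙 R.Q)
      rw [CategoryTheory.Functor.map_id] at h2
      exact h2
    rw [h1, Preadditive.comp_zsmul, Category.comp_id]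
  rw [h]
  exact ⟨fun x y e => (cancel_mono _).1 e, fun y => ⟨y ≫ inv ((m • 𝟙 R.Q) ▷ Y), by simp⟩⟩

/-- rational homology -/
def V (n : ℤ) (Y : T) : Type v := (𝟙_ T)⟦n⟧ ⟶ R.Q ⊗ Y

instance (n : ℤ) (Y : T) : AddCommGroup (R.V n Y) :=
  inferInstanceAs (AddCommGroup ((𝟙_ T)⟦n⟧ ⟶ R.Q ⊗ Y))

instance (n : ℤ) (Y : T) : Module ℚ (R.V n Y) := ratModule _ (R.bij _ Y)

/-- the underlying morphism of a homology class -/
def hom {n : ℤ} {Y : T} : R.V n Y ≃+ ((𝟙_ T)⟦n⟧ ⟶ R.Q ⊗ Y) := AddEquiv.refl _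

/-- the induced map in rational homology -/
def Vm (n : ℤ) {Y Z : T} (f : Y ⟶ Z) : R.V n Y →ₗ[ℚ] R.V n Z :=
  (show R.V n Y →+ R.V n Z from Preadditive.rightComp _ (R.Q ◁ f)).toRatLinearMap

theorem hom_Vm (n : ℤ) {Y Z : T} (f : Y ⟶ Z) (x : R.V n Y) :
    R.hom (R.Vm n f x) = R.hom x ≫ R.Q ◁ f := rfl

theorem Vm_id (n : ℤ) (Y : T) : R.Vm n (𝟙 Y) = LinearMap.id := by
  ext x
  apply R.hom.injective
  rw [hom_Vm, whiskerLeft_id, Category.comp_id, LinearMap.id_apply]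

theorem Vm_comp (n : ℤ) {X Y Z : T} (f : X ⟶ Y) (g : Y ⟶ Z) :
    R.Vm n (f ≫ g) = R.Vm n g ∘ₗ R.Vm n f := by
  ext x
  apply R.hom.injective
  rw [LinearMap.comp_apply, hom_Vm, hom_Vm, hom_Vm, MonoidalCategory.whiskerLeft_comp,
    Category.assoc]

theorem Vm_add (n : ℤ) {Y Z : T} (f g : Y ⟶ Z) : R.Vm n (f + g) = R.Vm n f + R.Vm n g := by
  ext x
  apply R.hom.injective
  rw [LinearMap.add_apply, map_add, hom_Vm, hom_Vm, hom_Vm, MonoidalPreadditive.whiskerLeft_add,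
    Preadditive.comp_add]

theorem Vm_zero (n : ℤ) (Y Z : T) : R.Vm n (0 : Y ⟶ Z) = 0 := by
  ext x
  apply R.hom.injective
  rw [hom_Vm, MonoidalPreadditive.whiskerLeft_zero, comp_zero, LinearMap.zero_apply, map_zero]

/-- `Vm` as an additive map -/
def VmHom (n : ℤ) (Y Z : T) : (Y ⟶ Z) →+ (R.V n Y →ₗ[ℚ] R.V n Z) where
  toFun := R.Vm n
  map_zero' := R.Vm_zero n Y Z
  map_add' := R.Vm_add n

/-- the Lefschetz number -/
def lef {Y : T} (f : Y ⟶ Y) : ℚ :=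
  ∑ᶠ n : ℤ, ((n.negOnePow : ℤ) : ℚ) * LinearMap.trace ℚ (R.V n Y) (R.Vm n f)

/-- finite dimensional rational homology -/
def FD (Y : T) : Prop :=
  (∀ n, Module.Finite ℚ (R.V n Y)) ∧ {n | Nontrivial (R.V n Y)}.Finite

/-- The rational homology of `X` is the module of coinvariants of the one of `Y`. -/
structure Co {G : Type} [Fintype G] {Y X : T} (ρ : G → (Y ⟶ Y)) (π : Y ⟶ X) : Prop where
  surj : ∀ n, Function.Surjective (R.Vm n π)
  ker : ∀ n (y : R.V n Y), R.Vm n π y = 0 → R.Vm n (∑ g, ρ g) y = 0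

end RatD

/-- an action of the group `G` on `Y` and an invariant morphism -/
structure Act {G : Type} [Group G] {Y X : T} (ρ : G → (Y ⟶ Y)) (π : Y ⟶ X) : Prop where
  one : ρ 1 = 𝟙 Y
  mul : ∀ g h, ρ (g * h) = ρ h ≫ ρ g
  inv : ∀ g, ρ g ≫ π = π

/-! ### Small endomorphisms -/

/-- the maps `Y ⟶ Z` killed by a power of `f` -/
def Nil {Y : T} (f : End Y) (Z : T) : AddSubgroup (Y ⟶ Z) where
  carrier := {x | ∃ j : ℕ, (f ^ j : End Y) ≫ x = 0}
  zero_mem' := ⟨0, comp_zero⟩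
  add_mem' := by
    rintro x y ⟨i, hi⟩ ⟨j, hj⟩
    refine ⟨i + j, ?_⟩
    have h1 : (f ^ (i + j) : End Y) ≫ x = 0 := by
      rw [pow_add, End.mul_def, Category.assoc, hi, comp_zero]
    have h2 : (f ^ (i + j) : End Y) ≫ y = 0 := by
      rw [add_comm, pow_add, End.mul_def, Category.assoc, hj, comp_zero]
    rw [Preadditive.comp_add, h1, h2, add_zero]
  neg_mem' := by
    rintro x ⟨i, hi⟩
    exact ⟨i, by rw [Preadditive.comp_neg, hi, neg_zero]⟩

theorem mem_Nil {Y Z : T} (f : End Y) (x : Y ⟶ Z) :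
    x ∈ Nil f Z ↔ ∃ j : ℕ, (f ^ j : End Y) ≫ x = 0 := Iff.rfl

/-- `f` is small for the cohomology theory `Λ` -/
def Sm (Λ : T) {Y : T} (f : End Y) : Prop := ∀ t : ℤ, (Nil f (Λ⟦t⟧)).FiniteIndex

/-! ### The rules of a trace -/

/-- the rules of a trace function which are used for the powers of a space -/
structure TrR (T : Type u) [Category.{v} T] [Preadditive T] [HasZeroObject T]
    [HasShift T ℤ] [∀ n : ℤ, (shiftFunctor T n).Additive] [Pretriangulated T]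
    [MonoidalCategory T] [SymmetricCategory T] [TensorTriangulated T] where
  /-- the trace -/
  tr : ∀ {Y : T}, (Y ⟶ Y) → ℚ
  one : tr (𝟙 (𝟙_ T)) = 1
  cyc : ∀ {X Y : T}, Fn X → Fn Y → ∀ (a : X ⟶ Y) (b : Y ⟶ X), tr (a ≫ b) = tr (b ≫ a)
  ten : ∀ {X Y : T}, Fn X → Fn Y → ∀ (f : X ⟶ X) (g : Y ⟶ Y), tr (f ⊗ₘ g) = tr f * tr g
  swap : ∀ {Z X : T}, Fn Z → Fn X → ∀ (h : Z ⊗ X ⟶ Z ⊗ X) (k : X ⟶ X),
    tr ((h ⊗ₘ k) ≫ (α_ Z X X).hom ≫ Z ◁ (β_ X X).hom ≫ (α_ Z X X).inv) = tr (h ≫ Z ◁ k)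

end Vale.Agent.P261Z.Dl
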