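import Vale.Agent.P261Z.T2.DTop
import Vale.Agent.P261Z.T2.DTr

/-!
# P261, block T2, theorem DELTA: the rows
-/

open CategoryTheory MonoidalCategory Limits Pretriangulated MonObj Topology OnePoint

set_option linter.unusedSectionVars false

noncomputable section

universe v u

namespace Vale.Agent.P261Z.Dl

open Vale.Agent.P251 Vale.Agent.P251.T Vale.Agent.P251.S Vale.Agent.P251.I Vale.Agent.P251.G
  Vale.Agent.P251.G.LC

/-! ### Powers as finite cell spaces -/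

/-- splitting off the first factor -/
def consHomeo (A : LC) (n : ℕ) : (A × (Fin n → A)) ≃ₜ (Fin (n + 1) → A) where
  toFun x := Fin.cons x.1 x.2
  invFun a := (a 0, fun i => a i.succ)
  left_inv _ := rfl
  right_inv a := Fin.cons_self_tail a
  continuous_toFun := continuous_pi fun i => Fin.cases continuous_fst
    (fun j => (continuous_apply j).comp continuous_snd) i
  continuous_invFun := (continuous_apply 0).prodMk (continuous_pi fun _ => continuous_apply _)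

/-- splitting off the first factor -/
def consIso (A : LC) (n : ℕ) : A ⊗ powObj (Fin n) A ≅ powObj (Fin (n + 1)) A :=
  ofHomeo (X := LC.of (A × (Fin n → A))) (Y := powObj (Fin (n + 1)) A) (consHomeo A n)

theorem app_consIso_coe (A : LC) (n : ℕ) (a : A) (b : Fin n → A) :
    app (consIso A n).hom (((a, b) : A × (Fin n → A)) : OnePoint (A × (Fin n → A))) =
      ((Fin.cons a b : Fin (n + 1) → A) : OnePoint (Fin (n + 1) → A)) := rfl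

theorem fc_pow_fin {A : LC} (h : FC A) : ∀ n : ℕ, FC (powObj (Fin n) A)
  | 0 => FC.of_unique _
  | n + 1 => (h.tensor (fc_pow_fin h n)).of_iso (consIso A n)

theorem fc_pow (J : Type) [Finite J] {A : LC} (h : FC A) : FC (powObj J A) := by
  obtain ⟨n, ⟨e⟩⟩ := Finite.exists_equiv_fin J
  exact (fc_pow_fin h n).of_iso (reIso A e.symm)

/-- the power of a finite cell space -/
abbrev pwF (J : Type) [Finite J] (A : FCat) : FCat := FCat.mk (fc_pow J A.2)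

/-- the power of a morphism -/
abbrev pwH (J : Type) [Finite J] {A B : FCat} (g : A ⟶ B) : pwF J A ⟶ pwF J B :=
  FCat.hom (powHom J g.hom)

/-- the permutation of the factors -/
abbrev pmF {J : Type} [Finite J] (A : FCat) (σ : Equiv.Perm J) : pwF J A ⟶ pwF J A :=
  FCat.hom (perm A.obj σ)

/-! ### Rows about spaces -/

/-- ROW NICE, part 1 -/
def NSPH : Prop := Nice (LC.of Empty) ∧ ∀ n, Nice (Sph n)

/-- ROW NICE, part 2 -/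
def NTEN : Prop := ∀ A B : LC, Nice A → Nice B → Nice (A ⊗ B)

/-- ROW NICE, part 3 -/
def SEPX : Prop :=
  ∀ {A B : LC} (i : A ⟶ B), Function.Injective (app i) → Sep A → Sep (cof i) → Sep B

/-- ROW NICE, part 4 -/
def DIAG : Prop :=
  ∀ (J : Type) [Finite J] [Nonempty J] (A : LC), Cofib (dg A) → Cofib (dgJ J A)

/-- ROW PP, part 1: the pushout product of a cofibration with `0 ⟶ [0, ∞)` -/
def PP : Prop :=
  ∀ {A B Z : LC} (i : A ⟶ B), Cofib i → ∀ m : Z ⟶ B ⊗ HH, Function.Injective (app m) →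
    (∀ (b : B) (s : NNReal), (((b, s) : B × NNReal) : OnePoint (B × NNReal)) ∈ Set.range (app m) ↔
      s = 0 ∨ (b : OnePoint B) ∈ Set.range (app i)) → Cofib m

/-- ROW PP, part 2: boundary and diagonal of the square of a cone -/
def DD : Prop :=
  ∀ X : LC, Cofib (dg X) → ∀ {Z : LC} (m : Z ⟶ (X ⊗ HH) ⊗ (X ⊗ HH)), Function.Injective (app m) →
    (∀ (x x' : X) (s s' : NNReal),
      ((((x, s), (x', s')) : (X × NNReal) × (X × NNReal)) :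
        OnePoint ((X × NNReal) × (X × NNReal))) ∈ Set.range (app m) ↔
      s = 0 ∨ s' = 0 ∨ (x = x' ∧ s = s')) → Cofib m

/-- ROW GLUE: the diagonal of a mapping cone is a cofibration -/
def GLUE : Prop :=
  ∀ {X A : LC} (g : X ⟶ A), Cofib (dg X) → Cofib (dg A) → Cofib (dg (cone g))

/-- good spaces are closed under mapping cones (assembled from the rows) -/
def NCONE : Prop := ∀ {X A : LC} (g : X ⟶ A), Nice X → Nice A → Nice (cone g)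

/-- ROW NDR -/
def NDR : Prop :=
  ∀ (G : Type) [Group G] [Finite G] (M i : ℕ),
    Cofib (εG G M i) ∧ ∀ W : GSp G, Cofib (ιo M i W)

/-- ROW FCE -/
def FCE : Prop :=
  ∀ (G : Type) [Group G] [Finite G] (M : ℕ),
    (∀ i, i ≤ M → FC (EG G M i).X) ∧ ∀ i : Fin M, FC (FG G M i)

/-- ROW STRAT: the strata are free -/
def STRAT : Prop :=
  ∀ (G : Type) [Group G] [Finite G] (M : ℕ) (i : Fin M) (W : GSp G),
    ∃ (s : FG G M i ⊗ W.X ⟶ cof (ιh M i W)) (e : FG G M i ⊗ W.X ≅ cof (ιo M i W)),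
      s ≫ πs M i W = e.hom ∧
      (∀ (f : W.X ⟶ W.X) (hf : GSp.IsEq f), FG G M i ◁ f ≫ e.hom = e.hom ≫ fs M i f hf) ∧
      ∀ (k : ℕ) (ν : G ≃ Fin k), ∃ u : finProd (FG G M i ⊗ W.X) k ≅ cof (ιh M i W),
        ∀ g, finIncl (FG G M i ⊗ W.X) k (ν g) ≫ u.hom = s ≫ ρs M i W g

/-- ROW CLASS: the classifying map of the complement of the diagonal -/
def CLASS : Prop :=
  ∀ (G : Type) [Group G] [Finite G], (Nat.card G).Prime → ∀ A : LC, Sep A →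
    ∃ (M : ℕ) (c : (Wd G A).X → (EG G M M).X), Continuous c ∧ ∀ (g : G) w, c (g • w) = g • c w

/-! ### Rows about traces -/

/-- ROW CT: the calculus of the categorical trace -/
structure CT (C : Type u) [Category.{v} C] [MonoidalCategory C] [SymmetricCategory C] :
    Prop where
  one : ∀ {D : C} (P : ExactPairing (𝟙_ C) D) (a : 𝟙_ C ⟶ 𝟙_ C), ctr P a = a
  cyc : ∀ {X Y D E : C} (P : ExactPairing X D) (P' : ExactPairing Y E) (a : X ⟶ Y) (b : Y ⟶ X),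
    ctr P (a ≫ b) = ctr P' (b ≫ a)
  ten : ∀ {X Y D E H : C} (P : ExactPairing X D) (P' : ExactPairing Y E)
    (P'' : ExactPairing (X ⊗ Y) H) (f : X ⟶ X) (g : Y ⟶ Y),
    ctr P'' (f ⊗ₘ g) = ctr P f ≫ ctr P' g
  swap : ∀ {Z X D E H : C} (_ : ExactPairing X D) (P : ExactPairing (Z ⊗ X) E)
    (P' : ExactPairing ((Z ⊗ X) ⊗ X) H) (h : Z ⊗ X ⟶ Z ⊗ X) (k : X ⟶ X),
    ctr P' ((h ⊗ₘ k) ≫ (α_ Z X X).hom ≫ Z ◁ (β_ X X).hom ≫ (α_ Z X X).inv) = ctr P (h ≫ Z ◁ k)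

variable {T : Type u} [Category.{v} T] [Preadditive T] [HasZeroObject T]
    [HasShift T ℤ] [∀ n : ℤ, (shiftFunctor T n).Additive] [Pretriangulated T]
    [MonoidalCategory T] [SymmetricCategory T] [TensorTriangulated T]

variable (T) in
/-- ROW DUAL: finite objects are dualizable (proved under `[MonoidalClosed T]`) -/
def DUAL : Prop := ∀ Y : T, Fn Y → ∃ D : T, Nonempty (ExactPairing Y D)

/-- an endomorphism `(a, b, c)` of the triangle `(f, g, h)` -/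
structure TriEnd {X Y Z : T} (f : X ⟶ Y) (g : Y ⟶ Z) (h : Z ⟶ X⟦(1 : ℤ)⟧) (a : X ⟶ X)
    (b : Y ⟶ Y) (c : Z ⟶ Z) : Prop where
  w₁ : f ≫ b = a ≫ f
  w₂ : g ≫ c = b ≫ g
  w₃ : h ≫ a⟦(1 : ℤ)⟧' = c ≫ h

/-- ROW LIN1 -/
structure LIN1 (R : RatD T) : Prop where
  fd : ∀ {Y : T}, Fn Y → R.FD Y
  add : ∀ {Y : T}, R.FD Y → ∀ f g : Y ⟶ Y, R.lef (f + g) = R.lef f + R.lef g
  cyc : ∀ {X Y : T}, R.FD X → R.FD Y → ∀ (a : X ⟶ Y) (b : Y ⟶ X), R.lef (a ≫ b) = R.lef (b ≫ a)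
  shift : ∀ {Y : T}, R.FD Y → ∀ (f : Y ⟶ Y) (k : ℤ),
    R.lef (f⟦k⟧') = ((k.negOnePow : ℤ) : ℚ) * R.lef f
  one : R.lef (𝟙 (𝟙_ T)) = 1

/-- ROW LIN2: additivity of the Lefschetz number -/
def LIN2 (R : RatD T) : Prop :=
  ∀ {X Y Z : T} {f : X ⟶ Y} {g : Y ⟶ Z} {h : Z ⟶ X⟦(1 : ℤ)⟧}, Triangle.mk f g h ∈ distTriang T →
    R.FD X → R.FD Y → R.FD Z → ∀ {a : X ⟶ X} {b : Y ⟶ Y} {c : Z ⟶ Z}, TriEnd f g h a b c →
    R.lef b = R.lef a + R.lef c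

/-- ROW LEF: the Lefschetz number is the categorical trace -/
def LEF (R : RatD T) : Prop :=
  ∀ {Y D : T} (P : ExactPairing Y D), R.FD Y → ∀ (f : Y ⟶ Y) (m : ℤ),
    ctr P f = m • 𝟙 (𝟙_ T) → R.lef f = m

/-- ROW COI: coinvariants -/
structure COI (R : RatD T) : Prop where
  tri : ∀ {G : Type} [Group G] [Fintype G] {Y₁ Y₂ Y₃ X₁ X₂ X₃ : T}
    {f' : Y₁ ⟶ Y₂} {g' : Y₂ ⟶ Y₃} {h' : Y₃ ⟶ Y₁⟦(1 : ℤ)⟧}
    {f : X₁ ⟶ X₂} {g : X₂ ⟶ X₃} {h : X₃ ⟶ X₁⟦(1 : ℤ)⟧},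
    Triangle.mk f' g' h' ∈ distTriang T → Triangle.mk f g h ∈ distTriang T →
    ∀ {ρ₁ : G → (Y₁ ⟶ Y₁)} {ρ₂ : G → (Y₂ ⟶ Y₂)} {ρ₃ : G → (Y₃ ⟶ Y₃)}
      {π₁ : Y₁ ⟶ X₁} {π₂ : Y₂ ⟶ X₂} {π₃ : Y₃ ⟶ X₃}, Act ρ₁ π₁ → Act ρ₂ π₂ → Act ρ₃ π₃ →
      (∀ k, TriEnd f' g' h' (ρ₁ k) (ρ₂ k) (ρ₃ k)) → f' ≫ π₂ = π₁ ≫ f → g' ≫ π₃ = π₂ ≫ g →
      h' ≫ π₁⟦(1 : ℤ)⟧' = π₃ ≫ h → R.Co ρ₁ π₁ → R.Co ρ₃ π₃ → R.Co ρ₂ π₂
  tr : ∀ {G : Type} [Group G] [Fintype G] {Y X : T} {ρ : G → (Y ⟶ Y)} {π : Y ⟶ X},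
    Act ρ π → R.Co ρ π → R.FD Y → R.FD X → ∀ (φ' : Y ⟶ Y) (φ : X ⟶ X), φ' ≫ π = π ≫ φ →
    (Fintype.card G : ℚ) * R.lef φ = ∑ g, R.lef (ρ g ≫ φ')

/-- ROW SM1: small endomorphisms and triangles -/
structure SM1 (Λ : T) : Prop where
  shift : ∀ {Y : T} (f : Y ⟶ Y) (k : ℤ), Sm Λ (Y := Y) f → Sm Λ (Y := Y⟦k⟧) (f⟦k⟧')
  tri₂ : ∀ {X Y Z : T} {f : X ⟶ Y} {g : Y ⟶ Z} {h : Z ⟶ X⟦(1 : ℤ)⟧},
    Triangle.mk f g h ∈ distTriang T → ∀ {a : X ⟶ X} {b : Y ⟶ Y} {c : Z ⟶ Z},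
    TriEnd f g h a b c → Sm Λ (Y := X) a → Sm Λ (Y := Z) c → Sm Λ (Y := Y) b
  tri₃ : ∀ {X Y Z : T} {f : X ⟶ Y} {g : Y ⟶ Z} {h : Z ⟶ X⟦(1 : ℤ)⟧},
    Triangle.mk f g h ∈ distTriang T → ∀ {a : X ⟶ X} {b : Y ⟶ Y} {c : Z ⟶ Z},
    TriEnd f g h a b c → Sm Λ (Y := X) a → Sm Λ (Y := Y) b → Sm Λ (Y := Z) c
  ten : ∀ {Y W : T} (f : Y ⟶ Y), Fn W → Sm Λ (Y := Y) f → Sm Λ (Y := Y ⊗ W) (f ▷ W)

/-- ROW SM2: the last step -/
def SM2 (Λ : T) : Prop :=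
  ∀ (p a : ℕ), p.Prime → ((p : ℤ) ^ a) • 𝟙 Λ = 0 → ∀ {Y : T} (f : End Y), Fn Y → Sm Λ f →
    (∀ j : ℕ, ∃ (D : T) (co : 𝟙_ T ⟶ Y ⊗ D) (ev : Y ⊗ D ⟶ 𝟙_ T) (m : ℤ),
      co ≫ (f ^ (j + 1) : End Y) ▷ D ≫ ev = m • 𝟙 (𝟙_ T) ∧ ¬ (p : ℤ) ∣ m) →
    ∀ t : ℤ, Finite (𝟙_ T ⟶ Λ⟦t⟧)

/-- ROW PERM1: traces of powers and of permutations -/
structure PERM1 (F : SpaceFunctor T) (τ : TrR T) : Prop where
  pow : ∀ (J : Type) [Finite J] {A : FCat} (g : A ⟶ A),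
    τ.tr (F.S.map (pwH J g)) = τ.tr (F.S.map g) ^ Nat.card J
  fix : ∀ (J : Type) [Finite J] (A : FCat) (M : ℕ), τ.tr (𝟙 (F.S.obj A)) = M →
    ∀ σ : Equiv.Perm J, τ.tr (F.S.map (pmF A σ)) = Nat.card {u : J → Fin M // u ∘ σ = u}

/-- ROW PERM2: the trace of a cyclic permutation composed with a power -/
def PERM2 (F : SpaceFunctor T) (τ : TrR T) : Prop :=
  ∀ (G : Type) [Group G] [Finite G], (Nat.card G).Prime → ∀ k : G, k ≠ 1 →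
    ∀ {A : FCat} (g : A ⟶ A), τ.tr (F.S.map (pmF A (Equiv.mulLeft k) ≫ pwH G g)) =
      τ.tr (F.S.map ((show End A from g) ^ Nat.card G : End A))

/-- ROW REAL: realization by good spaces -/
def REAL (F : SpaceFunctor T) : Prop :=
  ∀ {Y : T} (f : Y ⟶ Y), Fn Y → ∃ (A : FCat) (g : A ⟶ A) (k : ℤ) (e : F.S.obj A ≅ Y⟦k⟧),
    Nice A.obj ∧ F.S.map g ≫ e.hom = e.hom ≫ f⟦k⟧'

/-! ### The final statement -/

/-- the action of the symmetric group on the power of a space -/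
def permHom (F : SpaceFunctor T) (B : Type) [Finite B] (A : FCat) :
    Equiv.Perm B →* End (F.S.obj (pwF B A)) where
  toFun σ := F.S.map (pmF A σ)
  map_one' := by
    have h : pmF A (1 : Equiv.Perm B) = 𝟙 _ := ObjectProperty.hom_ext _ (perm_one A.obj)
    rw [h, F.S.map_id]
    rfl
  map_mul' σ τ := by
    have h : pmF A (σ * τ) = pmF A τ ≫ pmF A σ := ObjectProperty.hom_ext _ (perm_mul A.obj σ τ)
    rw [h, F.S.map_comp]
    rfl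

/-- the action of the group ring on the power of a space -/
def actS (F : SpaceFunctor T) (B : Type) [Finite B] (A : FCat) :
    MonoidAlgebra ℤ (Equiv.Perm B) →ₐ[ℤ] End (F.S.obj (pwF B A)) :=
  MonoidAlgebra.lift ℤ _ _ (permHom F B A)

theorem actS_apply (F : SpaceFunctor T) (B : Type) [Finite B] (A : FCat)
    (c : MonoidAlgebra ℤ (Equiv.Perm B)) :
    actS F B A c = c.coeff.sum fun σ a => a • (show End _ from F.S.map (pmF A σ)) :=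
  MonoidAlgebra.lift_apply _ _

/-- the trace of `c` on the permutation module with basis `B → Fin M` -/
def fixTr {B : Type} (M : ℕ) (c : MonoidAlgebra ℤ (Equiv.Perm B)) : ℤ :=
  c.coeff.sum fun σ a => a * (Nat.card {u : B → Fin M // u ∘ σ = u} : ℤ)

/-- THEOREM DELTA -/
def DELTA (F : SpaceFunctor T) : Prop :=
  ∀ (Λ : T) (p a : ℕ), p.Prime → ((p : ℤ) ^ a) • 𝟙 Λ = 0 →
    ∀ (A : FCat) (M : ℕ), Ev M (F.S.obj A) →
    ∀ (B : Type) [Finite B] (c : MonoidAlgebra ℤ (Equiv.Perm B)) (N : ℕ) (d : ℤ),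
      ¬ (p : ℤ) ^ N ∣ d → (∀ j : ℕ, fixTr M (c ^ (j + 1)) ≡ d [ZMOD (p : ℤ) ^ N]) →
      Sm Λ (actS F B A c) → ∀ t : ℤ, Finite (𝟙_ T ⟶ Λ⟦t⟧)

end Vale.Agent.P261Z.Dl
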