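import Vale.Agent.P261Z.T2.BTr
import Vale.Agent.P261Z.T2.DSk
import Vale.Agent.P251.S.GrE
import Vale.Agent.P251.M.BGlueB

/-!
# P261, block T2 (base): definitions and rows for the cobar model of a power of `CP`

* algebra: `Tr.cC`, `Tr.cmon`, `Tr.deg`, `Tr.ccomb`, rows `BAS`, `WT`;
* modules: `kap`, `comb`, `Free`, rows `SQ`, `PER`;
* classes: `CPF`, `YF`, `ucl`, `ycl`, rows `COS`, `CLS`, `FREE`, `EVCP`;
* the localized periodic modules: `ML`, `wL`, `sharpY`, `iY`, rows `ES`, `KAP`.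
-/

open CategoryTheory MonoidalCategory Limits Pretriangulated MonObj

set_option linter.unusedSectionVars false

noncomputable section

universe v u

namespace Vale.Agent.P261Z.T2

open Vale.Agent.P251 Vale.Agent.P251.T Vale.Agent.P251.S Vale.Agent.P251.I Vale.Agent.P251.G
  Vale.Agent.P251.F Vale.Agent.P251.M Vale.Agent.P251.M.EvenSpheres

/-! ### Algebra -/

namespace Tr

variable (N : Type) [CommRing N] {B : Type} [Fintype B] [DecidableEq B] {M : ℕ}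

variable {N} (B M) in
/-- the constants in the cobar ring -/
def cC (s : ℕ) : Cob N s →+* Cob (Tr N B M) s := Cob.mapRing (C B M) s

/-- the monomials at the vertex `0` -/
def cmon (s : ℕ) (t : B → Fin M) : Cob (Tr N B M) s := MvPolynomial.C (mon N t)

/-- the degree of a monomial -/
def deg (t : B → Fin M) : ℤ := ∑ b, ((t b : ℕ) : ℤ)

/-- `∑ t, l t * x ^ t` -/
def ccomb (s : ℕ) : ((B → Fin M) → Cob N s) →+ Cob (Tr N B M) s where
  toFun l := ∑ t, cC B M s (l t) * cmon N s t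
  map_zero' := by simp
  map_add' l l' := by
    rw [← Finset.sum_add_distrib]
    exact Finset.sum_congr rfl fun t _ => by rw [Pi.add_apply, map_add, add_mul]

theorem ccomb_apply (s : ℕ) (l : (B → Fin M) → Cob N s) :
    ccomb N s l = ∑ t, cC B M s (l t) * cmon N s t := rfl

end Tr

/-- ROW BAS: the monomials are a basis -/
def BAS : Prop := ∀ (N : Type) [CommRing N] (B : Type) [Fintype B] [DecidableEq B] (M s : ℕ),
  Function.Bijective (Tr.ccomb N (B := B) (M := M) s)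

/-- ROW WT: the monomial `x ^ t` has weight `- deg t` -/
def WT : Prop := ∀ (N : Type) [CommRing N] [LawRing N] (B : Type) [Fintype B] [DecidableEq B]
  (M s : ℕ) (w : ℤ) (l : (B → Fin M) → Cob N s),
  Cob.IsWt w (Tr.ccomb N s l) ↔ ∀ t, Cob.IsWt (w + Tr.deg t) (l t)

/-! ### Modules -/

section Mod

variable {T : Type u} [Category.{v} T] [Preadditive T] [MonoidalCategory T]
  [MonoidalPreadditive T] {A N Y : T} [MonObj A]

/-- the product of a class `y : Y ⟶ A` and an element of a module -/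
def kap (M : ModStr A N) (y : Y ⟶ A) (e : 𝟙_ T ⟶ N) : Y ⟶ N := (ρ_ Y).inv ≫ (y ⊗ₘ e) ≫ M.act

theorem kap_add (M : ModStr A N) (y : Y ⟶ A) (e e' : 𝟙_ T ⟶ N) :
    kap M y (e + e') = kap M y e + kap M y e' := by
  rw [kap, MonoidalPreadditive.tensor_add, Preadditive.add_comp, Preadditive.comp_add]
  rfl

theorem kap_zero (M : ModStr A N) (y : Y ⟶ A) : kap M y 0 = 0 := by
  rw [kap, MonoidalPreadditive.tensor_zero, zero_comp, comp_zero]

theorem comp_kap {Y' : T} (f : Y' ⟶ Y) (M : ModStr A N) (y : Y ⟶ A) (e : 𝟙_ T ⟶ N) :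
    f ≫ kap M y e = kap M (f ≫ y) e := by
  rw [kap, kap, rightUnitor_inv_naturality_assoc, ← tensorHom_id,
    tensorHom_comp_tensorHom_assoc, Category.id_comp]

/-- `∑ t, y t * e t` -/
def comb (M : ModStr A N) {J : Type} [Fintype J] (y : J → (Y ⟶ A)) :
    (J → (𝟙_ T ⟶ N)) →+ (Y ⟶ N) where
  toFun e := ∑ t, kap M (y t) (e t)
  map_zero' := Finset.sum_eq_zero fun t _ => kap_zero M (y t)
  map_add' e e' := by
    rw [← Finset.sum_add_distrib]
    exact Finset.sum_congr rfl fun t _ => kap_add M (y t) (e t) (e' t)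

theorem comb_apply (M : ModStr A N) {J : Type} [Fintype J] (y : J → (Y ⟶ A))
    (e : J → (𝟙_ T ⟶ N)) : comb M y e = ∑ t, kap M (y t) (e t) := rfl

/-- the classes `y t` are a basis of the maps from `Y` to any module -/
def Free {J : Type} [Fintype J] (y : J → (Y ⟶ A)) : Prop :=
  ∀ (N : T) (M : ModStr A N), Function.Bijective (comb M y)

end Mod

/-- ROW SQ: the square zero extension `A ⊞ N`; a module is a retract of an algebra -/
def SQ (T : Type u) [Category.{v} T] [Preadditive T] [MonoidalCategory T] [SymmetricCategory T] :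
    Prop :=
  ∀ (A N : T) [MonObj A] [IsCommMonObj A] (M : ModStr A N),
    ∃ (K : T) (_ : MonObj K) (_ : IsCommMonObj K) (f : A ⟶ K) (_ : IsMonHom f) (i : N ⟶ K)
      (r : K ⟶ N), i ≫ r = 𝟙 N ∧ M.act ≫ i = (f ⊗ₘ i) ≫ μ[K] ∧
        (f ▷ K) ≫ μ[K] ≫ r = (A ◁ r) ≫ M.act

/-! ### Classes -/

/-- the projective space with `m + 1` cells -/
abbrev CPF (m : ℕ) : FCat := FCat.mk (Cell.fc_gr 1 (Fin (m + 1)))

/-- the power of the projective space -/
abbrev YF (B : Type) [Fintype B] (m : ℕ) : FCat := Dl.pwF B (CPF m)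

/-- the monomials in the Euler classes -/
def ucl {E : Q.MultTheory.{v}} (o : Q.Orientation E) {B : Type} [Fintype B] {m : ℕ}
    (t : B → Fin (m + 1)) : E.U (Q.powObj (Q.CP (Fin (m + 1))) B) :=
  haveI := Q.good_gr_one o (Fin (m + 1))
  ∏ b, o.lc (Q.evL (m + 1) b) ^ (t b : ℕ)

/-- ROW COS: change of the orientation -/
def COS : Prop :=
  ∀ (E : Q.MultTheory.{0}) (B : Type) [Fintype B] [DecidableEq B] (m k n : ℕ)
    [E.Good (Q.CP (Fin (m + 1)))] (o : Fin (n + 1) → Q.Orientation E)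
    (α : Fin (k + 1) → Fin (n + 1)) (t : B → Fin (m + 1)) (a : (B → Fin (m + 1)) → Cob Laz n),
    Cob.map α (Tr.cmon Laz k t) = Tr.ccomb Laz n a →
      ucl (o (α 0)) t = ∑ J, oEv o (a J) • ucl (o 0) J

variable {T : Type u} [Category.{v} T] [Preadditive T] [HasZeroObject T]
    [HasShift T ℤ] [∀ n : ℤ, (shiftFunctor T n).Additive] [Pretriangulated T] [IsTriangulated T]
    [MonoidalCategory T] [SymmetricCategory T] [TensorTriangulated T] [MonoidalClosed T]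
    [HasCoproducts.{0} T] [HasProducts.{0} T] [StableCat T]

/-- ROW PER: from `K ⊗ PS` to a periodic `K` -/
def PER (S : EvenSpheres T) : Prop :=
  ∀ (K Y : T) [MonObj K] [IsCommMonObj K] (φ : S.PS ⟶ K) [IsMonHom φ] (J : Type) [Fintype J]
    (d : J → ℤ) (z : ∀ t, Y ⟶ K ⊗ S.S (d t)),
    Function.Bijective (comb (ModStr.self (K ⊗ S.PS)) fun t => z t ≫ K ◁ S.inPS (d t)) →
    Function.Bijective (comb (ModStr.self K) fun t => z t ≫ K ◁ S.inPS (d t) ≫ K ◁ φ ≫ μ[K])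

section Cls

variable {S : EvenSpheres T} {F : SpaceFunctor T} (e : F.S.obj CCF ≅ S.L)

/-- the monomials as maps of `T` -/
def ycl {K : T} [MonObj K] [IsCommMonObj K] (o : Q.Orientation (thK e K)) {B : Type} [Fintype B]
    {m : ℕ} (t : B → Fin (m + 1)) : F.S.obj (YF B m) ⟶ K ⊗ S.PS :=
  tU e K (YF B m) (ucl o t)

/-- ROW CLS: the properties of the classes `ycl` -/
structure CLS (B : Type) [Fintype B] [DecidableEq B] (m : ℕ) : Prop where
  fre : ∀ (K : T) [MonObj K] [IsCommMonObj K] (o : Q.Orientation (thK e K)),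
    Function.Bijective (comb (ModStr.self (K ⊗ S.PS)) (ycl e o (B := B) (m := m)))
  deg : ∀ (K : T) [MonObj K] [IsCommMonObj K] (o : Q.Orientation (thK e K))
    (t : B → Fin (m + 1)), ∃ z : F.S.obj (YF B m) ⟶ K ⊗ S.S (Tr.deg t),
      ycl e o t = z ≫ K ◁ S.inPS (Tr.deg t)
  push : ∀ (K K' : T) [MonObj K] [IsCommMonObj K] [MonObj K'] [IsCommMonObj K'] (f : K ⟶ K')
    [IsMonHom f] (o : Q.Orientation (thK e K)) (t : B → Fin (m + 1)),
      ycl e ((thKHom e f).push o) t = ycl e o t ≫ f ▷ S.PS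
  perm : ∀ (K : T) [MonObj K] [IsCommMonObj K] (o : Q.Orientation (thK e K))
    (σ : Equiv.Perm B) (t : B → Fin (m + 1)),
      F.S.map (Dl.pmF (CPF m) σ) ≫ ycl e o t = ycl e o (t ∘ σ)

/-- ROW FREE (from `SQ`, `PER`, `CLS`) -/
def FREE (B : Type) [Fintype B] [DecidableEq B] (m : ℕ) : Prop :=
  ∀ (A : T) [MonObj A] [IsCommMonObj A] (o : Q.Orientation (thK e A)),
    Free (ycl e o (B := B) (m := m))

end Cls

/-- ROW EVCP: the projective space has `m + 1` even cells -/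
def EVCP (F : SpaceFunctor T) : Prop := ∀ m : ℕ, Dl.Ev (m + 1) (F.S.obj (CPF m))

/-! ### The localized periodic modules -/

section Loc

variable (D : MUData T) (U : UnitCof D.R) (C : T) {K : T} (F : LocFunctor K)

/-- `L N_s` as a module over `R^{⊗ (s+1)} ⊗ PS` -/
def ML (s : ℕ) : ModStr (Am D.R (s + 1) ⊗ (stdEven T).PS) (F.L.obj (GD.Ns D C s)) :=
  F.mod (GD.MN D C s)

/-- the projection to the part of weight `w` -/
def wL (s : ℕ) (w : ℤ) : F.L.obj (GD.Ns D C s) ⟶ F.L.obj (GD.Ns D C s) :=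
  F.L.map ((Am D.R (s + 1) ⊗ C) ◁ wq (stdEven T) w)

/-- `Y ⊗ S^{2w} ≅ Y⟦2w⟧` -/
def shY (Y : T) (w : ℤ) : Y ⊗ (stdEven T).S w ≅ Y⟦2 * w⟧ :=
  whiskerLeftIso Y (Vale.Agent.P251.B.sphE T w) ≪≫ tensorSph (2 * w) Y

/-- homogeneous maps `Y ⟶ L (X ⊗ PS)` -/
def sharpY {Y X : T} (w : ℤ) (a : Y ⊗ (stdEven T).S w ⟶ F.L.obj X) :
    Y ⟶ F.L.obj (X ⊗ (stdEven T).PS) :=
  (ρ_ Y).inv ≫ Y ◁ ((stdEven T).unitIso w).hom ≫ (α_ _ _ _).inv ≫ (a ▷ (stdEven T).S (-w)) ≫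
    (F.tensIso (GD.tensLoc_S K (-w)) X).inv ≫ F.L.map (X ◁ (stdEven T).inPS (-w))

theorem sharpY_add {Y X : T} (w : ℤ) (a b : Y ⊗ (stdEven T).S w ⟶ F.L.obj X) :
    sharpY F w (a + b) = sharpY F w a + sharpY F w b := by
  unfold sharpY
  simp only [MonoidalPreadditive.add_whiskerRight, Preadditive.add_comp, Preadditive.comp_add]

/-- `Hom(Y⟦2w⟧, L (Q (s+1) 𝟙 ⊗ C)) → Hom(Y, L N_s)` -/
def iY (Y : T) (s : ℕ) (w : ℤ) :
    (Y⟦2 * w⟧ ⟶ F.L.obj (U.cobar.Q (s + 1) (𝟙_ T) ⊗ C)) →+ (Y ⟶ F.L.obj (GD.Ns D C s)) :=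
  AddMonoidHom.mk' (fun x => sharpY F w
    ((shY Y w).hom ≫ x ≫ F.L.map ((D.qAm U (s + 1)).hom ▷ C))) fun x y => by
      rw [← sharpY_add, Preadditive.add_comp, Preadditive.comp_add]

theorem iY_apply (Y : T) (s : ℕ) (w : ℤ)
    (x : Y⟦2 * w⟧ ⟶ F.L.obj (U.cobar.Q (s + 1) (𝟙_ T) ⊗ C)) : iY D U C F Y s w x =
      sharpY F w ((shY Y w).hom ≫ x ≫ F.L.map ((D.qAm U (s + 1)).hom ▷ C)) := rfl

/-- ROW ES: the properties of `iY` -/
structure ES : Prop where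
  inj : ∀ (Y : T) (s : ℕ) (w : ℤ), Function.Injective (iY D U C F Y s w)
  range : ∀ (Y : T) (s : ℕ) (w : ℤ) (x : Y ⟶ F.L.obj (GD.Ns D C s)),
    x ≫ wL D C F s w = x ↔ ∃ g, iY D U C F Y s w g = x
  d : ∀ (Y : T) (s : ℕ) (w : ℤ) (x : Y⟦2 * w⟧ ⟶ F.L.obj (U.cobar.Q (s + 1) (𝟙_ T) ⊗ C)),
    iY D U C F Y (s + 1) w (x ≫ F.L.map (U.cobar.d (s + 1) (𝟙_ T) ▷ C)) =
      ∑ j : Fin (s + 2), (-1 : ℤ) ^ (j : ℕ) • (iY D U C F Y s w x ≫
        F.L.map (GD.mapN D C (Fin.succAbove j : Fin (s + 1) → Fin (s + 2))))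
  nat : ∀ {Y' Y : T} (f : Y' ⟶ Y) (s : ℕ) (w : ℤ)
    (x : Y⟦2 * w⟧ ⟶ F.L.obj (U.cobar.Q (s + 1) (𝟙_ T) ⊗ C)),
    iY D U C F Y' s w (f⟦2 * w⟧' ≫ x) = f ≫ iY D U C F Y s w x

/-- ROW KAP: the products with classes -/
structure KAP : Prop where
  map : ∀ {m n : ℕ} (α : Fin (m + 1) → Fin (n + 1)) {Y : T}
    (y : Y ⟶ Am D.R (m + 1) ⊗ (stdEven T).PS) (x : 𝟙_ T ⟶ F.L.obj (GD.Ns D C m)),
    kap (ML D C F m) y x ≫ F.L.map (GD.mapN D C α) =
      kap (ML D C F n) (y ≫ Am.map D.R α ▷ (stdEven T).PS) (x ≫ F.L.map (GD.mapN D C α))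
  smul : ∀ (s : ℕ) {Y : T} (y : Y ⟶ Am D.R (s + 1) ⊗ (stdEven T).PS) (c : Cob Laz s)
    (x : 𝟙_ T ⟶ F.L.obj (GD.Ns D C s)),
    kap (ML D C F s) (y ≫ (ModStr.self (Am D.R (s + 1) ⊗ (stdEven T).PS)).smul (GD.γ D s c)) x =
      kap (ML D C F s) y (x ≫ GD.rL D C F s c)
  wt : ∀ (s : ℕ) {Y : T} (d w : ℤ) (z : Y ⟶ Am D.R (s + 1) ⊗ (stdEven T).S d)
    (x : 𝟙_ T ⟶ F.L.obj (GD.Ns D C s)),
    kap (ML D C F s) (z ≫ Am D.R (s + 1) ◁ (stdEven T).inPS d) x ≫ wL D C F s w =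
      kap (ML D C F s) (z ≫ Am D.R (s + 1) ◁ (stdEven T).inPS d) (x ≫ wL D C F s (w + d))
  odd : ∀ (s : ℕ) {Y : T} {J : Type} [Fintype J] (y : J → (Y ⟶ Am D.R (s + 1) ⊗ (stdEven T).PS)),
    Free y → OddZero (F.L.obj (GD.Ns D C s)) → ∀ t : ℤ, Odd t →
      ∀ x : Y⟦t⟧ ⟶ F.L.obj (U.cobar.Q (s + 1) (𝟙_ T) ⊗ C), x = 0

end Loc

end Vale.Agent.P261Z.T2
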