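import Vale.Agent.P261Z.T2.BDefs

/-!
# P261, block T2 (base): the homogeneous maps from a test object, row `ES`
-/

open CategoryTheory MonoidalCategory Limits Pretriangulated MonObj

set_option linter.unusedSectionVars false

noncomputable section

universe v u

namespace Vale.Agent.P261Z.T2

open Vale.Agent.P251 Vale.Agent.P251.T Vale.Agent.P251.S Vale.Agent.P251.I Vale.Agent.P251.G
  Vale.Agent.P251.F Vale.Agent.P251.M Vale.Agent.P251.M.EvenSpheres

variable {T : Type u} [Category.{v} T] [Preadditive T] [HasZeroObject T]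
    [HasShift T ℤ] [∀ n : ℤ, (shiftFunctor T n).Additive] [Pretriangulated T] [IsTriangulated T]
    [MonoidalCategory T] [SymmetricCategory T] [TensorTriangulated T] [MonoidalClosed T]
    [HasCoproducts.{0} T] [HasProducts.{0} T] [StableCat T]

variable (D : MUData T) (U : UnitCof D.R) (C : T) {K : T} (F : LocFunctor K)

namespace EsAux

/-- `Y ≅ (Y ⊗ S^{2w}) ⊗ S^{-2w}` -/
def uY (Y : T) (w : ℤ) : Y ≅ (Y ⊗ (stdEven T).S w) ⊗ (stdEven T).S (-w) :=
  (ρ_ Y).symm ≪≫ whiskerLeftIso Y ((stdEven T).unitIso w) ≪≫ (α_ _ _ _).symm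

theorem uY_nat {Y' Y : T} (f : Y' ⟶ Y) (w : ℤ) :
    f ≫ (uY Y w).hom = (uY Y' w).hom ≫ (f ▷ (stdEven T).S w) ▷ (stdEven T).S (-w) := by
  simp only [uY, Iso.trans_hom, Iso.symm_hom, whiskerLeftIso_hom, Category.assoc]
  rw [rightUnitor_inv_naturality_assoc, ← whisker_exchange_assoc, associator_inv_naturality_left]

theorem sharpY_eq {Y X : T} (w : ℤ) (a : Y ⊗ (stdEven T).S w ⟶ F.L.obj X) :
    sharpY F w a = (uY Y w).hom ≫ (a ▷ (stdEven T).S (-w)) ≫
      (F.tensIso (GD.tensLoc_S K (-w)) X).inv ≫ F.L.map (X ◁ (stdEven T).inPS (-w)) := by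
  simp only [sharpY, uY, Iso.trans_hom, Iso.symm_hom, whiskerLeftIso_hom, Category.assoc]

theorem sharpY_inj {Y X : T} (w : ℤ) {a b : Y ⊗ (stdEven T).S w ⟶ F.L.obj X}
    (h : sharpY F w a = sharpY F w b) : a = b := by
  have h1 := h =≫ F.L.map (X ◁ (stdEven T).pr (-w))
  rw [sharpY_eq, sharpY_eq] at h1
  simp only [Category.assoc] at h1
  rw [retractS F X w, Category.comp_id, cancel_epi, cancel_mono] at h1
  exact whiskerRight_inj _ h1

theorem sharpY_range {Y X : T} (w : ℤ) (e : Y ⟶ F.L.obj (X ⊗ (stdEven T).PS)) :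
    e ≫ F.L.map (X ◁ wq (stdEven T) w) = e ↔ ∃ a, sharpY F w a = e := by
  have hq : F.L.map (X ◁ wq (stdEven T) w) =
      F.L.map (X ◁ (stdEven T).pr (-w)) ≫ F.L.map (X ◁ (stdEven T).inPS (-w)) := by
    rw [← F.L.map_comp, ← MonoidalCategory.whiskerLeft_comp, wq]
  constructor
  · intro he
    obtain ⟨a, ha⟩ := whiskerRight_surj ((stdEven T).S (-w)) ((uY Y w).inv ≫
      e ≫ F.L.map (X ◁ (stdEven T).pr (-w)) ≫ (F.tensIso (GD.tensLoc_S K (-w)) X).hom)
    refine ⟨a, ?_⟩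
    rw [sharpY_eq, ha]
    simp only [Category.assoc, Iso.hom_inv_id_assoc]
    rw [← hq, he]
  · rintro ⟨a, rfl⟩
    rw [sharpY_eq, hq]
    simp only [Category.assoc]
    rw [reassoc_of% (retractS F X w)]

theorem sharpY_comp {Y X X' : T} (f : X ⟶ X') (w : ℤ) (a : Y ⊗ (stdEven T).S w ⟶ F.L.obj X) :
    sharpY F w (a ≫ F.L.map f) = sharpY F w a ≫ F.L.map (f ▷ (stdEven T).PS) := by
  rw [sharpY_eq, sharpY_eq]
  simp only [Category.assoc, comp_whiskerRight]
  congr 2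
  have h1 : F.L.map f ▷ (stdEven T).S (-w) ≫ (F.tensIso (GD.tensLoc_S K (-w)) X').inv =
      (F.tensIso (GD.tensLoc_S K (-w)) X).inv ≫ F.L.map (f ▷ (stdEven T).S (-w)) := by
    rw [Iso.comp_inv_eq, Category.assoc, F.tensIso_naturality, Iso.inv_hom_id_assoc]
  rw [reassoc_of% h1, ← F.L.map_comp, ← F.L.map_comp, whisker_exchange]

theorem comp_sharpY {Y' Y X : T} (f : Y' ⟶ Y) (w : ℤ) (a : Y ⊗ (stdEven T).S w ⟶ F.L.obj X) :
    sharpY F w (f ▷ (stdEven T).S w ≫ a) = f ≫ sharpY F w a := by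
  rw [sharpY_eq, sharpY_eq, reassoc_of% (uY_nat f w), comp_whiskerRight, Category.assoc]

theorem shY_nat {Y' Y : T} (f : Y' ⟶ Y) (w : ℤ) :
    (shY Y' w).hom ≫ f⟦2 * w⟧' = f ▷ (stdEven T).S w ≫ (shY Y w).hom := by
  simp only [shY, Iso.trans_hom, whiskerLeftIso_hom, Category.assoc]
  rw [← tensorSph_naturality, whisker_exchange_assoc]

end EsAux

open EsAux

theorem es : ES D U C F where
  inj Y s w x y h := by
    have h1 := sharpY_inj F w h
    rwa [cancel_epi, cancel_mono] at h1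
  range Y s w e := by
    refine (sharpY_range F w e).trans ⟨?_, ?_⟩
    · rintro ⟨a, ha⟩
      refine ⟨(shY Y w).inv ≫ a ≫ F.L.map ((D.qAm U (s + 1)).inv ▷ C), ?_⟩
      rw [iY_apply, ← ha]
      congr 1
      simp only [Category.assoc, Iso.hom_inv_id_assoc]
      rw [← F.L.map_comp, ← comp_whiskerRight, Iso.inv_hom_id, id_whiskerRight, F.L.map_id]
      exact Category.comp_id _
    · rintro ⟨x, rfl⟩
      exact ⟨_, rfl⟩
  d Y s w x := by
    have h1 : (shY Y w).hom ≫ (x ≫ F.L.map (U.cobar.d (s + 1) (𝟙_ T) ▷ C)) ≫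
        F.L.map ((D.qAm U (s + 2)).hom ▷ C) =
        ((shY Y w).hom ≫ x ≫ F.L.map ((D.qAm U (s + 1)).hom ▷ C)) ≫
          F.L.map (∑ j : Fin (s + 2), (-1 : ℤ) ^ (j : ℕ) •
            GD.mapX D C (Fin.succAbove j : Fin (s + 1) → Fin (s + 2))) := by
      simp only [Category.assoc]
      congr 2
      rw [← F.L.map_comp, ← F.L.map_comp, ← comp_whiskerRight, D.d_qAm, comp_whiskerRight,
        GD.sum_whiskerRight']
      rfl
    rw [iY_apply, h1, sharpY_comp, GD.sum_whiskerRight', F.L.map_sum, Preadditive.comp_sum]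
    refine Finset.sum_congr rfl fun j _ => ?_
    rw [F.L.map_zsmul, Preadditive.comp_zsmul]
    rfl
  nat f s w x := by
    rw [iY_apply, iY_apply, ← comp_sharpY, Category.assoc, reassoc_of% (shY_nat f w)]

end Vale.Agent.P261Z.T2
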