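import Vale.Agent.P261Z.T2.DTr
import Vale.Agent.P251.G.CellInst
import Vale.Agent.P251.Q.CPn

/-!
# P261, block T2 (base): the even cells of a projective space
-/

open CategoryTheory MonoidalCategory Limits Pretriangulated

set_option linter.unusedSectionVars false

noncomputable section

universe v u

namespace Vale.Agent.P261Z.T2.EvA

open Vale.Agent.P251 Vale.Agent.P251.T Vale.Agent.P251.I Vale.Agent.P251.G Vale.Agent.P251.M

section Top

open Set Matrix OnePoint Cell LC

variable (I : Type) [Fintype I]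

theorem step_prj : CellStep (2 * Fintype.card I) (kil 1 I) (prj 1 (I ⊕ Unit)) := by
  classical
  have h0 := cellStep_point (B := (∅ : Set Unit)) () (by simp)
  have key := h0.discBundle (X := Matrix (I ⊕ Unit) (I ⊕ Unit) ℂ) (r := Fintype.card I)
    (Z := kil 1 I) (fun _ => (1 : Matrix I I ℂ)) continuousOn_const
    (fun _ _ => Matrix.mul_one _) (fun _ _ => trace_one) (fun q => chr 0 q.2)
    (continuous_chr.comp (continuous_const.prodMk continuous_snd)).continuousOn ?_ ?_ ?_
  · rw [zero_add] at key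
    convert key using 1
    · have : discB (fun _ : Unit => (1 : Matrix I I ℂ)) ∅ = ∅ := by
        ext q; simp [discB]
      rw [this, image_empty, union_empty]
    · apply Subset.antisymm
      · intro Q hQ
        by_cases h0 : Q *ᵥ eL I = 0
        · exact Or.inl ⟨hQ, h0⟩
        · obtain ⟨y, w, hy, -, hw, rfl⟩ := chr_surj (n := 0) hQ h0
          have h1 : y ∈ prj 0 I := hy
          rw [prj_zero_eq, mem_singleton_iff] at h1
          exact Or.inr ⟨((), w), ⟨mem_insert _ _, one_mulVec _, hw.le⟩, by rw [h1]⟩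
      · rintro _ (hQ | ⟨⟨y, w⟩, ⟨-, -, hn⟩, rfl⟩)
        · exact hQ.1
        · exact chr_isProj (n := 0) IsProj.zero hn (zero_mulVec _)
  · rintro ⟨y, w⟩ ⟨-, -, hn⟩
    dsimp only at hn
    refine ⟨chr_isProj (n := 0) IsProj.zero hn.le (zero_mulVec _), ?_⟩
    dsimp only
    rw [chr_mulVec_eL, hn]
    simp
  · rintro ⟨y, w⟩ ⟨-, -, hn⟩ ⟨y', w'⟩ ⟨-, -, hn'⟩ heq
    exact Prod.ext rfl (chr_inj hn hn' heq).2
  · rintro ⟨y, w⟩ ⟨-, -, hn⟩ hZ
    dsimp only at hn
    have h1 := hZ.2
    dsimp only at h1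
    have h2 := chr_last (0 : Matrix I I ℂ) hn.le
    rw [h1, Pi.zero_apply, eq_comm, Complex.ofReal_eq_zero] at h2
    linarith

theorem app_add (x : Gr 1 I) : app (Gr.addZeroHom (n := 1) (I := I)) (x : OnePoint (Gr 1 I)) =
    ((Gr.addZero x : Gr 1 (I ⊕ Unit)) : OnePoint (Gr 1 (I ⊕ Unit))) := rfl

theorem add_inj : Function.Injective (app (Gr.addZeroHom (n := 1) (I := I))) := by
  intro x y h
  induction x using OnePoint.rec with
  | infty =>
    induction y using OnePoint.rec with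
    | infty => rfl
    | coe y => exact absurd ((app_infty _).symm.trans h).symm (OnePoint.coe_ne_infty _)
  | coe x =>
    induction y using OnePoint.rec with
    | infty => exact absurd (h.trans (app_infty _)) (OnePoint.coe_ne_infty _)
    | coe y =>
      have h1 : ext0 I (Gr.P x) = ext0 I (Gr.P y) :=
        congrArg Gr.P (OnePoint.coe_injective ((app_add I x).symm.trans (h.trans (app_add I y))))
      exact congrArg _ (Gr.ext (by simpa [ext0] using congrArg toBlocks₁₁ h1))

theorem step_gr :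
    CellStep (2 * Fintype.card I) (range (app (Gr.addZeroHom (n := 1) (I := I)))) univ := by
  have h1 := (step_prj I).preimage gr_isEmbedding (by rw [range_gr])
  rw [← range_gr, preimage_range] at h1
  have h2 := (h1.image (f := fun y : Gr 1 (I ⊕ Unit) => (y : OnePoint (Gr 1 (I ⊕ Unit))))
    OnePoint.continuous_coe.continuousOn OnePoint.coe_injective.injOn).union (Z := {∞}) (by
      rintro x ⟨hx, y, -, rfl⟩
      exact absurd (mem_singleton_iff.1 hx) (OnePoint.coe_ne_infty _))
  convert h2 using 1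
  · ext x
    constructor
    · rintro ⟨y, rfl⟩
      induction y using OnePoint.rec with
      | infty => exact Or.inl (app_infty _)
      | coe y =>
        refine Or.inr ⟨Gr.addZero y, ⟨(Gr.addZero y).isProj, ?_⟩, rfl⟩
        change ext0 I (Gr.P y) *ᵥ eL I = 0
        rw [eL, ext0_mulVec]
        ext i; rcases i with i | i <;> simp
    · rintro (hx | ⟨Q, ⟨hQ, hQe⟩, rfl⟩)
      · exact ⟨∞, (app_infty _).trans hx.symm⟩
      · have h5 := eq_ext0 hQ.herm hQe
        have h6 := hQ
        rw [h5] at h6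
        let y : Gr 1 I := ⟨_, isProj_of_ext0 h6⟩
        have h7 : Gr.addZero y = Q := Gr.ext h5.symm
        exact ⟨(y : OnePoint (Gr 1 I)), (app_add I y).trans (congrArg _ h7)⟩
  · ext x
    simp only [mem_univ, true_iff]
    induction x using OnePoint.rec with
    | infty => exact Or.inl rfl
    | coe y => exact Or.inr ⟨y, mem_univ _, rfl⟩

end Top

variable {T : Type u} [Category.{v} T] [Preadditive T] [HasZeroObject T]
    [HasShift T ℤ] [∀ n : ℤ, (shiftFunctor T n).Additive] [Pretriangulated T]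
    [MonoidalCategory T] [SymmetricCategory T] [TensorTriangulated T]

theorem of_iso {m : ℕ} {X Y : T} (h : Dl.Ev m X) (e : X ≅ Y) : Dl.Ev m Y := by
  cases h with
  | zero h => exact Dl.Ev.zero (h.of_iso e.symm)
  | ext Δ hΔ h₁ k e' =>
    exact Dl.Ev.ext (Triangle.mk (Δ.mor₁ ≫ e.hom) (e.inv ≫ Δ.mor₂) Δ.mor₃)
      (isomorphic_distinguished _ hΔ _ (Triangle.isoMk _ _ (Iso.refl _) e.symm (Iso.refl _)
        (by change (Δ.mor₁ ≫ e.hom) ≫ e.inv = 𝟙 Δ.obj₁ ≫ Δ.mor₁; simp)
        (by change (e.inv ≫ Δ.mor₂) ≫ 𝟙 Δ.obj₃ = e.inv ≫ Δ.mor₂; simp)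
        (by change Δ.mor₃ ≫ (𝟙 Δ.obj₁)⟦(1 : ℤ)⟧' = 𝟙 Δ.obj₃ ≫ Δ.mor₃; simp))) h₁ k e'

theorem ev_gr (F : SpaceFunctor T) (m : ℕ) :
    Dl.Ev m (F.S.obj (FCat.mk (Cell.fc_gr 1 (Fin m)))) := by
  induction m with
  | zero => exact Dl.Ev.zero (F.isZero (inferInstanceAs (IsEmpty (Gr (0 + 1) (Fin 0)))))
  | succ m ih =>
    have hs := step_gr (Fin m)
    have hc := Cell.cofib_of_cellStep (add_inj (Fin m)) hs
    obtain ⟨e⟩ := Cell.cof_of_cellStep hs
    rw [Fintype.card_fin] at e
    have h1 := Dl.Ev.ext _ (F.cof_distinguished (A := FCat.mk (Cell.fc_gr 1 (Fin m)))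
      (B := FCat.mk (Cell.fc_gr 1 (Fin m ⊕ Unit))) (FCat.hom Gr.addZeroHom) hc) ih m
      (F.S.mapIso (fcIso (Y := SphF (2 * m)) e) ≪≫ sphIso F (2 * m) ≪≫
        eqToIso (by push_cast; rfl))
    exact of_iso h1 (F.S.mapIso (fcIso (Q.grReindex 1 (Q.finSumUnit m))))

end Vale.Agent.P261Z.T2.EvA
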