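import Vale.Agent.P261Z.T2.BDefs
import Vale.Agent.P261Z.T2.BEvA

/-!
# P261, block T2 (base): row `EVCP`
-/

open CategoryTheory MonoidalCategory Limits Pretriangulated

set_option linter.unusedSectionVars false

universe v u

namespace Vale.Agent.P261Z.T2

open Vale.Agent.P251 Vale.Agent.P251.T Vale.Agent.P251.S Vale.Agent.P251.I Vale.Agent.P251.G
  Vale.Agent.P251.F Vale.Agent.P251.M

variable {T : Type u} [Category.{v} T] [Preadditive T] [HasZeroObject T]
    [HasShift T ℤ] [∀ n : ℤ, (shiftFunctor T n).Additive] [Pretriangulated T]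
    [MonoidalCategory T] [SymmetricCategory T] [TensorTriangulated T]

theorem evcp (F : SpaceFunctor T) : EVCP F := fun m => EvA.ev_gr F (m + 1)

end Vale.Agent.P261Z.T2
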