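import Vale.Agent.P261Z.T2.BDefs

/-!
# P261, block T2 (base): the row `KAP`
-/

open CategoryTheory MonoidalCategory Limits Pretriangulated MonObj

set_option linter.unusedSectionVars false

noncomputable section

universe v u

namespace Vale.Agent.P261Z.T2

open Vale.Agent.P251 Vale.Agent.P251.T Vale.Agent.P251.S Vale.Agent.P251.I Vale.Agent.P251.G
  Vale.Agent.P251.F Vale.Agent.P251.M Vale.Agent.P251.M.EvenSpheres

namespace Kap

section Mod

variable {T : Type u} [Category.{v} T] [Preadditive T] [MonoidalCategory T]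
  [MonoidalPreadditive T] {A A' N N' P Y : T} [MonObj A] [MonObj A']

theorem kap_comp (M : ModStr A N) (M' : ModStr A' N') {p : P ⟶ A} {p' : P ⟶ A'} {g g' : N ⟶ N'}
    (h : p ▷ N ≫ M.act ≫ g = P ◁ g' ≫ p' ▷ N' ≫ M'.act) (z : Y ⟶ P) (x : 𝟙_ T ⟶ N) :
    kap M (z ≫ p) x ≫ g = kap M' (z ≫ p') (x ≫ g') := by
  have h1 : (z ≫ p) ⊗ₘ x = (z ⊗ₘ x) ≫ p ▷ N := by
    rw [← tensorHom_id, tensorHom_comp_tensorHom, Category.comp_id]
  have h2 : (z ≫ p') ⊗ₘ (x ≫ g') = (z ⊗ₘ x) ≫ P ◁ g' ≫ p' ▷ N' := by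
    rw [← tensorHom_def', tensorHom_comp_tensorHom]
  simp only [kap, h1, h2, Category.assoc, h]

theorem smul_act [SymmetricCategory T] [IsCommMonObj A] (M : ModStr A N) (a : 𝟙_ T ⟶ A) :
    (ModStr.self A).smul a ▷ N ≫ M.act ≫ 𝟙 N = A ◁ M.smul a ≫ 𝟙 A ▷ N ≫ M.act := by
  have h : (ModStr.self A).smul a = (ρ_ A).inv ≫ A ◁ a ≫ μ[A] := by
    change (λ_ A).inv ≫ a ▷ A ≫ μ[A] = _
    rw [← IsCommMonObj.mul_comm, BraidedCategory.braiding_naturality_left_assoc,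
      IsCommMonObj.mul_comm]
    simp
  rw [h]
  simp [ModStr.smul, M.mul_act]

end Mod

variable {T : Type u} [Category.{v} T] [Preadditive T] [HasZeroObject T]
    [HasShift T ℤ] [∀ n : ℤ, (shiftFunctor T n).Additive] [Pretriangulated T] [IsTriangulated T]
    [MonoidalCategory T] [SymmetricCategory T] [TensorTriangulated T] [MonoidalClosed T]
    [HasCoproducts.{0} T] [HasProducts.{0} T] [StableCat T]

variable {A A' N N' P Y : T} [MonObj A] [MonObj A'] {K : T}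

theorem loc (F : LocFunctor K) (M : ModStr A N) (M' : ModStr A' N') {p : P ⟶ A} {p' : P ⟶ A'}
    {g g' : N ⟶ N'} (h : p ▷ N ≫ M.act ≫ g = P ◁ g' ≫ p' ▷ N' ≫ M'.act) :
    p ▷ F.L.obj N ≫ (F.mod M).act ≫ F.L.map g =
      P ◁ F.L.map g' ≫ p' ▷ F.L.obj N' ≫ (F.mod M').act := by
  apply ((F.keq N).whiskerLeft P).hom_ext (F.isLocal N')
  rw [whisker_exchange_assoc, F.whiskerLeft_u_mod_act_assoc, F.u_naturality, reassoc_of% h,
    ← whiskerLeft_comp_assoc P (F.u N), F.u_naturality, whiskerLeft_comp_assoc,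
    whisker_exchange_assoc p' (F.u N'), F.whiskerLeft_u_mod_act]

theorem act_wq (E : EvenSpheres T) (M : ModStr A N) (d w : ℤ) :
    (A ◁ E.inPS d) ▷ (N ⊗ E.PS) ≫ (PM E M).act ≫ N ◁ wq E w =
      (A ⊗ E.S d) ◁ (N ◁ wq E (w + d)) ≫ (A ◁ E.inPS d) ▷ (N ⊗ E.PS) ≫ (PM E M).act := by
  obtain ⟨c, rfl⟩ : ∃ c, d = -c := ⟨-d, (neg_neg d).symm⟩
  have e : (A ◁ E.inPS (-c)) ▷ (N ⊗ E.PS) ≫ (PM E M).act = tensorμ A (E.S (-c)) N E.PS ≫
      (M.act ⊗ₘ (E.inPS (-c) ▷ E.PS ≫ μ[E.PS])) := by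
    unfold PM ModStr.tens ModStr.self
    rw [← id_tensorHom, tensorμ_natural_left_assoc, tensorHom_comp_tensorHom]
    simp
  have h := psMul_wq (E := E) c (w + -c)
  rw [show c + (w + -c) = w by ring] at h
  have e1 : (M.act ⊗ₘ (E.inPS (-c) ▷ E.PS ≫ μ[E.PS])) ≫ (N ◁ wq E w) =
      (A ◁ 𝟙 N ⊗ₘ E.S (-c) ◁ wq E (w + -c)) ≫ (M.act ⊗ₘ (E.inPS (-c) ▷ E.PS ≫ μ[E.PS])) := by
    rw [← id_tensorHom, tensorHom_comp_tensorHom, tensorHom_comp_tensorHom, Category.comp_id,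
      Category.assoc, h]
    simp
  rw [reassoc_of% e, e, e1,
    ← reassoc_of% (tensorμ_natural_right (Z₁ := A) (Z₂ := E.S (-c)) (𝟙 N) (wq E (w + -c))),
    id_tensorHom]

theorem odd (M : ModStr A N) {J : Type} [Fintype J] {y : J → (Y ⟶ A)} (hy : Free y)
    (hN : OddZero N) (t : ℤ) (ht : Odd t) (x : Y⟦t⟧ ⟶ N) : x = 0 := by
  obtain ⟨e, he⟩ := (hy _ (M.tensorRight ((𝟙_ T)⟦-t⟧))).2
    ((shiftShiftNeg Y t).inv ≫ x⟦-t⟧' ≫ (tensorUnitShiftIso N (-t)).inv)
  have h : e = 0 := funext fun j => by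
    have h1 := hN t ht ((e j ≫ (tensorUnitShiftIso N (-t)).hom)⟦t⟧' ≫ (shiftNegShift N t).hom)
    exact zero_of_comp_mono _ ((shiftFunctor T t).map_injective
      ((zero_of_comp_mono _ h1).trans (Functor.map_zero _ _ _).symm))
  rw [h, map_zero] at he
  exact (shiftFunctor T (-t)).map_injective
    ((zero_of_comp_mono _ (zero_of_epi_comp _ he.symm)).trans (Functor.map_zero _ _ _).symm)

end Kap

variable {T : Type u} [Category.{v} T] [Preadditive T] [HasZeroObject T]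
    [HasShift T ℤ] [∀ n : ℤ, (shiftFunctor T n).Additive] [Pretriangulated T] [IsTriangulated T]
    [MonoidalCategory T] [SymmetricCategory T] [TensorTriangulated T] [MonoidalClosed T]
    [HasCoproducts.{0} T] [HasProducts.{0} T] [StableCat T]

open Kap in
/-- ROW KAP -/
theorem kap_row (D : MUData T) (U : UnitCof D.R) (C : T) {K : T} (F : LocFunctor K) :
    KAP D U C F where
  map α _ y x := by
    have h := kap_comp _ _ (loc F (GD.MN D C _) (GD.MN D C _) (p := 𝟙 _)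
      (p' := Am.map D.R α ▷ (stdEven T).PS) (g := GD.mapN D C α) (g' := GD.mapN D C α)
      (by rw [id_whiskerRight, Category.id_comp, GD.act_mapN, tensorHom_def', Category.assoc])) y x
    rwa [Category.comp_id] at h
  smul s _ y c x := by
    have h := kap_comp _ _ (smul_act (ML D C F s) (GD.γ D s c)) y x
    rwa [Category.comp_id, Category.comp_id] at h
  wt s _ d w z x := kap_comp _ _ (loc F _ _ (act_wq (stdEven T) (GD.MX D C s) d w)) z x
  odd s _ _ _ y hy hN t ht x := by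
    let a : Am D.R (s + 1) ⊗ C ⟶ GD.Ns D C s :=
      (ρ_ _).inv ≫ _ ◁ ((stdEven T).zero.hom ≫ (stdEven T).inPS 0)
    let b : GD.Ns D C s ⟶ Am D.R (s + 1) ⊗ C :=
      _ ◁ ((stdEven T).pr 0 ≫ (stdEven T).zero.inv) ≫ (ρ_ _).hom
    have h3 : ((stdEven T).zero.hom ≫ (stdEven T).inPS 0) ≫ (stdEven T).pr 0 ≫
        (stdEven T).zero.inv = 𝟙 _ := by
      rw [Category.assoc, ← Category.assoc ((stdEven T).inPS 0), inPS_pr 0 0 rfl,
        castIso_refl, Iso.refl_hom, Category.id_comp]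
      exact Iso.hom_inv_id _
    have h2 : a ≫ b = 𝟙 _ := by
      simp only [a, b, Category.assoc]
      rw [← MonoidalCategory.whiskerLeft_comp_assoc, h3]
      simp
    have h := odd (ML D C F s) hy hN t ht (x ≫ F.L.map ((D.qAm U (s + 1)).hom ▷ C ≫ a))
    have h4 := congrArg (· ≫ F.L.map (b ≫ (D.qAm U (s + 1)).inv ▷ C)) h
    simpa only [Category.assoc, ← F.L.map_comp, reassoc_of% h2, hom_inv_whiskerRight,
      F.L.map_id, Category.comp_id, zero_comp] using h4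

end Vale.Agent.P261Z.T2
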