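import Vale.Agent.P261Z.T2.BAlg
import Vale.Agent.P261Z.T3.At

/-!
# P261, block T2 (base): the cobar model of a power of the projective space, from the rows
-/

open CategoryTheory MonoidalCategory Limits Pretriangulated MonObj

set_option linter.unusedSectionVars false

noncomputable section

universe u

namespace Vale.Agent.P261Z.T2

open Vale.Agent.P251 Vale.Agent.P251.T Vale.Agent.P251.S Vale.Agent.P251.I Vale.Agent.P251.G
  Vale.Agent.P251.F Vale.Agent.P251.M Vale.Agent.P251.M.EvenSpheres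

variable {T : Type u} [Category.{0} T] [Preadditive T] [HasZeroObject T]
    [HasShift T ℤ] [∀ n : ℤ, (shiftFunctor T n).Additive] [Pretriangulated T] [IsTriangulated T]
    [MonoidalCategory T] [SymmetricCategory T] [TensorTriangulated T] [MonoidalClosed T]
    [HasCoproducts.{0} T] [HasProducts.{0} T] [StableCat T]
  {F₀ : SpaceFunctor T} (e : F₀.S.obj CCF ≅ (stdEven T).L) (D : MUData T)
  (o : Q.Orientation (thK e D.R)) (U : UnitCof D.R) (C : T) {K : T} (F : LocFunctor K)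
  (B : Type) [Fintype B] [DecidableEq B] (m : ℕ)

/-- The output of the block: the cobar model, its equivariance, the vanishing in odd degrees. -/
def XT (p h : ℕ) [Fact p.Prime] : Prop :=
  ∃ Φ : ∀ w : ℤ, U.CobModel (𝟙_ T) (tensorRight C ⋙ F.L) (F₀.S.obj (YF B m)) w
      (X.towerX p h B (m + 1) w),
    (∀ (w : ℤ) (σ : Equiv.Perm B) (s : ℕ) (x : (F₀.S.obj (YF B m))⟦2 * w⟧ ⟶
        (tensorRight C ⋙ F.L).obj (U.cobar.Q (s + 1) (𝟙_ T))) (j : ℕ),
      X.xval (((Φ w).φ s ((F₀.S.map (Dl.pmF (CPF m) σ))⟦2 * w⟧' ≫ x)).1 j) =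
        Cob.mapRing (Tr.perm (NN p h (j + 1)) (m + 1) σ⁻¹) s (X.xval (((Φ w).φ s x).1 j))) ∧
    ∀ (s : ℕ) (t : ℤ), Odd t → ∀ x : (F₀.S.obj (YF B m))⟦t⟧ ⟶
      (tensorRight C ⋙ F.L).obj (U.cobar.Q (s + 1) (𝟙_ T)), x = 0

variable {B m} in
/-- the classes over `R^{⊗ (s+1)}` -/
def yS (s : ℕ) (t : B → Fin (m + 1)) :
    F₀.S.obj (YF B m) ⟶ Am D.R (s + 1) ⊗ (stdEven T).PS :=
  ycl e (amO e D.R o (0 : Fin (s + 1))) t

variable {e D o B m}

theorem yS_map (hor : ∀ s, D.ev s = amEv e D.R o s) (hcos : COS) (hcls : CLS e B m) {k n : ℕ}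
    (α : Fin (k + 1) → Fin (n + 1)) (t : B → Fin (m + 1)) {a : (B → Fin (m + 1)) → Cob Laz n}
    (h : Cob.map α (Tr.cmon Laz k t) = Tr.ccomb Laz n a) :
    yS e D o k t ≫ Am.map D.R α ▷ (stdEven T).PS = ∑ J, yS e D o n J ≫
      (ModStr.self (Am D.R (n + 1) ⊗ (stdEven T).PS)).smul (GD.γ D n (a J)) := by
  have hg := Q.good_gr_one (amO e D.R o (0 : Fin (n + 1))) (Fin (m + 1))
  have h1 := hcos (thK e (Am D.R (n + 1))) B m k n (fun j => amO e D.R o j) α t a h
  rw [yS, ← hcls.push, amO_map, ycl, h1, map_sum]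
  refine Finset.sum_congr rfl fun J _ => ?_
  refine (tU_smul e (YF B m) _ _).trans ?_
  congr 2
  rw [GD.γ, RingHom.comp_apply, hor, amEv_apply]
  exact (sharpHom_eq_sharpTot _).symm

variable {U C F}

/-- the identification of `J → Hom(𝟙, L N_s)` with `Hom(Y, L N_s)` -/
def κS (hfree : FREE e B m) (s : ℕ) : ((B → Fin (m + 1)) → GD.Es D C F s) ≃+
    (F₀.S.obj (YF B m) ⟶ F.L.obj (GD.Ns D C s)) :=
  AddEquiv.ofBijective (comb (ML D C F s) (yS e D o s))
    (hfree (Am D.R (s + 1)) (amO e D.R o (0 : Fin (s + 1))) _ (ML D C F s))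

theorem κS_apply (hfree : FREE e B m) (s : ℕ) (x : (B → Fin (m + 1)) → GD.Es D C F s) :
    κS (o := o) hfree s x = ∑ t, kap (ML D C F s) (yS e D o s t) (x t).hom := rfl

theorem kap_sum_left {A N Y : T} [MonObj A] (M : ModStr A N) {J : Type} [Fintype J]
    (y : J → (Y ⟶ A)) (x : 𝟙_ T ⟶ N) : kap M (∑ t, y t) x = ∑ t, kap M (y t) x := by
  let W : (Y ⟶ A) →+ (Y ⟶ N) := AddMonoidHom.mk' (fun y => kap M y x) fun y y' => by
    simp only [kap, MonoidalPreadditive.add_tensor, Preadditive.add_comp, Preadditive.comp_add]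
  exact map_sum W y Finset.univ

theorem kap_sum_right {A N Y : T} [MonObj A] (M : ModStr A N) {J : Type} [Fintype J]
    (y : Y ⟶ A) (x : J → (𝟙_ T ⟶ N)) : kap M y (∑ t, x t) = ∑ t, kap M y (x t) :=
  map_sum (AddMonoidHom.mk' (kap M y) (kap_add M y)) x Finset.univ

theorem κS_map (hor : ∀ s, D.ev s = amEv e D.R o s) (hcos : COS) (hcls : CLS e B m)
    (hfree : FREE e B m) (hkap : KAP D U C F) {k n : ℕ} (α : Fin (k + 1) → Fin (n + 1))
    {a : (B → Fin (m + 1)) → (B → Fin (m + 1)) → Cob Laz n}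
    (h : ∀ t, Cob.map α (Tr.cmon Laz k t) = Tr.ccomb Laz n (a t))
    (x : (B → Fin (m + 1)) → GD.Es D C F k) :
    κS (o := o) hfree k x ≫ F.L.map (GD.mapN D C α) =
      κS (o := o) hfree n fun J => ∑ t, a t J • GD.mapE D C F α (x t) := by
  rw [κS_apply, κS_apply, Preadditive.sum_comp]
  have h1 : ∀ J, kap (ML D C F n) (yS e D o n J) (∑ t, a t J • GD.mapE D C F α (x t)).hom =
      ∑ t, kap (ML D C F n) (yS e D o n J)
        (((x t).hom ≫ F.L.map (GD.mapN D C α)) ≫ GD.rL D C F n (a t J)) := fun J =>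
    (congrArg _ (HM.hom_sum _ _)).trans (kap_sum_right _ _ _)
  rw [Finset.sum_congr rfl fun J _ => h1 J, Finset.sum_comm]
  refine Finset.sum_congr rfl fun t _ => ?_
  rw [hkap.map, yS_map hor hcos hcls α t (h t), kap_sum_left]
  exact Finset.sum_congr rfl fun J _ => hkap.smul _ _ _ _

theorem κS_wt (hcls : CLS e B m) (hfree : FREE e B m) (hkap : KAP D U C F) (s : ℕ) (w : ℤ)
    (x : (B → Fin (m + 1)) → GD.Es D C F s) :
    κS (o := o) hfree s x ≫ wL D C F s w =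
      κS (o := o) hfree s fun t => GD.eps D C F s (w + Tr.deg t) (x t) := by
  rw [κS_apply, κS_apply, Preadditive.sum_comp]
  refine Finset.sum_congr rfl fun t _ => ?_
  obtain ⟨z, hz⟩ := hcls.deg _ (amO e D.R o (0 : Fin (s + 1))) t
  rw [yS, hz]
  exact hkap.wt s _ w z _

theorem κS_perm (hcls : CLS e B m) (hfree : FREE e B m) (s : ℕ) (σ : Equiv.Perm B)
    (x : (B → Fin (m + 1)) → GD.Es D C F s) :
    F₀.S.map (Dl.pmF (CPF m) σ) ≫ κS (o := o) hfree s x =
      κS (o := o) hfree s fun t => x (t ∘ σ.symm) := by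
  rw [κS_apply, κS_apply, Preadditive.comp_sum]
  refine Fintype.sum_equiv (Equiv.arrowCongr σ.symm (Equiv.refl (Fin (m + 1)))) _ _ fun t => ?_
  have h : Equiv.arrowCongr σ.symm (Equiv.refl (Fin (m + 1))) t = t ∘ σ := rfl
  have h2 : (t ∘ σ) ∘ σ.symm = t := funext fun b => congrArg t (σ.apply_symm_apply b)
  rw [h, h2, comp_kap, yS, hcls.perm]
  rfl

/-- **The cobar model, from the rows.** -/
theorem xt_of_rows {p h : ℕ} [Fact p.Prime] (hor : ∀ s, D.ev s = amEv e D.R o s)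
    (hcos : COS) (hcls : CLS e B m) (hfree : FREE e B m) (hes : ES D U C F)
    (hkap : KAP D U C F) {i : 𝟙_ T ⟶ C} (hp : T3.MUAt D p) {δ : C ⟶ (𝟙_ T)⟦(1 : ℤ)⟧}
    (hC : Triangle.mk ((p : ℤ) • 𝟙 (𝟙_ T)) i δ ∈ distTriang T)
    (hE : ∀ s, E1C F (D.vs p) h (GD.MP D C s)) : XT (F₀ := F₀) D U C F B m p h := by
  have H := fun s => T3.cobComplAt D F i hp hC s (hE s)
  choose φ hφ using fun (w : ℤ) (s : ℕ) => exists_limX (H s) (κS (o := o) hfree s)
    (GD.wtProj D F s i) w (fun y => y ≫ wL D C F s w) (κS_wt hcls hfree hkap s w)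
    (iY D U C F (F₀.S.obj (YF B m)) s w) (hes.inj _ s w) (hes.range _ s w)
  refine ⟨fun w => ⟨φ w, fun s x j => X.xval_injective ?_⟩, fun w σ s x j => ?_,
    fun s t ht x => ?_⟩
  · refine (hφ w (s + 1) (x ≫ F.L.map (U.cobar.d (s + 1) (𝟙_ T) ▷ C)) j).trans ?_
    change _ = Cob.d s (X.xval ((φ w s x).1 j))
    rw [hφ, hes.d, map_sum, Cob.d_apply]
    refine Finset.sum_congr rfl fun k _ => ?_
    rw [map_zsmul]
    congr 1
    choose a ha using fun t : B → Fin (m + 1) => Tr.ccomb_surjective (N := Laz)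
      (Cob.map (Fin.succAbove k : Fin (s + 1) → Fin (s + 2)) (Tr.cmon Laz s t))
    exact Lam_map (H s) (κS (o := o) hfree s) (H (s + 1)) (κS (o := o) hfree (s + 1))
      (GD.mapE_smul D C F _) (GD.mapE_uL D F _ i) (fun t => (ha t).symm)
      (fun y => y ≫ F.L.map (GD.mapN D C (Fin.succAbove k : Fin (s + 1) → Fin (s + 2))))
      (κS_map hor hcos hcls hfree hkap _ fun t => (ha t).symm) (j + 1) _
  · refine (hφ w s _ j).trans ?_
    rw [hes.nat]
    refine (Lam_perm (H s) (κS (o := o) hfree s) σ (fun y => F₀.S.map (Dl.pmF (CPF m) σ) ≫ y)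
      (κS_perm hcls hfree s σ) (j + 1) _).trans ?_
    exact congrArg _ (hφ w s x j).symm
  · exact hkap.odd s (yS e D o s) (hfree _ _) (hE s).odd t ht x

end Vale.Agent.P261Z.T2
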