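import Vale.Agent.P261Z.T2.BDefs

/-!
# P261, block T2 (base): rows PER and FREE
-/

open CategoryTheory MonoidalCategory Limits Pretriangulated MonObj

set_option linter.unusedSectionVars false

noncomputable section

universe v u

namespace Vale.Agent.P261Z.T2

open Vale.Agent.P251 Vale.Agent.P251.T Vale.Agent.P251.S Vale.Agent.P251.I Vale.Agent.P251.G
  Vale.Agent.P251.F Vale.Agent.P251.M Vale.Agent.P251.M.EvenSpheres

namespace PerH

section Mod

variable {T : Type u} [Category.{v} T] [Preadditive T] [MonoidalCategory T]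
  [MonoidalPreadditive T] {A K N Y : T} [MonObj A] [MonObj K]

theorem kap_self (y : Y ⟶ A) (e : 𝟙_ T ⟶ A) :
    kap (ModStr.self A) y e = (ρ_ Y).inv ≫ (y ⊗ₘ e) ≫ μ[A] := rfl

theorem kap_hom (f : A ⟶ K) [IsMonHom f] (y : Y ⟶ A) (e : 𝟙_ T ⟶ A) :
    kap (ModStr.self A) y e ≫ f = kap (ModStr.self K) (y ≫ f) (e ≫ f) := by
  rw [kap_self, kap_self, Category.assoc, Category.assoc, IsMonHom.mul_hom,
    tensorHom_comp_tensorHom_assoc]

theorem comb_hom (f : A ⟶ K) [IsMonHom f] {J : Type} [Fintype J] (y : J → (Y ⟶ A))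
    (e : J → (𝟙_ T ⟶ A)) : comb (ModStr.self A) y e ≫ f =
      comb (ModStr.self K) (fun t => y t ≫ f) (fun t => e t ≫ f) := by
  rw [comb_apply, comb_apply, Preadditive.sum_comp]
  exact Finset.sum_congr rfl fun t _ => kap_hom f (y t) (e t)

theorem kap_i (M : ModStr A N) (f : A ⟶ K) (i : N ⟶ K) (h : M.act ≫ i = (f ⊗ₘ i) ≫ μ[K])
    (y : Y ⟶ A) (e : 𝟙_ T ⟶ N) :
    kap M y e ≫ i = kap (ModStr.self K) (y ≫ f) (e ≫ i) := by
  rw [kap_self, kap, Category.assoc, Category.assoc, h, tensorHom_comp_tensorHom_assoc]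

theorem kap_r (M : ModStr A N) (f : A ⟶ K) (r : K ⟶ N)
    (h : (f ▷ K) ≫ μ[K] ≫ r = (A ◁ r) ≫ M.act) (y : Y ⟶ A) (e : 𝟙_ T ⟶ K) :
    kap (ModStr.self K) (y ≫ f) e ≫ r = kap M y (e ≫ r) := by
  have h1 : (y ≫ f) ⊗ₘ e = (y ⊗ₘ e) ≫ f ▷ K := by
    rw [← tensorHom_id, tensorHom_comp_tensorHom, Category.comp_id]
  have h2 : y ⊗ₘ (e ≫ r) = (y ⊗ₘ e) ≫ A ◁ r := by
    rw [← id_tensorHom, tensorHom_comp_tensorHom, Category.comp_id]
  rw [kap_self, kap, h1, h2]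
  simp only [Category.assoc]
  rw [h]

/-- a retract of a free case is free -/
theorem bij_retract (M : ModStr A N) (f : A ⟶ K) (i : N ⟶ K) (r : K ⟶ N) (hir : i ≫ r = 𝟙 N)
    (hi : M.act ≫ i = (f ⊗ₘ i) ≫ μ[K]) (hr : (f ▷ K) ≫ μ[K] ≫ r = (A ◁ r) ≫ M.act)
    {J : Type} [Fintype J] (y : J → (Y ⟶ A))
    (h : Function.Bijective (comb (ModStr.self K) fun t => y t ≫ f)) :
    Function.Bijective (comb M y) := by
  have ci : ∀ e, comb M y e ≫ i = comb (ModStr.self K) (fun t => y t ≫ f) (fun t => e t ≫ i) :=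
    fun e => by
      rw [comb_apply, comb_apply, Preadditive.sum_comp]
      exact Finset.sum_congr rfl fun t _ => kap_i M f i hi (y t) (e t)
  have cr : ∀ e, comb (ModStr.self K) (fun t => y t ≫ f) e ≫ r = comb M y (fun t => e t ≫ r) :=
    fun e => by
      rw [comb_apply, comb_apply, Preadditive.sum_comp]
      exact Finset.sum_congr rfl fun t _ => kap_r M f r hr (y t) (e t)
  refine ⟨fun e e' he => funext fun t => ?_, fun x => ?_⟩
  · have h1 := congrFun (h.1 ((ci e).symm.trans ((congrArg (· ≫ i) he).trans (ci e')))) t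
    have h2 := congrArg (· ≫ r) h1
    simpa only [Category.assoc, hir, Category.comp_id] using h2
  · obtain ⟨e, he⟩ := h.2 (x ≫ i)
    exact ⟨fun t => e t ≫ r, by rw [← cr, he, Category.assoc, hir, Category.comp_id]⟩

end Mod

variable {T : Type u} [Category.{v} T] [Preadditive T] [MonoidalCategory T] [SymmetricCategory T]
  [MonoidalPreadditive T] [MonoidalClosed T] [HasCoproducts.{0} T] {S : EvenSpheres T}
  {K : T} [MonObj K] (φ : S.PS ⟶ K) [IsMonHom φ]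

theorem in_zero_mul : K ◁ S.inPS 0 ≫ K ◁ φ ≫ μ[K] = K ◁ S.zero.inv ≫ (ρ_ K).hom := by
  have h : S.inPS 0 = S.zero.inv ≫ η[S.PS] := by rw [S.PS_one, Iso.inv_hom_id_assoc]
  rw [h, ← whiskerLeft_comp_assoc, Category.assoc, IsMonHom.one_hom, whiskerLeft_comp_assoc,
    MonObj.mul_one]

theorem unit_lift (n : ℤ) : ((S.unitIso n).hom ≫ (S.inPS n ≫ φ) ▷ S.S (-n)) ≫
    K ◁ S.inPS (-n) ≫ K ◁ φ ≫ μ[K] = η[K] := by
  rw [Category.assoc, ← whiskerLeft_comp_assoc, ← tensorHom_def_assoc,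
    ← tensorHom_comp_tensorHom_assoc, ← IsMonHom.mul_hom,
    S.in_mul_assoc n (-n) 0 (add_neg_cancel n), unitIso, Iso.trans_hom, Iso.symm_hom,
    Category.assoc, Iso.inv_hom_id_assoc, ← Category.assoc, ← S.PS_one, IsMonHom.one_hom]

theorem exists_lift (n : ℤ) (e : 𝟙_ T ⟶ K) :
    ∃ b : 𝟙_ T ⟶ K ⊗ S.S (-n), b ≫ K ◁ S.inPS (-n) ≫ K ◁ φ ≫ μ[K] = e := by
  refine ⟨((S.unitIso n).hom ≫ (S.inPS n ≫ φ) ▷ S.S (-n)) ≫
    ((λ_ K).inv ≫ e ▷ K ≫ μ[K]) ▷ S.S (-n), ?_⟩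
  have h : ((λ_ K).inv ≫ e ▷ K ≫ μ[K]) ▷ K ≫ μ[K] = μ[K] ≫ (λ_ K).inv ≫ e ▷ K ≫ μ[K] := by
    rw [comp_whiskerRight, comp_whiskerRight, Category.assoc, Category.assoc, MonObj.mul_assoc,
      leftUnitor_inv_naturality_assoc, whisker_exchange_assoc]
    monoidal
  rw [Category.assoc, ← whisker_exchange_assoc, ← whisker_exchange_assoc, h, Category.assoc,
    reassoc_of% (unit_lift φ n), leftUnitor_inv_naturality_assoc, whisker_exchange_assoc,
    MonObj.mul_one, rightUnitor_naturality, unitors_inv_equal, Iso.inv_hom_id_assoc]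

end PerH

variable {T : Type u} [Category.{v} T] [Preadditive T] [HasZeroObject T]
    [HasShift T ℤ] [∀ n : ℤ, (shiftFunctor T n).Additive] [Pretriangulated T] [IsTriangulated T]
    [MonoidalCategory T] [SymmetricCategory T] [TensorTriangulated T] [MonoidalClosed T]
    [HasCoproducts.{0} T] [HasProducts.{0} T] [StableCat T]

/-- ROW PER -/
theorem per (S : EvenSpheres T) : PER S := by
  intro K Y _ _ φ _ J _ d z h
  have hy : (fun t => z t ≫ K ◁ S.inPS (d t) ≫ K ◁ φ ≫ μ[K]) =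
      fun t => (z t ≫ K ◁ S.inPS (d t)) ≫ K ◁ φ ≫ μ[K] :=
    funext fun t => (Category.assoc _ _ _).symm
  rw [hy]
  refine ⟨(injective_iff_map_eq_zero _).2 fun e he => ?_, fun x => ?_⟩
  · choose b hb using fun t => PerH.exists_lift φ (d t) (e t)
    obtain ⟨g, hg⟩ : ∃ g : Y ⟶ K ⊗ S.S 0,
        comb (ModStr.self (K ⊗ S.PS)) (fun t => z t ≫ K ◁ S.inPS (d t))
          (fun t => b t ≫ K ◁ S.inPS (-(d t))) = g ≫ K ◁ S.inPS 0 := by
      refine ⟨∑ t, (ρ_ Y).inv ≫ (z t ⊗ₘ b t) ≫ tensorμ K (S.S (d t)) K (S.S (-(d t))) ≫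
        (μ[K] ⊗ₘ (S.mu (d t) (-(d t)) 0 (add_neg_cancel _)).hom), ?_⟩
      rw [comb_apply, Preadditive.sum_comp]
      refine Finset.sum_congr rfl fun t _ => ?_
      rw [PerH.kap_self, in_tensor_mul (add_neg_cancel (d t)), Category.assoc (ρ_ Y).inv]
    have h1 := PerH.comb_hom (K ◁ φ ≫ μ[K]) (fun t => z t ≫ K ◁ S.inPS (d t))
      (fun t => b t ≫ K ◁ S.inPS (-(d t)))
    have h2 : (fun t => (b t ≫ K ◁ S.inPS (-(d t))) ≫ K ◁ φ ≫ μ[K]) = e :=
      funext fun t => (Category.assoc _ _ _).trans (hb t)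
    rw [h2, he, hg, Category.assoc, PerH.in_zero_mul] at h1
    have h3 : g = 0 := by
      rw [← cancel_mono (K ◁ S.zero.inv ≫ (ρ_ K).hom), h1, zero_comp]
    rw [h3, zero_comp] at hg
    have h4 := (injective_iff_map_eq_zero _).1 h.1 _ hg
    rw [← h2]
    funext t
    rw [congrFun h4 t]
    exact zero_comp
  · obtain ⟨e, he⟩ := h.2 (x ≫ inlM K S.PS)
    refine ⟨fun t => e t ≫ K ◁ φ ≫ μ[K], ?_⟩
    rw [← PerH.comb_hom, he, Category.assoc, inlM, Category.assoc, ← whiskerLeft_comp_assoc,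
      IsMonHom.one_hom, MonObj.mul_one, Iso.inv_hom_id, Category.comp_id]

/-- ROW FREE -/
theorem free {S : EvenSpheres T} {F : SpaceFunctor T} (e : F.S.obj CCF ≅ S.L) (B : Type)
    [Fintype B] [DecidableEq B] (m : ℕ) (hSQ : SQ T) (hP : PER S) (hC : CLS e B m) :
    FREE e B m := by
  intro A _ _ o N M
  obtain ⟨K, _, _, f, _, i, r, hir, hi, hr⟩ := hSQ (A ⊗ S.PS) N M
  refine PerH.bij_retract M f i r hir hi hr _ ?_
  choose z hz using hC.deg K ((thKHom e (inlM A S.PS ≫ f)).push o)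
  have h1 := hC.fre K ((thKHom e (inlM A S.PS ≫ f)).push o)
  rw [funext hz] at h1
  have h2 := hP K _ (inrM A S.PS ≫ f) _ _ z h1
  have h3 : (fun t => z t ≫ K ◁ S.inPS (Tr.deg t) ≫ K ◁ (inrM A S.PS ≫ f) ≫ μ[K]) =
      fun t => ycl e o t ≫ f := funext fun t => by
    rw [← Category.assoc, ← hz, hC.push, Category.assoc, ← tensorHom_def_assoc]
    exact congrArg (ycl e o t ≫ ·) (eq_descM f).symm
  rwa [h3] at h2

end Vale.Agent.P261Z.T2
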