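import Vale.Agent.P261Z.T2.BDefs

/-!
# P261, block T2 (base): the square zero extension

A module over a commutative algebra is a retract of a commutative algebra.
-/

open CategoryTheory MonoidalCategory Limits MonObj

set_option linter.unusedSectionVars false

noncomputable section

universe v u

namespace Vale.Agent.P261Z.T2

open Vale.Agent.P251.S

namespace SqZ

section Right

variable {T : Type u} [Category.{v} T] [MonoidalCategory T] [SymmetricCategory T]
  {A N : T} [MonObj A] (M : ModStr A N)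

/-- the action on the right -/
def ract : N ⊗ A ⟶ N := (β_ N A).hom ≫ M.act

theorem ract_one : (N ◁ η[A]) ≫ ract M = (ρ_ N).hom := by
  rw [ract, BraidedCategory.braiding_naturality_right_assoc, M.one_act]
  simp

theorem br_ract : (β_ A N).hom ≫ ract M = M.act := by
  rw [ract, SymmetricCategory.symmetry_assoc]

theorem act_act : (A ◁ M.act) ≫ M.act = (α_ A A N).inv ≫ (μ[A] ▷ N) ≫ M.act := by
  rw [M.mul_act, Iso.inv_hom_id_assoc]

theorem act_ract [IsCommMonObj A] :
    (M.act ▷ A) ≫ ract M = (α_ A N A).hom ≫ (A ◁ ract M) ≫ M.act := by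
  have h : ((β_ A A).hom ▷ N) ≫ (μ[A] ▷ N) = μ[A] ▷ N := by
    rw [← comp_whiskerRight, IsCommMonObj.mul_comm]
  rw [ract, BraidedCategory.braiding_naturality_left_assoc, whiskerLeft_comp, Category.assoc,
    act_act, BraidedCategory.braiding_tensor_left_hom]
  simp only [Category.assoc, Iso.hom_inv_id_assoc]
  rw [reassoc_of% h]

theorem ract_ract [IsCommMonObj A] :
    (ract M ▷ A) ≫ ract M = (α_ N A A).hom ≫ (N ◁ μ[A]) ≫ ract M := by
  have h : (ract M ▷ A) = ((β_ N A).hom ▷ A) ≫ (M.act ▷ A) := by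
    rw [ract, comp_whiskerRight]
  rw [h, Category.assoc, act_ract, ract, whiskerLeft_comp, Category.assoc, act_act,
    BraidedCategory.braiding_naturality_right_assoc, BraidedCategory.braiding_tensor_right_hom]
  simp only [Category.assoc, Iso.hom_inv_id_assoc]

end Right

section Gen

variable {T : Type u} [Category.{v} T] [MonoidalCategory T]

theorem wr_tens {W X Y Z V : T} (f : W ⟶ X) (g : X ⟶ Y) (h : Z ⟶ V) :
    (f ▷ Z) ≫ (g ⊗ₘ h) = (f ≫ g) ⊗ₘ h := by
  rw [← tensorHom_id, tensorHom_comp_tensorHom, Category.id_comp]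

theorem wl_tens {W X Y Z V : T} (f : W ⟶ X) (g : X ⟶ Y) (h : Z ⟶ V) :
    (Z ◁ f) ≫ (h ⊗ₘ g) = h ⊗ₘ (f ≫ g) := by
  rw [← id_tensorHom, tensorHom_comp_tensorHom, Category.id_comp]

theorem tens_wr {W X Y Z V : T} (f : W ⟶ X) (g : X ⟶ Y) (h : Z ⟶ V) :
    (f ≫ g) ⊗ₘ h = (f ⊗ₘ h) ≫ (g ▷ V) := by
  rw [← tensorHom_id, tensorHom_comp_tensorHom, Category.comp_id]

theorem tens_wl {W X Y Z V : T} (f : W ⟶ X) (g : X ⟶ Y) (h : Z ⟶ V) :
    h ⊗ₘ (f ≫ g) = (h ⊗ₘ f) ≫ (V ◁ g) := by
  rw [← id_tensorHom, tensorHom_comp_tensorHom, Category.comp_id]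

end Gen

variable {T : Type u} [Category.{v} T] [Preadditive T] [MonoidalCategory T]
  [SymmetricCategory T] [MonoidalPreadditive T] [HasBinaryBiproducts T]
  {A N : T} [MonObj A] (M : ModStr A N)

/-- the product of the square zero extension -/
def mul : (A ⊞ N) ⊗ (A ⊞ N) ⟶ A ⊞ N :=
  biprod.lift ((biprod.fst ⊗ₘ biprod.fst) ≫ μ[A])
    ((biprod.fst ⊗ₘ biprod.snd) ≫ M.act + (biprod.snd ⊗ₘ biprod.fst) ≫ ract M)

theorem mul_fst : mul M ≫ biprod.fst = (biprod.fst ⊗ₘ biprod.fst) ≫ μ[A] := by
  rw [mul, biprod.lift_fst]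

theorem mul_snd : mul M ≫ biprod.snd =
    (biprod.fst ⊗ₘ biprod.snd) ≫ M.act + (biprod.snd ⊗ₘ biprod.fst) ≫ ract M := by
  rw [mul, biprod.lift_snd]

theorem one_mul' : ((η[A] ≫ biprod.inl) ▷ (A ⊞ N)) ≫ mul M = (λ_ (A ⊞ N)).hom := by
  apply biprod.hom_ext
  · rw [Category.assoc, mul_fst, ← Category.assoc, wr_tens, Category.assoc, biprod.inl_fst,
      Category.comp_id, tensorHom_def', Category.assoc, MonObj.one_mul, leftUnitor_naturality]
  · rw [Category.assoc, mul_snd, Preadditive.comp_add, ← Category.assoc, ← Category.assoc,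
      wr_tens, wr_tens, Category.assoc, Category.assoc, biprod.inl_fst, biprod.inl_snd,
      Category.comp_id, comp_zero, MonoidalPreadditive.zero_tensor, zero_comp, add_zero,
      tensorHom_def', Category.assoc, M.one_act, leftUnitor_naturality]

theorem mul_one' : ((A ⊞ N) ◁ (η[A] ≫ biprod.inl)) ≫ mul M = (ρ_ (A ⊞ N)).hom := by
  apply biprod.hom_ext
  · rw [Category.assoc, mul_fst, ← Category.assoc, wl_tens, Category.assoc, biprod.inl_fst,
      Category.comp_id, MonoidalCategory.tensorHom_def, Category.assoc, MonObj.mul_one, rightUnitor_naturality]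
  · rw [Category.assoc, mul_snd, Preadditive.comp_add, ← Category.assoc, ← Category.assoc,
      wl_tens, wl_tens, Category.assoc, Category.assoc, biprod.inl_fst, biprod.inl_snd,
      Category.comp_id, comp_zero, MonoidalPreadditive.tensor_zero, zero_comp, zero_add,
      MonoidalCategory.tensorHom_def, Category.assoc, ract_one, rightUnitor_naturality]

theorem mul_assoc' [IsCommMonObj A] : (mul M ▷ (A ⊞ N)) ≫ mul M =
    (α_ (A ⊞ N) (A ⊞ N) (A ⊞ N)).hom ≫ ((A ⊞ N) ◁ mul M) ≫ mul M := by
  apply biprod.hom_ext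
  · simp only [Category.assoc]
    rw [mul_fst, ← Category.assoc, wr_tens, ← Category.assoc (_ ◁ _), wl_tens, mul_fst, tens_wr,
      tens_wl, Category.assoc, Category.assoc, MonObj.mul_assoc, associator_naturality_assoc]
  · simp only [Category.assoc]
    rw [mul_snd, Preadditive.comp_add, Preadditive.comp_add, ← Category.assoc, ← Category.assoc,
      wr_tens, wr_tens, ← Category.assoc (_ ◁ _), ← Category.assoc (_ ◁ _), wl_tens, wl_tens,
      mul_fst, mul_snd, MonoidalPreadditive.add_tensor, MonoidalPreadditive.tensor_add,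
      tens_wr, tens_wr, tens_wr, tens_wl, tens_wl, tens_wl]
    simp only [Preadditive.comp_add, Preadditive.add_comp, Category.assoc]
    rw [M.mul_act, act_ract, ract_ract, associator_naturality_assoc, associator_naturality_assoc,
      associator_naturality_assoc, add_assoc]

theorem mul_comm' [IsCommMonObj A] : (β_ (A ⊞ N) (A ⊞ N)).hom ≫ mul M = mul M := by
  apply biprod.hom_ext
  · rw [Category.assoc, mul_fst, ← BraidedCategory.braiding_naturality_assoc,
      IsCommMonObj.mul_comm]
  · rw [Category.assoc, mul_snd, Preadditive.comp_add, ← BraidedCategory.braiding_naturality_assoc,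
      ← BraidedCategory.braiding_naturality_assoc, br_ract, add_comm]
    rfl

/-- the algebra structure on the square zero extension -/
@[reducible] def mon [IsCommMonObj A] : MonObj (A ⊞ N) where
  one := η[A] ≫ biprod.inl
  mul := mul M
  one_mul := one_mul' M
  mul_one := mul_one' M
  mul_assoc := mul_assoc' M

theorem inl_mul : μ[A] ≫ (biprod.inl : A ⟶ A ⊞ N) = (biprod.inl ⊗ₘ biprod.inl) ≫ mul M := by
  apply biprod.hom_ext
  · rw [Category.assoc, Category.assoc, mul_fst, tensorHom_comp_tensorHom_assoc, biprod.inl_fst,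
      id_tensorHom_id, Category.id_comp, Category.comp_id]
  · rw [Category.assoc, Category.assoc, mul_snd, Preadditive.comp_add,
      tensorHom_comp_tensorHom_assoc, tensorHom_comp_tensorHom_assoc, biprod.inl_snd,
      MonoidalPreadditive.zero_tensor, MonoidalPreadditive.tensor_zero, comp_zero, zero_comp,
      zero_comp, add_zero]

theorem act_inr : M.act ≫ (biprod.inr : N ⟶ A ⊞ N) = (biprod.inl ⊗ₘ biprod.inr) ≫ mul M := by
  apply biprod.hom_ext
  · rw [Category.assoc, Category.assoc, mul_fst, tensorHom_comp_tensorHom_assoc, biprod.inr_fst,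
      MonoidalPreadditive.tensor_zero, comp_zero, zero_comp]
  · rw [Category.assoc, Category.assoc, mul_snd, Preadditive.comp_add,
      tensorHom_comp_tensorHom_assoc, tensorHom_comp_tensorHom_assoc, biprod.inl_snd,
      biprod.inl_fst, biprod.inr_snd, MonoidalPreadditive.zero_tensor, zero_comp, add_zero,
      id_tensorHom_id, Category.id_comp, Category.comp_id]

theorem inl_mul_snd : ((biprod.inl : A ⟶ A ⊞ N) ▷ (A ⊞ N)) ≫ mul M ≫ biprod.snd =
    (A ◁ biprod.snd) ≫ M.act := by
  rw [mul_snd, Preadditive.comp_add, ← Category.assoc, ← Category.assoc, wr_tens, wr_tens,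
    biprod.inl_fst, biprod.inl_snd, MonoidalPreadditive.zero_tensor, zero_comp, add_zero,
    id_tensorHom]

end SqZ

theorem sq (T : Type u) [Category.{v} T] [Preadditive T] [MonoidalCategory T]
    [SymmetricCategory T] [MonoidalPreadditive T] [HasBinaryBiproducts T] : SQ T := by
  intro A N _ _ M
  let _ := SqZ.mon M
  exact ⟨A ⊞ N, SqZ.mon M, ⟨SqZ.mul_comm' M⟩, biprod.inl, ⟨rfl, SqZ.inl_mul M⟩, biprod.inr,
    biprod.snd, biprod.inr_snd, SqZ.act_inr M, SqZ.inl_mul_snd M⟩

end Vale.Agent.P261Z.T2
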