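import Vale.Agent.P251.M.StrictAlg
import Vale.Agent.P251.F.LawHom
import Mathlib.RingTheory.MvPolynomial.Ideal

/-!
# P261, block T2 (base): truncated polynomial law rings

`Tr N ι M = N[x_b : b ∈ ι] / (x_b ^ M)`. For a law ring `N` it is a law ring: a point is a point
of `N` with elements `ξ_b`, `ξ_b ^ M = 0`, and a coordinate change `f` sends `ξ_b` to `f (ξ_b)`.
-/

open Vale.Agent.P251.F Vale.Agent.P251.M

namespace Vale.Agent.P261Z.T2

/-- the ideal of the `x_b ^ M` -/
noncomputable def trI (N : Type) [CommRing N] (ι : Type) (M : ℕ) : Ideal (MvPolynomial ι N) :=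
  Ideal.span (Set.range fun b : ι => (MvPolynomial.X b : MvPolynomial ι N) ^ M)

/-- The ring `N[x_b] / (x_b ^ M)`. -/
def Tr (N : Type) [CommRing N] (ι : Type) (M : ℕ) : Type := MvPolynomial ι N ⧸ trI N ι M

namespace Tr

variable {N N' N'' B B' : Type} [CommRing N] [CommRing N'] [CommRing N''] [CommRing B]
  [CommRing B'] {ι : Type} {M : ℕ}

noncomputable instance : CommRing (Tr N ι M) :=
  inferInstanceAs (CommRing (MvPolynomial ι N ⧸ trI N ι M))

/-- the quotient map -/
noncomputable def mk : MvPolynomial ι N →+* Tr N ι M := Ideal.Quotient.mk (trI N ι M)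

theorem mk_surjective : Function.Surjective (mk : MvPolynomial ι N → Tr N ι M) :=
  Ideal.Quotient.mk_surjective

theorem mk_eq_zero {f : MvPolynomial ι N} : (mk f : Tr N ι M) = 0 ↔ f ∈ trI N ι M :=
  Ideal.Quotient.eq_zero_iff_mem

variable (ι M) in
/-- the constants -/
noncomputable def C : N →+* Tr N ι M := mk.comp MvPolynomial.C

variable (N M) in
/-- the variables -/
noncomputable def x (b : ι) : Tr N ι M := mk (MvPolynomial.X b)

theorem x_pow (b : ι) : x N M b ^ M = 0 := by
  rw [x, ← map_pow, mk_eq_zero]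
  exact Ideal.subset_span ⟨b, rfl⟩

theorem map_x_pow (y : Tr N ι M →+* B) (b : ι) : y (x N M b) ^ M = 0 := by
  rw [← map_pow, x_pow, map_zero]

/-- The universal property. -/
noncomputable def lift (φ : N →+* B) (ξ : ι → B) (h : ∀ b, ξ b ^ M = 0) : Tr N ι M →+* B :=
  Ideal.Quotient.lift (trI N ι M) (MvPolynomial.eval₂Hom φ ξ) (by
    intro a ha
    refine Submodule.span_induction (p := fun a _ => MvPolynomial.eval₂Hom φ ξ a = 0)
      ?_ (map_zero _) ?_ ?_ ha
    · rintro _ ⟨b, rfl⟩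
      rw [map_pow, MvPolynomial.eval₂Hom_X', h]
    · intro a b _ _ ha hb
      rw [map_add, ha, hb, add_zero]
    · intro a b _ hb
      rw [smul_eq_mul, map_mul, hb, mul_zero])

theorem lift_mk (φ : N →+* B) (ξ : ι → B) (h : ∀ b, ξ b ^ M = 0) (f : MvPolynomial ι N) :
    lift φ ξ h (mk f) = MvPolynomial.eval₂Hom φ ξ f := rfl

@[simp] theorem lift_C (φ : N →+* B) (ξ : ι → B) (h : ∀ b, ξ b ^ M = 0) (a : N) :
    lift φ ξ h (C ι M a) = φ a :=
  (lift_mk φ ξ h _).trans (MvPolynomial.eval₂Hom_C _ _ _)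

@[simp] theorem lift_x (φ : N →+* B) (ξ : ι → B) (h : ∀ b, ξ b ^ M = 0) (b : ι) :
    lift φ ξ h (x N M b) = ξ b :=
  (lift_mk φ ξ h _).trans (MvPolynomial.eval₂Hom_X' _ _ _)

theorem lift_comp_C (φ : N →+* B) (ξ : ι → B) (h : ∀ b, ξ b ^ M = 0) :
    (lift φ ξ h).comp (C ι M) = φ := RingHom.ext fun a => lift_C φ ξ h a

theorem hom_ext {y y' : Tr N ι M →+* B} (h1 : y.comp (C ι M) = y'.comp (C ι M))
    (h2 : ∀ b, y (x N M b) = y' (x N M b)) : y = y' := by
  have h : y.comp mk = y'.comp mk :=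
    MvPolynomial.ringHom_ext (fun a => DFunLike.congr_fun h1 a) h2
  refine RingHom.ext fun a => ?_
  obtain ⟨f, rfl⟩ := mk_surjective a
  exact DFunLike.congr_fun h f

/-- The value of an invertible series at an element with `ξ ^ M = 0` has the same property. -/
theorem nev1_pow {ξ : B} (h : ξ ^ M = 0) (f : InvSeries B) : nev1 ξ f.val ^ M = 0 := by
  have h1 : ξ ∣ nev1 ξ f.val := by
    rw [nev1_eq_sum h]
    refine Finset.dvd_sum fun i _ => ?_
    rcases i with _ | i
    · rw [PowerSeries.coeff_zero_eq_constantCoeff_apply, f.cc, zero_smul]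
      exact dvd_zero _
    · rw [smul_eq_mul]
      exact Dvd.dvd.mul_left (dvd_pow_self ξ (Nat.succ_ne_zero i)) _
  obtain ⟨c, hc⟩ := h1
  rw [hc, mul_pow, h, zero_mul]

theorem map_nev1 (φ : B →+* B') {ξ : B} (h : ξ ^ M = 0) (f : InvSeries B) :
    φ (nev1 ξ f.val) = nev1 (φ ξ) (InvSeries.map φ f).val :=
  map_nev1_semi φ φ (fun _ => rfl) ⟨M, h⟩ f.val

/-- The action of a coordinate change on a point. -/
noncomputable def actPt [LawRing N] (f : InvSeries B) (y : Tr N ι M →+* B) : Tr N ι M →+* B :=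
  lift (LawRing.act f (y.comp (C ι M))) (fun b => nev1 (y (x N M b)) f.val)
    fun b => nev1_pow (map_x_pow y b) f

noncomputable instance [LawRing N] : LawRing (Tr N ι M) where
  law := (LawRing.law (N := N)).map (C ι M)
  act f y := actPt f y
  act_one y := hom_ext (by rw [actPt, lift_comp_C, LawRing.act_one]) fun b => by
    rw [actPt, lift_x]
    exact nev1_X ⟨M, map_x_pow y b⟩
  act_mul f g y := hom_ext
    (by rw [actPt, actPt, actPt, lift_comp_C, lift_comp_C, lift_comp_C, LawRing.act_mul])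
    fun b => by
      rw [actPt, actPt, actPt, lift_x, lift_x, lift_x, InvSeries.mul_val]
      exact nev1_psubst ⟨M, map_x_pow y b⟩ g.cc f.val
  comp_act φ f y := hom_ext
    (by rw [actPt, actPt, RingHom.comp_assoc, lift_comp_C, lift_comp_C, LawRing.comp_act,
      RingHom.comp_assoc])
    fun b => by
      rw [actPt, actPt, RingHom.comp_apply, lift_x, lift_x]
      exact map_nev1 φ (map_x_pow y b) f
  law_act f y := by
    rw [Law.map_map, Law.map_map, actPt, lift_comp_C, LawRing.law_act]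

theorem law_eq [LawRing N] :
    LawRing.law (N := Tr N ι M) = (LawRing.law (N := N)).map (C ι M) := rfl

theorem act_comp_C [LawRing N] (f : InvSeries B) (y : Tr N ι M →+* B) :
    (LawRing.act f y).comp (C ι M) = LawRing.act f (y.comp (C ι M)) :=
  lift_comp_C _ _ fun b => nev1_pow (map_x_pow y b) f

theorem act_x [LawRing N] (f : InvSeries B) (y : Tr N ι M →+* B) (b : ι) :
    LawRing.act f y (x N M b) = nev1 (y (x N M b)) f.val :=
  lift_x _ _ (fun b => nev1_pow (map_x_pow y b) f) b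

theorem isLawHom_C [LawRing N] : IsLawHom (C ι M : N →+* Tr N ι M) where
  law := rfl
  act _ _ f y := act_comp_C f y

/-- A ring map `φ` of the coefficients together with a map `σ` of the variables. -/
noncomputable def mapP (φ : N →+* N') (σ : ι → ι) : Tr N ι M →+* Tr N' ι M :=
  lift ((C ι M).comp φ) (fun b => x N' M (σ b)) fun _ => x_pow _

@[simp] theorem mapP_C (φ : N →+* N') (σ : ι → ι) (a : N) :
    (mapP φ σ : Tr N ι M →+* _) (C ι M a) = C ι M (φ a) := lift_C _ _ _ _

@[simp] theorem mapP_x (φ : N →+* N') (σ : ι → ι) (b : ι) :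
    (mapP φ σ : Tr N ι M →+* _) (x N M b) = x N' M (σ b) := lift_x _ _ _ _

theorem mapP_comp_C (φ : N →+* N') (σ : ι → ι) :
    (mapP φ σ : Tr N ι M →+* _).comp (C ι M) = (C ι M).comp φ := lift_comp_C _ _ _

theorem mapP_comp (φ : N →+* N') (ψ : N' →+* N'') (σ τ : ι → ι) :
    (mapP ψ τ : Tr N' ι M →+* _).comp (mapP φ σ) = mapP (ψ.comp φ) (τ ∘ σ) :=
  hom_ext (RingHom.ext fun a => by simp) fun b => by simp

theorem mapP_id : (mapP (RingHom.id N) id : Tr N ι M →+* _) = RingHom.id _ :=
  hom_ext (RingHom.ext fun a => by simp) fun b => by simp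

theorem isLawHom_mapP [LawRing N] [LawRing N'] {φ : N →+* N'} (hφ : IsLawHom φ) (σ : ι → ι) :
    IsLawHom (mapP φ σ : Tr N ι M →+* Tr N' ι M) where
  law := by rw [law_eq, law_eq, Law.map_map, mapP_comp_C, ← Law.map_map, hφ.law]
  act B _ f y := hom_ext
    (by rw [RingHom.comp_assoc, mapP_comp_C, ← RingHom.comp_assoc, act_comp_C, hφ.act,
      act_comp_C, RingHom.comp_assoc, RingHom.comp_assoc, mapP_comp_C])
    fun b => by rw [RingHom.comp_apply, mapP_x, act_x, act_x, RingHom.comp_apply, mapP_x]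

variable (ι M) in
/-- change of coefficients -/
noncomputable abbrev map (φ : N →+* N') : Tr N ι M →+* Tr N' ι M := mapP φ id

variable (N M) in
/-- permutation of the variables: `x_b ↦ x_(σ b)` -/
noncomputable abbrev perm (σ : Equiv.Perm ι) : Tr N ι M →+* Tr N ι M := mapP (RingHom.id N) σ

variable (N) in
/-- the monomials -/
noncomputable def mon [Fintype ι] (t : ι → Fin M) : Tr N ι M := ∏ b, x N M b ^ (t b : ℕ)

theorem mapP_mon [Fintype ι] (φ : N →+* N') (σ : Equiv.Perm ι) (t : ι → Fin M) :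
    (mapP φ σ : Tr N ι M →+* _) (mon N (t ∘ σ)) = mon N' t := by
  rw [mon, mon, map_prod, ← Equiv.prod_comp σ fun b => x N' M b ^ (t b : ℕ)]
  exact Finset.prod_congr rfl fun b _ => by rw [map_pow, mapP_x]; rfl

end Tr

end Vale.Agent.P261Z.T2
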