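import Vale.Agent.P251.G.Glue
import Vale.Agent.P251.G.Cofib
import Mathlib.Topology.Maps.Proper.CompactlyGenerated

/-!
# P261, part T2: cofibrations between closed subsets

* `CS S T` : the inclusion of the closed subsets `S ⊆ T` of a space is a cofibration;
* `CS.push` : transfer along relative homeomorphisms;
* `cs_prod` : the pushout product of a cofibration with the end point of the half line.
-/

open CategoryTheory MonoidalCategory OnePoint Topology Filter

namespace Vale.Agent.P261Z.T2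

open Vale.Agent.P251.G Vale.Agent.P251.G.LC

variable {A B D Z : LC}

/-- the finite points in the image of a morphism -/
def rg (i : A ⟶ B) : Set B := {b | (b : OnePoint B) ∈ Set.range (app i)}

theorem isClosed_rg (i : A ⟶ B) : IsClosed (rg i) :=
  (isClosed_range_app i).preimage OnePoint.continuous_coe

theorem range_eq_of_rg {i : A ⟶ Z} {j : B ⟶ Z} (h : rg i = rg j) :
    Set.range (app i) = Set.range (app j) := by
  ext y
  induction y using OnePoint.rec with
  | infty => exact ⟨fun _ => infty_mem_range_app j, fun _ => infty_mem_range_app i⟩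
  | coe y => exact Set.ext_iff.1 h y

theorem rg_subι {S : Set Z} (hS : IsClosed S) : rg (subι hS) = S := by
  ext z
  exact (mem_range_subι hS z).trans
    ⟨fun h => h z rfl, fun h _ hz => OnePoint.coe_injective hz ▸ h⟩

theorem mem_rg {i : A ⟶ B} {b : B} : b ∈ rg i ↔ ∃ a : A, app i a = b := by
  refine ⟨fun ⟨a, ha⟩ => ?_, fun ⟨a, ha⟩ => ⟨a, ha⟩⟩
  induction a using OnePoint.rec with
  | infty => exact absurd ((app_infty i).symm.trans ha) (OnePoint.infty_ne_coe _)
  | coe a => exact ⟨a, ha⟩

theorem rg_id (Z : LC) : rg (𝟙 Z) = Set.univ := Set.eq_univ_of_forall fun z => ⟨z, rfl⟩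

/-- The inclusion of `S` in `T` is a cofibration. -/
def CS (S T : Set Z) : Prop :=
  ∃ (A B : LC) (i : A ⟶ B) (b : B ⟶ Z), Function.Injective (app b) ∧ Cofib i ∧
    rg (i ≫ b) = S ∧ rg b = T

theorem CS.of_cofib {i : A ⟶ B} (h : Cofib i) : CS (rg i) Set.univ :=
  ⟨A, B, i, 𝟙 B, fun _ _ h => h, h, by rw [Category.comp_id], rg_id B⟩

theorem CS.cofib {i : A ⟶ Z} (hi : Function.Injective (app i)) (h : CS (rg i) Set.univ) :
    Cofib i := by
  obtain ⟨A', B, i', b, hb, hc, h1, h2⟩ := h
  have h3 : Set.range (app b) = Set.range (app (𝟙 Z)) := range_eq_of_rg (h2.trans (rg_id Z).symm)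
  have h0 : Function.Injective (app (𝟙 Z)) := fun _ _ h => h
  have h4 : (isoOfRange hb h0 h3).hom = b :=
    (Category.comp_id _).symm.trans (isoOfRange_hom_comp hb h0 h3)
  have h5 : Cofib (i' ≫ b) := h4 ▸ hc.comp_iso (isoOfRange hb h0 h3)
  exact h5.of_range_eq hi (range_eq_of_rg h1)

theorem CS.trans {S T U : Set Z} (h : CS S T) (k : CS T U) : CS S U := by
  obtain ⟨A, B, i, b, hb, hc, h1, h2⟩ := h
  obtain ⟨A', B', i', b', hb', hc', h1', h2'⟩ := k
  have h3 : Function.Injective (app (i' ≫ b')) := hb'.comp hc'.injective'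
  have h4 : Set.range (app b) = Set.range (app (i' ≫ b')) := range_eq_of_rg (h2.trans h1'.symm)
  refine ⟨A, B', (i ≫ (isoOfRange hb h3 h4).hom) ≫ i', b', hb',
    (hc.comp_iso _).comp hc', ?_, h2'⟩
  rw [Category.assoc, Category.assoc, isoOfRange_hom_comp, h1]

/-- Transfer along a relative homeomorphism. -/
theorem CS.push {S₀ T₀ : Set D} (h : CS S₀ T₀) (q : D ⟶ Z) {S T : Set Z} (hS : IsClosed S)
    (h1 : ∀ d ∈ S₀, ∀ z : Z, app q d = z → z ∈ S)
    (h2 : ∀ d ∈ T₀, d ∉ S₀ → ∃ z : Z, app q d = z ∧ z ∉ S)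
    (h3 : ∀ d ∈ T₀, d ∉ S₀ → ∀ d' ∈ T₀, d' ∉ S₀ → app q d = app q d' → d = d')
    (hT : ∀ z, z ∈ T ↔ z ∈ S ∨ ∃ d ∈ T₀, app q d = z) : CS S T := by
  obtain ⟨A, B, i, b, hb, hc, rfl, rfl⟩ := h
  have hT' : T = S ∪ rg (b ≫ q) := by
    ext z
    rw [hT]
    refine or_congr Iff.rfl ⟨fun ⟨d, ⟨x, hx⟩, hd⟩ => ⟨x, by rw [app_comp, hx, hd]⟩, fun hz => ?_⟩
    obtain ⟨x, hx⟩ := hz
    rw [app_comp] at hx
    have h4 : app b x ≠ ∞ := fun h5 => by
      rw [h5, app_infty] at hx
      exact OnePoint.infty_ne_coe _ hx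
    obtain ⟨d, hd⟩ := OnePoint.ne_infty_iff_exists.1 h4
    exact ⟨d, ⟨x, hd.symm⟩, hd ▸ hx⟩
  have hTc : IsClosed T := hT' ▸ hS.union (isClosed_rg _)
  have mS : ∀ x, app (i ≫ b ≫ q) x ∈ Set.range (app (subι hS)) := fun x =>
    (mem_range_subι hS _).2 fun z hz => by
      have h4 : app (i ≫ b) x ≠ ∞ := fun h5 => by
        rw [← Category.assoc, app_comp, h5, app_infty] at hz
        exact OnePoint.infty_ne_coe _ hz
      obtain ⟨d, hd⟩ := OnePoint.ne_infty_iff_exists.1 h4
      refine h1 d ⟨x, hd.symm⟩ z ?_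
      rw [hd, ← app_comp, Category.assoc, hz]
  have mT : ∀ x, app (b ≫ q) x ∈ Set.range (app (subι hTc)) := fun x =>
    (mem_range_subι hTc _).2 fun z hz => hT' ▸ Or.inr ⟨x, hz⟩
  have mST : ∀ x, app (subι hS) x ∈ Set.range (app (subι hTc)) := fun x =>
    (mem_range_subι hTc _).2 fun z hz => hT' ▸ Or.inl ((mem_range_subι hS _).1 ⟨x, rfl⟩ z hz)
  let f := factor _ (injective_subι hS) _ mS
  let g := factor _ (injective_subι hTc) _ mT
  let j := factor _ (injective_subι hTc) _ mST
  have hj : ∀ x, app (subι hTc) (app j x) = app (subι hS) x := app_factor _ _ _ _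
  have hg : ∀ x, app (subι hTc) (app g x) = app q (app b x) := app_factor _ _ _ _
  have hjinj : Function.Injective (app j) := fun x y hxy =>
    injective_subι hS (by rw [← hj, ← hj, hxy])
  have key : ∀ x, x ∉ Set.range (app i) → ∃ d : D, app b x = d ∧ d ∈ rg b ∧ d ∉ rg (i ≫ b) := by
    intro x hx
    have h4 : app b x ≠ ∞ := fun h5 => hx (eq_infty_of_app_eq_infty hb h5 ▸ infty_mem_range_app i)
    obtain ⟨d, hd⟩ := OnePoint.ne_infty_iff_exists.1 h4
    exact ⟨d, hd.symm, ⟨x, hd.symm⟩, fun ⟨a, ha⟩ => hx ⟨a, hb (ha.trans hd)⟩⟩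
  have hpo : IsPushout i f g j := by
    refine isPushout_of ?_ hjinj ⟨fun x hx => ?_, fun x hx y hy hxy => ?_, fun y hy => ?_⟩
    · have := mono_of_injective (injective_subι hTc)
      rw [← cancel_mono (subι hTc), Category.assoc, Category.assoc, factor_comp, factor_comp,
        factor_comp]
    · rintro ⟨c, hc⟩
      obtain ⟨d, hd, hd1, hd2⟩ := key x hx
      obtain ⟨z, hz, hzS⟩ := h2 d hd1 hd2
      refine hzS ((mem_range_subι hS _).1 ⟨c, rfl⟩ z ?_)
      rw [← hj, hc, hg, hd, hz]
    · obtain ⟨d, hd, hd1, hd2⟩ := key x hx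
      obtain ⟨d', hd', hd1', hd2'⟩ := key y hy
      have h4 := h3 d hd1 hd2 d' hd1' hd2' (by rw [← hd, ← hd', ← hg, ← hg, hxy])
      exact hb (by rw [hd, hd', h4])
    · induction y using OnePoint.rec with
      | infty => exact absurd (infty_mem_range_app j) hy
      | coe y =>
        have h4 : y.1 ∉ S := fun h5 => hy ⟨OnePoint.some (X := sub hS) ⟨y.1, h5⟩,
          injective_subι hTc (hj _)⟩
        have h5 : y.1 ∈ S ∪ rg (b ≫ q) := hT' ▸ y.2
        obtain ⟨x, hx⟩ := h5.resolve_left h4
        refine ⟨x, ?_, injective_subι hTc ((hg x).trans hx)⟩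
        rintro ⟨a, rfl⟩
        exact h4 ((mem_range_subι hS _).1 (mS a) y.1 hx)
  refine ⟨_, _, j, subι hTc, injective_subι hTc, hc.pushout hpo, ?_, rg_subι hTc⟩
  rw [factor_comp, rg_subι]

/-- Transfer along a closed embedding. -/
theorem CS.push_closed {S₀ T₀ : Set D} (h : CS S₀ T₀) (q : D → Z) (hq : IsClosedEmbedding q)
    {S T : Set Z} (hS : IsClosed S) (h1 : ∀ d ∈ S₀, q d ∈ S)
    (h2 : ∀ d ∈ T₀, q d ∈ S → d ∈ S₀) (hT : ∀ z, z ∈ T ↔ z ∈ S ∨ ∃ d ∈ T₀, q d = z) : CS S T :=
  h.push (ofClosed q hq) hS (fun d hd _ hz => OnePoint.coe_injective hz ▸ h1 d hd)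
    (fun d hd hd' => ⟨q d, rfl, fun h3 => hd' (h2 d hd h3)⟩)
    (fun _ _ _ _ _ _ h3 => hq.injective (OnePoint.coe_injective h3))
    (fun z => (hT z).trans (or_congr Iff.rfl (exists_congr fun _ => and_congr Iff.rfl
      ⟨fun h3 => congrArg _ h3, fun h3 => OnePoint.coe_injective h3⟩)))

section prod

/-- the minimum of the two coordinates -/
noncomputable def dl (s : NNReal) (τ : unitInterval) : unitInterval :=
  ⟨min (s : ℝ) τ, le_min s.2 τ.2.1, (min_le_right _ _).trans τ.2.2⟩

/-- projection to the interval -/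
noncomputable def pj (x : ℝ) : unitInterval := Set.projIcc 0 1 zero_le_one x

theorem continuous_pj : Continuous pj := continuous_projIcc (h := zero_le_one)

theorem pj_coe (τ : unitInterval) : pj τ = τ := Set.projIcc_val _ _

/-- first step of the retraction -/
noncomputable def alF (B : LC) (p : (B × NNReal) × unitInterval) :
    (B × unitInterval) × (NNReal × unitInterval) :=
  ((p.1.1, dl p.1.2 p.2), (Real.toNNReal (p.1.2 - dl p.1.2 p.2), pj (p.2 - dl p.1.2 p.2)))

/-- last step of the retraction -/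
noncomputable def beF (B : LC) (p : (B × unitInterval) × (NNReal × unitInterval)) :
    (B × NNReal) × unitInterval :=
  ((p.1.1, Real.toNNReal (p.2.1 + p.1.2)), pj (p.2.2 + p.1.2))

theorem continuous_dl : Continuous fun p : NNReal × unitInterval => dl p.1 p.2 :=
  Continuous.subtype_mk (by fun_prop) _

theorem continuous_alF (B : LC) : Continuous (alF B) := by
  have h : Continuous fun p : (B × NNReal) × unitInterval => dl p.1.2 p.2 :=
    continuous_dl.comp (f := fun p : (B × NNReal) × unitInterval => (p.1.2, p.2)) (by fun_prop)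
  have h' := continuous_subtype_val.comp h
  exact ((continuous_fst.comp continuous_fst).prodMk h).prodMk
    ((continuous_real_toNNReal.comp (Continuous.sub (by fun_prop) h')).prodMk
      (continuous_pj.comp (Continuous.sub (by fun_prop) h')))

theorem continuous_beF (B : LC) : Continuous (beF B) :=
  ((continuous_fst.comp continuous_fst).prodMk
    (continuous_real_toNNReal.comp (by fun_prop))).prodMk (continuous_pj.comp (by fun_prop))

theorem coe_pj_sub (s : NNReal) (τ : unitInterval) : (pj (τ - dl s τ) : ℝ) = τ - dl s τ := by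
  have h1 : (dl s τ : ℝ) ≤ τ := min_le_right _ _
  have h2 := (dl s τ).2.1
  have h3 := τ.2.2
  exact congrArg Subtype.val (Set.projIcc_of_mem zero_le_one ⟨by linarith, by linarith⟩)

theorem coe_toNN_sub (s : NNReal) (τ : unitInterval) :
    (Real.toNNReal (s - dl s τ) : ℝ) = s - dl s τ :=
  Real.coe_toNNReal _ (sub_nonneg.2 (min_le_left _ _))

theorem beF_alF (B : LC) (p : (B × NNReal) × unitInterval) : beF B (alF B p) = p := by
  obtain ⟨⟨b, s⟩, τ⟩ := p
  simp only [beF, alF, coe_pj_sub, coe_toNN_sub, sub_add_cancel, Real.toNNReal_coe, pj_coe]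

theorem proper_beF (B : LC) : IsProperMap (beF B) := by
  let e : (B × unitInterval) × (NNReal × unitInterval) →
      ((B × NNReal) × unitInterval) × (unitInterval × unitInterval) :=
    fun p => (beF B p, (p.1.2, p.2.2))
  let e' : ((B × NNReal) × unitInterval) × (unitInterval × unitInterval) →
      (B × unitInterval) × (NNReal × unitInterval) :=
    fun p => ((p.1.1.1, p.2.1), (Real.toNNReal (p.1.1.2 - p.2.1), p.2.2))
  have h1 : Function.LeftInverse e' e := by
    rintro ⟨⟨b, δ⟩, s, τ⟩
    have h2 : (0 : ℝ) ≤ s + δ := add_nonneg s.2 δ.2.1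
    simp only [e, e', beF, Real.coe_toNNReal _ h2, add_sub_cancel_right, Real.toNNReal_coe]
  have h2 : IsClosedEmbedding e := h1.isClosedEmbedding
    (((continuous_fst.comp (continuous_fst.comp continuous_fst)).prodMk (by fun_prop)).prodMk
      ((continuous_real_toNNReal.comp (by fun_prop)).prodMk (by fun_prop)))
    ((continuous_beF B).prodMk (by fun_prop))
  exact isProperMap_fst_of_compactSpace.comp h2.isProperMap

/-- **The pushout product with the end point of the half line.** -/
theorem cs_prod {i : A ⟶ B} (h : Cofib i) :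
    CS (Z := B ⊗ HH) {p : B × NNReal | p.2 = 0 ∨ p.1 ∈ rg i} Set.univ := by
  have hS : IsClosed {p : B × NNReal | p.2 = 0 ∨ p.1 ∈ rg i} :=
    (isClosed_eq continuous_snd continuous_const).union ((isClosed_rg i).preimage continuous_fst)
  rw [← rg_subι (Z := B ⊗ HH) hS]
  refine CS.of_cofib ?_
  obtain ⟨r, hr⟩ := h.exists_isRetr
  have hal : IsClosedEmbedding (alF B) :=
    Function.LeftInverse.isClosedEmbedding (beF_alF B) (continuous_beF B) (continuous_alF B)
  let α : (B ⊗ HH) ⊗ II ⟶ (B ⊗ II) ⊗ (HH ⊗ II) :=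
    ofClosed (X := (B ⊗ HH) ⊗ II) (Y := (B ⊗ II) ⊗ (HH ⊗ II)) (alF B) hal
  let β : (B ⊗ II) ⊗ (HH ⊗ II) ⟶ (B ⊗ HH) ⊗ II :=
    ofProper (X := (B ⊗ II) ⊗ (HH ⊗ II)) (Y := (B ⊗ HH) ⊗ II) (beF B) (continuous_beF B)
      (isProperMap_iff_tendsto_cocompact.1 (proper_beF B)).2
  have hR : ∀ (b : B) (s : NNReal) (τ : unitInterval),
      app (α ≫ r ▷ (HH ⊗ II) ≫ β) (smash (OnePoint.some (X := B × NNReal) (b, s))
        (τ : OnePoint unitInterval)) =
      app β (smash (app r (smash (b : OnePoint B) (dl s τ : OnePoint unitInterval)))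
        (OnePoint.some (X := NNReal × unitInterval) (alF B ((b, s), τ)).2)) := fun b s τ => rfl
  have hfix : ∀ (b : B) (s : NNReal) (τ : unitInterval),
      app r (smash (b : OnePoint B) (dl s τ : OnePoint unitInterval)) =
        smash (b : OnePoint B) (dl s τ : OnePoint unitInterval) →
      app (α ≫ r ▷ (HH ⊗ II) ≫ β) (smash (OnePoint.some (X := B × NNReal) (b, s))
        (τ : OnePoint unitInterval)) =
      smash (OnePoint.some (X := B × NNReal) (b, s)) (τ : OnePoint unitInterval) := by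
    intro b s τ h1
    rw [hR, h1]
    exact congrArg OnePoint.some (beF_alF B ((b, s), τ))
  refine cofib_of_isRetr (injective_subι _) (r := α ≫ r ▷ (HH ⊗ II) ≫ β) ⟨?_, ?_, ?_⟩
  · intro y
    induction y using OnePoint.rec with
    | infty => exact app_infty _
    | coe y =>
      have h1 : dl y.2 0 = 0 := Subtype.ext (min_eq_right y.2.2)
      exact hfix y.1 y.2 0 (by rw [h1]; exact hr.zero _)
  · intro y hy τ
    induction y using OnePoint.rec with
    | infty => exact app_infty _
    | coe y =>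
      refine hfix y.1 y.2 τ ?_
      rcases (mem_range_subι (Y := B ⊗ HH) hS _).1 hy y rfl with h1 | h1
      · have h2 : dl y.2 τ = 0 := by
          rw [h1]
          exact Subtype.ext (min_eq_left τ.2.1)
        rw [h2]
        exact hr.zero _
      · exact hr.mem _ h1 _
  · intro p
    induction p using OnePoint.rec with
    | infty => exact ⟨∞, 0, app_infty _, Or.inl rfl⟩
    | coe p =>
      obtain ⟨⟨b, s⟩, τ⟩ := p
      obtain ⟨b', δ, h1, h2⟩ := hr.range (smash (b : OnePoint B) (dl s τ : OnePoint unitInterval))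
      have h3 := hR b s τ
      rw [h1] at h3
      induction b' using OnePoint.rec with
      | infty => exact ⟨∞, 0, h3.trans (app_infty β), Or.inl rfl⟩
      | coe b' =>
        refine ⟨OnePoint.some (X := B × NNReal) (beF B ((b', δ), (alF B ((b, s), τ)).2)).1,
          (beF B ((b', δ), (alF B ((b, s), τ)).2)).2, h3, ?_⟩
        rcases h2 with h2 | h2
        · subst h2
          rcases le_total (s : ℝ) τ with h4 | h4
          · refine Or.inr ((mem_range_subι (Y := B ⊗ HH) hS _).2 fun z hz => Or.inl ?_)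
            rw [← OnePoint.coe_injective hz]
            have h5 : (dl s τ : ℝ) = s := min_eq_left h4
            simp only [beF, alF, h5, sub_self, Real.toNNReal_zero, NNReal.coe_zero,
              Set.Icc.coe_zero, add_zero]
          · have h5 : (dl s τ : ℝ) = τ := min_eq_right h4
            refine Or.inl ?_
            have h6 : pj 0 = 0 := pj_coe 0
            simp only [beF, alF, h5, sub_self, h6, Set.Icc.coe_zero, add_zero]
        · refine Or.inr ((mem_range_subι (Y := B ⊗ HH) hS _).2 fun z hz => Or.inr ?_)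
          rw [← OnePoint.coe_injective hz]
          exact h2

end prod

end Vale.Agent.P261Z.T2
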