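import Vale.Agent.P261Z.T2.DSk

/-!
# P261, block T2, theorem DELTA: assembly, part 1 (tools and the Borel construction)
-/

open CategoryTheory MonoidalCategory Limits Pretriangulated MonObj Topology OnePoint

set_option linter.unusedSectionVars false

noncomputable section

universe v u

namespace Vale.Agent.P261Z.Dl

open Vale.Agent.P251 Vale.Agent.P251.T Vale.Agent.P251.S Vale.Agent.P251.I Vale.Agent.P251.G
  Vale.Agent.P251.G.LC

variable {T : Type u} [Category.{v} T] [Preadditive T] [HasZeroObject T]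
    [HasShift T ℤ] [∀ n : ℤ, (shiftFunctor T n).Additive] [Pretriangulated T]
    [MonoidalCategory T] [SymmetricCategory T] [TensorTriangulated T]

namespace Asm

/-! ### Small endomorphisms -/

theorem pow_comm {C : Type*} [Category C] {X Y : C} (f : End X) (g : End Y) (b : X ⟶ Y)
    (h : (f : X ⟶ X) ≫ b = b ≫ g) (j : ℕ) : (f ^ j : End X) ≫ b = b ≫ (g ^ j : End Y) := by
  induction j with
  | zero => simp
  | succ j ih =>
    rw [pow_succ, pow_succ, End.mul_def, End.mul_def, Category.assoc, ih, ← Category.assoc, h,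
      Category.assoc]

theorem finiteIndex_comap {A B : Type*} [AddGroup A] [AddGroup B] (f : A →+ B) (H : AddSubgroup B)
    [H.FiniteIndex] : (H.comap f).FiniteIndex :=
  ⟨by
    rw [AddSubgroup.index_comap]
    exact (AddSubgroup.instFiniteIndex_addSubgroupOf H f.range).index_ne_zero⟩

/-- domination -/
theorem sm_dom {Λ Y Y' : T} {f : End Y} {f' : End Y'} (b : Y ⟶ Y')
    (h : ∀ j : ℕ, ∃ (j' : ℕ) (c : Y' ⟶ Y), (f' ^ j' : End Y') = c ≫ (f ^ j : End Y) ≫ b)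
    (hf : Sm Λ f) : Sm Λ f' := by
  intro t
  have := hf t
  have h1 : (Nil f (Λ⟦t⟧)).comap (Preadditive.leftComp (Λ⟦t⟧) b) ≤ Nil f' (Λ⟦t⟧) := by
    rintro x ⟨j, hj⟩
    obtain ⟨j', c, hc⟩ := h j
    refine ⟨j', ?_⟩
    have hj' : (f ^ j : End Y) ≫ b ≫ x = 0 := hj
    rw [hc, Category.assoc, Category.assoc, hj', comp_zero]
  have := finiteIndex_comap (Preadditive.leftComp (Λ⟦t⟧) b) (Nil f (Λ⟦t⟧))
  exact AddSubgroup.finiteIndex_of_le h1

theorem sm_iso {Λ Y Y' : T} {f : Y ⟶ Y} {f' : Y' ⟶ Y'} (e : Y ≅ Y')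
    (h : f ≫ e.hom = e.hom ≫ f') (hf : Sm Λ (Y := Y) f) : Sm Λ (Y := Y') f' :=
  sm_dom e.hom (fun j => ⟨j, e.inv, by
    rw [pow_comm (show End Y from f) (show End Y' from f') e.hom h j, Iso.inv_hom_id_assoc]⟩) hf

theorem sm_zero {Λ Y : T} (hY : IsZero Y) (f : End Y) : Sm Λ f := by
  intro t
  have h : Nil f (Λ⟦t⟧) = ⊤ := by
    rw [eq_top_iff]
    intro x _
    exact ⟨0, hY.eq_of_src _ _⟩
  rw [h]
  infer_instance

theorem pow_tensor {Y W : T} (f : End Y) (g : End W) (j : ℕ) :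
    ((show End (Y ⊗ W) from f ⊗ₘ g) ^ j : End (Y ⊗ W)) = (f ^ j : End Y) ⊗ₘ (g ^ j : End W) := by
  induction j with
  | zero => simp
  | succ j ih =>
    rw [pow_succ, pow_succ, pow_succ, ih, End.mul_def, End.mul_def, End.mul_def,
      tensorHom_comp_tensorHom]

theorem sm_tensor {Λ Y W : T} (h : SM1 Λ) (f : Y ⟶ Y) (g : W ⟶ W) (hW : Fn W)
    (hf : Sm Λ (Y := Y) f) : Sm Λ (Y := Y ⊗ W) (f ⊗ₘ g) := by
  refine sm_dom (𝟙 _) (fun j => ⟨j, Y ◁ ((show End W from g) ^ j : End W), ?_⟩) (h.ten f hW hf)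
  have h1 := pow_tensor (show End Y from f) (show End W from 𝟙 W) j
  have h2 : ((show End W from 𝟙 W) ^ j : End W) = 𝟙 W := one_pow (M := End W) j
  rw [h2, tensorHom_id, tensorHom_id] at h1
  rw [pow_tensor, Category.comp_id, h1, tensorHom_def']

/-! ### Suspension spectra of spaces -/

variable (F : SpaceFunctor T)

/-- the suspension spectrum of a finite cell space -/
abbrev so {X : LC} (h : FC X) : T := F.S.obj (FCat.mk h)

/-- the induced morphism -/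
def sp {X Y : LC} (hX : FC X) (hY : FC Y) (f : X ⟶ Y) : so F hX ⟶ so F hY :=
  F.S.map (FCat.hom (X := FCat.mk hX) (Y := FCat.mk hY) f)

@[reassoc]
theorem sp_comp {X Y Z : LC} (hX : FC X) (hY : FC Y) (hZ : FC Z) (f : X ⟶ Y) (g : Y ⟶ Z) :
    sp F hX hY f ≫ sp F hY hZ g = sp F hX hZ (f ≫ g) := (F.S.map_comp _ _).symm

theorem sp_id {X : LC} (hX : FC X) : sp F hX hX (𝟙 X) = 𝟙 _ := F.S.map_id _

theorem sp_sq {X Y Y' Z : LC} (hX : FC X) (hY : FC Y) (hY' : FC Y') (hZ : FC Z) {f : X ⟶ Y}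
    {g : Y ⟶ Z} {f' : X ⟶ Y'} {g' : Y' ⟶ Z} (w : f ≫ g = f' ≫ g') :
    sp F hX hY f ≫ sp F hY hZ g = sp F hX hY' f' ≫ sp F hY' hZ g' := by
  rw [sp_comp, sp_comp, w]

theorem sp_pow {X : LC} (hX : FC X) (f : End X) (j : ℕ) :
    sp F hX hX (f ^ j : End X) = ((show End (so F hX) from sp F hX hX f) ^ j : End (so F hX)) := by
  induction j with
  | zero => exact sp_id F hX
  | succ j ih => rw [pow_succ, pow_succ, End.mul_def, End.mul_def, ← ih, sp_comp]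

/-- the induced isomorphism -/
def spIso {X Y : LC} (hX : FC X) (hY : FC Y) (e : X ≅ Y) : so F hX ≅ so F hY where
  hom := sp F hX hY e.hom
  inv := sp F hY hX e.inv
  hom_inv_id := by rw [sp_comp, e.hom_inv_id, sp_id]
  inv_hom_id := by rw [sp_comp, e.inv_hom_id, sp_id]

theorem fn_so {X : LC} (hX : FC X) : Fn (so F hX) := fn_S F _

/-- the connecting morphism -/
def sδ {A B : LC} (hA : FC A) (hB : FC B) {i : A ⟶ B} (hi : Cofib i) :
    so F (FC.cof hi hA hB) ⟶ (so F hA)⟦(1 : ℤ)⟧ :=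
  F.cofδ (A := FCat.mk hA) (B := FCat.mk hB) (FCat.hom i) hi

theorem sp_dist {A B : LC} (hA : FC A) (hB : FC B) {i : A ⟶ B} (hi : Cofib i) :
    Triangle.mk (sp F hA hB i) (sp F hB (FC.cof hi hA hB) (cofMap i)) (sδ F hA hB hi) ∈
      distTriang T :=
  F.cof_distinguished (A := FCat.mk hA) (B := FCat.mk hB) (FCat.hom i) hi

theorem sδ_nat {A B A' B' : LC} (hA : FC A) (hB : FC B) (hA' : FC A') (hB' : FC B') {i : A ⟶ B}
    (hi : Cofib i) {i' : A' ⟶ B'} (hi' : Cofib i') (a : A ⟶ A') (b : B ⟶ B')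
    (w : i ≫ b = a ≫ i') (c : cof i ⟶ cof i') (hc : cofMap i ≫ c = b ≫ cofMap i') :
    sδ F hA hB hi ≫ (sp F hA hA' a)⟦(1 : ℤ)⟧' =
      sp F (FC.cof hi hA hB) (FC.cof hi' hA' hB') c ≫ sδ F hA' hB' hi' :=
  (F.cofδ_naturality (A := FCat.mk hA) (B := FCat.mk hB) (A' := FCat.mk hA') (B' := FCat.mk hB')
    (FCat.hom i) hi (FCat.hom i') hi' (FCat.hom a) (FCat.hom b) (ObjectProperty.hom_ext _ w)
    (FCat.hom c) hc).symm

theorem sp_triEnd {A B : LC} (hA : FC A) (hB : FC B) {i : A ⟶ B} (hi : Cofib i) (a : A ⟶ A)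
    (b : B ⟶ B) (w : i ≫ b = a ≫ i) (c : cof i ⟶ cof i) (hc : cofMap i ≫ c = b ≫ cofMap i) :
    TriEnd (sp F hA hB i) (sp F hB (FC.cof hi hA hB) (cofMap i)) (sδ F hA hB hi) (sp F hA hA a)
      (sp F hB hB b) (sp F (FC.cof hi hA hB) (FC.cof hi hA hB) c) :=
  ⟨sp_sq F _ _ _ _ w, sp_sq F _ _ _ _ hc, sδ_nat F hA hB hA hB hi hi a b w c hc⟩

theorem sm_sp_tensor {Λ : T} (h : SM1 Λ) {X Y : LC} (hX : FC X) (hY : FC Y) (f : X ⟶ X)
    (g : Y ⟶ Y) (hf : Sm Λ (Y := so F hX) (sp F hX hX f)) :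
    Sm Λ (Y := so F (hX.tensor hY)) (sp F (hX.tensor hY) (hX.tensor hY) (f ⊗ₘ g)) := by
  refine sm_iso (Functor.Monoidal.μIso F.S (FCat.mk hX) (FCat.mk hY)) ?_
    (sm_tensor h _ (sp F hY hY g) (fn_so F hY) hf)
  exact Functor.LaxMonoidal.μ_natural F.S (FCat.hom (X := FCat.mk hX) (Y := FCat.mk hX) f)
    (FCat.hom (X := FCat.mk hY) (Y := FCat.mk hY) g)

theorem sm_sp_iso {Λ : T} {X Y : LC} (hX : FC X) (hY : FC Y) (e : X ≅ Y) {f : X ⟶ X} {g : Y ⟶ Y}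
    (w : f ≫ e.hom = e.hom ≫ g) (hf : Sm Λ (Y := so F hX) (sp F hX hX f)) :
    Sm Λ (Y := so F hY) (sp F hY hY g) :=
  sm_iso (spIso F hX hY e) (sp_sq F _ _ _ _ w) hf

theorem sm_sp_left {Λ : T} (h : SM1 Λ) {X U : LC} (hX : FC X) (hU : FC U) (f : X ⟶ X)
    (hf : Sm Λ (Y := so F hX) (sp F hX hX f)) :
    Sm Λ (Y := so F (hU.tensor hX)) (sp F (hU.tensor hX) (hU.tensor hX) (U ◁ f)) := by
  refine sm_sp_iso F (hX.tensor hU) (hU.tensor hX) (β_ X U) ?_ (sm_sp_tensor F h hX hU f (𝟙 U) hf)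
  rw [tensorHom_id]
  exact BraidedCategory.braiding_naturality_left f U

/-! ### Coinvariants -/

theorem co_of_section (R : RatD T) {G : Type} [Fintype G] {Y X : T} {ρ : G → (Y ⟶ Y)} {π : Y ⟶ X}
    (s : X ⟶ Y) (h1 : s ≫ π = 𝟙 X) (h2 : ∑ g, ρ g = π ≫ s ≫ ∑ g, ρ g) : R.Co ρ π where
  surj n x := ⟨R.Vm n s x, by
    rw [← LinearMap.comp_apply, ← R.Vm_comp, h1, R.Vm_id, LinearMap.id_apply]⟩
  ker n y hy := by
    rw [h2, R.Vm_comp, LinearMap.comp_apply, hy, map_zero]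

theorem sum_translate {G : Type} [Group G] [Fintype G] {Y X : T} {ρ : G → (Y ⟶ Y)} {π : Y ⟶ X}
    (h : Act ρ π) (k : G) : ρ k ≫ ∑ g, ρ g = ∑ g, ρ g := by
  rw [Preadditive.comp_sum]
  refine Fintype.sum_equiv (Equiv.mulRight k) _ _ fun g => ?_
  rw [Equiv.coe_mulRight, h.mul]

/-- the free case -/
theorem co_free (R : RatD T) {G : Type} [Group G] [Fintype G] {Y X U : T} {ρ : G → (Y ⟶ Y)}
    {π : Y ⟶ X} (h : Act ρ π) (s : U ⟶ Y) (e : U ≅ X) (he : s ≫ π = e.hom) (c : G → (Y ⟶ U))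
    (hc : ∑ g, c g ≫ s ≫ ρ g = 𝟙 Y) : R.Co ρ π := by
  refine co_of_section R (e.inv ≫ s) (by rw [Category.assoc, he, e.inv_hom_id]) ?_
  have h1 : π = (∑ g, c g) ≫ e.hom := by
    rw [← Category.id_comp π, ← hc, Preadditive.sum_comp, Preadditive.sum_comp]
    refine Finset.sum_congr rfl fun g _ => ?_
    rw [Category.assoc, Category.assoc, h.inv, he]
  rw [h1, Category.assoc, Category.assoc, e.hom_inv_id_assoc]
  conv_lhs => rw [← Category.id_comp (∑ g, ρ g), ← hc]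
  rw [Preadditive.sum_comp, Preadditive.sum_comp]
  refine Finset.sum_congr rfl fun g _ => ?_
  rw [Category.assoc, Category.assoc, sum_translate h]

theorem act_sp {G : Type} [Group G] {Y X : LC} (hY : FC Y) (hX : FC X) (ρ : G → (Y ⟶ Y))
    (π : Y ⟶ X) (h1 : ρ 1 = 𝟙 Y) (h2 : ∀ g h, ρ (g * h) = ρ h ≫ ρ g) (h3 : ∀ g, ρ g ≫ π = π) :
    Act (fun g => sp F hY hY (ρ g)) (sp F hY hX π) where
  one := by rw [h1, sp_id]
  mul g h := by rw [h2, sp_comp]
  inv g := by rw [sp_comp, h3]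

/-! ### The Borel construction -/

section Borel

variable {G : Type} [Group G] [Fintype G] {M : ℕ} (W : GSp G)

theorem cofib_ιh (ndr : NDR) (i : ℕ) : Cofib (ιh M i W) := (ndr G M i).1.whiskerRight _

theorem isEmpty_Eh : IsEmpty (Eh M 0 W).X :=
  ⟨fun x => by
    obtain ⟨l, hl, -⟩ := (show ESet G M 0 from x.1).2.2
    exact Nat.not_lt_zero _ hl⟩

theorem isEmpty_orb : IsEmpty (Eh M 0 W).orb :=
  ⟨fun x => by
    obtain ⟨y, -⟩ := (Eh M 0 W).isOpenQuotientMap_mk'.surjective x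
    exact (isEmpty_Eh W).false y⟩

theorem ρs_one (i : ℕ) : ρs M i W 1 = 𝟙 _ := by
  rw [← cancel_epi (cofMap (ιh M i W)), ρs, cofMap_cofInd, GSp.ρ_one, Category.id_comp,
    Category.comp_id]

theorem ρs_mul (i : ℕ) (g h : G) : ρs M i W (g * h) = ρs M i W h ≫ ρs M i W g := by
  rw [← cancel_epi (cofMap (ιh M i W)), ρs, ρs, ρs, cofMap_cofInd, cofMap_cofInd_assoc,
    cofMap_cofInd, GSp.ρ_mul, Category.assoc]

theorem ρs_πs (i : ℕ) (g : G) : ρs M i W g ≫ πs M i W = πs M i W := by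
  rw [← cancel_epi (cofMap (ιh M i W)), ρs, πs, cofMap_cofInd_assoc, cofMap_cofInd,
    ← Category.assoc, GSp.ρ_π]

variable {W}

theorem fc_Eh (fce : FCE) (hW : FC W.X) {i : ℕ} (hi : i ≤ M) : FC (Eh M i W).X :=
  ((fce G M).1 i hi).tensor hW

theorem fc_orb (ndr : NDR) (fce : FCE) (strat : STRAT) (hW : FC W.X) :
    ∀ i, i ≤ M → FC (Eh M i W).orb
  | 0, _ => by
    have := isEmpty_orb (M := M) W
    exact FC.of_isEmpty _
  | i + 1, hi => by
    obtain ⟨s, e, -⟩ := strat G M ⟨i, hi⟩ W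
    exact FC.ext ((ndr G M i).2 W) (fc_orb ndr fce strat hW i (Nat.le_of_succ_le hi))
      ((((fce G M).2 ⟨i, hi⟩).tensor hW).of_iso e)

theorem sm_orb (ndr : NDR) (fce : FCE) (strat : STRAT) (hW : FC W.X) {Λ : T} (h : SM1 Λ)
    (f : W.X ⟶ W.X) (hf : GSp.IsEq f) (hs : Sm Λ (Y := so F hW) (sp F hW hW f)) :
    ∀ i (_ : i ≤ M) (hO : FC (Eh M i W).orb), Sm Λ (Y := so F hO) (sp F hO hO (fo M i f hf))
  | 0, _, hO => sm_zero (F.isZero (X := FCat.mk hO) (isEmpty_orb W)) _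
  | i + 1, hi, hO => by
    obtain ⟨s, e, -, he, -⟩ := strat G M ⟨i, hi⟩ W
    have hO' := fc_orb ndr fce strat hW i (Nat.le_of_succ_le hi)
    have hc := (ndr G M i).2 W
    refine h.tri₂ (sp_dist F hO' hO hc)
      (sp_triEnd F hO' hO hc _ _ (ιo_fo M i f hf) (fs M i f hf) (cofMap_cofInd _ _ _ _ _))
      (sm_orb ndr fce strat hW h f hf hs i (Nat.le_of_succ_le hi) hO') ?_
    exact sm_sp_iso F (((fce G M).2 ⟨i, hi⟩).tensor hW) _ e (he f hf)
      (sm_sp_left F h hW ((fce G M).2 ⟨i, hi⟩) f hs)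

theorem act_Eh {i : ℕ} (hE : FC (Eh M i W).X) (hO : FC (Eh M i W).orb) :
    Act (fun g => sp F hE hE ((Eh M i W).ρ g)) (sp F hE hO (Eh M i W).π) :=
  act_sp F hE hO _ _ (GSp.ρ_one _) (GSp.ρ_mul _) (GSp.ρ_π _)

theorem co_orb (ndr : NDR) (fce : FCE) (strat : STRAT) (hW : FC W.X) {R : RatD T} (h : COI R) :
    ∀ i (_ : i ≤ M) (hE : FC (Eh M i W).X) (hO : FC (Eh M i W).orb),
      R.Co (fun g => sp F hE hE ((Eh M i W).ρ g)) (sp F hE hO (Eh M i W).π)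
  | 0, _, hE, hO => by
    have z1 : IsZero (so F hE) := F.isZero (X := FCat.mk hE) (isEmpty_Eh W)
    have z2 : IsZero (so F hO) := F.isZero (X := FCat.mk hO) (isEmpty_orb W)
    exact co_of_section R 0 (z2.eq_of_src _ _) (z1.eq_of_src _ _)
  | i + 1, hi, hE, hO => by
    obtain ⟨s, e, hs, -, hu⟩ := strat G M ⟨i, hi⟩ W
    have hi' := Nat.le_of_succ_le hi
    have hE' := fc_Eh fce hW hi'
    have hO' := fc_orb ndr fce strat hW i hi'
    have hc := (ndr G M i).2 W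
    have hc' := cofib_ιh (M := M) W ndr i
    have hU := ((fce G M).2 ⟨i, hi⟩).tensor hW
    have hC := FC.cof hc hO' hO
    have hC' := FC.cof hc' hE' hE
    have a3 : Act (fun g => sp F hC' hC' (ρs M i W g)) (sp F hC' hC (πs M i W)) :=
      act_sp F hC' hC _ _ (ρs_one W i) (ρs_mul W i) (ρs_πs W i)
    refine h.tri (sp_dist F hE' hE hc') (sp_dist F hO' hO hc) (act_Eh F hE' hO') (act_Eh F hE hO)
      a3 (fun k => sp_triEnd F hE' hE hc' _ _ (isEq_ιh M i W k).symm _ (cofMap_cofInd _ _ _ _ _))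
      (sp_sq F _ _ _ _ (ιh_π M i W)) (sp_sq F _ _ _ _ (cofMap_cofInd _ _ _ _ _))
      (sδ_nat F hE' hE hO' hO hc' hc _ _ (ιh_π M i W) _ (cofMap_cofInd _ _ _ _ _))
      (co_orb ndr fce strat hW h i hi' hE' hO') ?_
    obtain ⟨u, hu⟩ := hu _ (Fintype.equivFin G)
    have hP := fc_finProd hU (Fintype.card G)
    refine co_free R a3 (sp F hU hC' s) (spIso F hU hC e) (by rw [sp_comp, hs]; rfl)
      (fun g => sp F hC' hP u.inv ≫ sp F hP hU (finColl _ _ (Fintype.equivFin G g))) ?_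
    have h1 : ∑ k, sp F hP hU (finColl _ _ k) ≫ sp F hU hP (finIncl _ _ k) = 𝟙 _ :=
      Vale.Agent.P251.M.sum_finProd F (FCat.mk hU) (Fintype.card G)
    have h2 : sp F hC' hP u.inv ≫ (∑ k, sp F hP hU (finColl _ _ k) ≫ sp F hU hP (finIncl _ _ k)) ≫
        sp F hP hC' u.hom = 𝟙 _ := by
      rw [h1, Category.id_comp, sp_comp, u.inv_hom_id, sp_id]
    rw [← h2, Preadditive.sum_comp, Preadditive.comp_sum]
    refine Fintype.sum_equiv (Fintype.equivFin G) _ _ fun g => ?_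
    rw [Category.assoc, Category.assoc, sp_comp F hU hP hC', hu g, sp_comp F hU hC' hC']

end Borel

end Asm

end Vale.Agent.P261Z.Dl
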