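import Vale.Agent.P261Z.T2.DAsm1

/-!
# P261, block T2, theorem DELTA: assembly, part 2 (the step, the iteration)
-/

open CategoryTheory MonoidalCategory Limits Pretriangulated MonObj Topology OnePoint

set_option linter.unusedSectionVars false

noncomputable section

universe v u

namespace Vale.Agent.P261Z.Dl

open Vale.Agent.P251 Vale.Agent.P251.T Vale.Agent.P251.S Vale.Agent.P251.I Vale.Agent.P251.G
  Vale.Agent.P251.G.LC

variable {T : Type u} [Category.{v} T] [Preadditive T] [HasZeroObject T]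
    [HasShift T ℤ] [∀ n : ℤ, (shiftFunctor T n).Additive] [Pretriangulated T]
    [MonoidalCategory T] [SymmetricCategory T] [TensorTriangulated T]

/-- all the rows -/
structure Rows (F : SpaceFunctor T) (R : RatD T) : Prop where
  diag : DIAG
  ndr : NDR
  fce : FCE
  strat : STRAT
  cls : CLASS
  ct : CT T
  dual : DUAL T
  lin1 : LIN1 R
  lin2 : LIN2 R
  lef : LEF R
  coi : COI R
  sm1 : ∀ Λ : T, SM1 Λ
  sm2 : ∀ Λ : T, SM2 Λ
  perm1 : ∀ τ, PERM1 F τ
  perm2 : ∀ τ, PERM2 F τ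
  real : REAL F

namespace Asm

variable {F : SpaceFunctor T} {R : RatD T}

/-! ### The trace -/

theorem exists_int (h : Rows F R) {Y D : T} (hY : Fn Y) (P : ExactPairing Y D) (f : Y ⟶ Y) :
    ∃ m : ℤ, ctr P f = m • 𝟙 (𝟙_ T) ∧ R.lef f = m := by
  obtain ⟨m, hm⟩ := Vale.Agent.P251.M.exists_int_unit F (ctr P f)
  exact ⟨m, hm, h.lef P (h.lin1.fd hY) f m hm⟩

theorem lef_int (h : Rows F R) {Y : T} (hY : Fn Y) (f : Y ⟶ Y) : ∃ m : ℤ, R.lef f = m := by
  obtain ⟨D, ⟨P⟩⟩ := h.dual Y hY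
  obtain ⟨m, -, hm⟩ := exists_int h hY P f
  exact ⟨m, hm⟩

/-- the Lefschetz number satisfies the rules of a trace -/
def trR (h : Rows F R) : TrR T where
  tr := R.lef
  one := h.lin1.one
  cyc hX hY := h.lin1.cyc (h.lin1.fd hX) (h.lin1.fd hY)
  ten {X Y} hX hY f g := by
    obtain ⟨D, ⟨P⟩⟩ := h.dual X hX
    obtain ⟨E, ⟨P'⟩⟩ := h.dual Y hY
    obtain ⟨H, ⟨P''⟩⟩ := h.dual _ (hX.tensor hY)
    obtain ⟨m, hm, hm'⟩ := exists_int h hX P f
    obtain ⟨n, hn, hn'⟩ := exists_int h hY P' g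
    rw [h.lef P'' (h.lin1.fd (hX.tensor hY)) _ (m * n) (by
      rw [h.ct.ten P P' P'', hm, hn, Preadditive.zsmul_comp, Category.id_comp, mul_smul]),
      hm', hn', Int.cast_mul]
  swap {Z X} hZ hX k l := by
    obtain ⟨D, ⟨P⟩⟩ := h.dual X hX
    obtain ⟨E, ⟨P'⟩⟩ := h.dual _ (hZ.tensor hX)
    obtain ⟨H, ⟨P''⟩⟩ := h.dual _ ((hZ.tensor hX).tensor hX)
    obtain ⟨m, hm, hm'⟩ := exists_int h (hZ.tensor hX) P' (k ≫ Z ◁ l)
    rw [hm']
    exact h.lef P'' (h.lin1.fd ((hZ.tensor hX).tensor hX)) _ m (by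
      rw [h.ct.swap P P' P'', hm])

theorem lef_conj (h : Rows F R) {X Y : T} (hX : Fn X) (e : X ≅ Y) {f : X ⟶ X} {g : Y ⟶ Y}
    (w : f ≫ e.hom = e.hom ≫ g) : R.lef f = R.lef g := by
  have h1 : f = (e.hom ≫ g) ≫ e.inv := by rw [← w, Category.assoc, e.hom_inv_id, Category.comp_id]
  rw [h1, h.lin1.cyc (h.lin1.fd hX) (h.lin1.fd (hX.of_iso e)), e.inv_hom_id_assoc]

/-- the Lefschetz number as an additive map -/
def lefHom (h : Rows F R) {Y : T} (hY : Fn Y) : End Y →+ ℚ :=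
  AddMonoidHom.mk' (fun f => R.lef (Y := Y) f) (h.lin1.add (h.lin1.fd hY))

theorem ev_fn {m : ℕ} {Y : T} (hY : Ev m Y) : Fn Y := by
  induction hY with
  | zero hz => exact Fn.zero hz
  | ext Δ hΔ _ k e ih => exact Fn.ext Δ hΔ ih ((Fn.sphere _).of_iso e.symm)

theorem lef_ev (h : Rows F R) {m : ℕ} {Y : T} (hY : Ev m Y) : R.lef (𝟙 Y) = m := by
  induction hY with
  | @zero Z hz =>
    have h0 : 𝟙 Z = 0 := hz.eq_of_src _ _
    rw [h0, Nat.cast_zero]
    exact (lefHom h (Fn.zero hz)).map_zero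
  | ext Δ hΔ h₁ k e ih =>
    have f₁ := ev_fn h₁
    have f₃ : Fn Δ.obj₃ := (Fn.sphere _).of_iso e.symm
    have h3 : R.lef (𝟙 Δ.obj₃) = 1 := by
      rw [lef_conj h f₃ e (g := (𝟙 (𝟙_ T))⟦2 * k⟧') (by simp),
        h.lin1.shift (h.lin1.fd Fn.one), h.lin1.one, Int.negOnePow_two_mul]
      simp
    rw [h.lin2 (f := Δ.mor₁) (g := Δ.mor₂) (h := Δ.mor₃) hΔ (h.lin1.fd f₁)
      (h.lin1.fd (Fn.ext Δ hΔ f₁ f₃)) (h.lin1.fd f₃) (a := 𝟙 _) (b := 𝟙 _) (c := 𝟙 _)
      ⟨by simp, by simp, by simp⟩, ih, h3, Nat.cast_succ]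

/-! ### The step -/

section Step

variable {G : Type} [Group G] [Fintype G]

theorem consIso_powHom {A : LC} (g : A ⟶ A) (n : ℕ) :
    (g ⊗ₘ powHom (Fin n) g) ≫ (consIso A n).hom = (consIso A n).hom ≫ powHom (Fin (n + 1)) g := by
  apply hom_ext
  rintro ⟨a, b⟩
  rw [app_comp, app_comp, app_consIso_coe, app_powHom_coe, app_tensorHom_coe, app_powHom_coe]
  by_cases h : ∀ j : Fin (n + 1), ∃ z : A, (z : OnePoint A) =
      app g ((Fin.cons a b : Fin (n + 1) → A) j : OnePoint A)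
  · choose z hz using h
    have h1 : (fun j => app g ((Fin.cons a b : Fin (n + 1) → A) j : OnePoint A)) =
        fun j => (z j : OnePoint A) := funext fun j => (hz j).symm
    have h2 : (fun j => app g (b j : OnePoint A)) = fun j => (z j.succ : OnePoint A) :=
      funext fun j => (hz j.succ).symm
    have h3 : app g (a : OnePoint A) = (z 0 : OnePoint A) := (hz 0).symm
    rw [h1, h2, h3, OP.smash_coe, OP.smash_coe, smash_coe_coe, app_consIso_coe]
    congr 1
    exact Fin.cons_self_tail z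
  · rw [not_forall] at h
    obtain ⟨j, hj⟩ := h
    have h0 : app g ((Fin.cons a b : Fin (n + 1) → A) j : OnePoint A) = ∞ := by
      generalize app g ((Fin.cons a b : Fin (n + 1) → A) j : OnePoint A) = y at hj
      induction y using OnePoint.rec with
      | infty => rfl
      | coe y => exact (hj ⟨y, rfl⟩).elim
    rw [OP.smash_infty (fun j => app g ((Fin.cons a b : Fin (n + 1) → A) j : OnePoint A))
      (j := j) h0]
    induction j using Fin.cases with
    | zero =>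
      have h1 : app g (a : OnePoint A) = ∞ := h0
      rw [h1, smash_infty_left, app_infty]
    | succ j =>
      rw [OP.smash_infty (fun j => app g (b j : OnePoint A)) (j := j) h0, smash_infty_right,
        app_infty]

theorem sm_pow {Λ : T} (h : SM1 Λ) (J : Type) [Finite J] [Nonempty J] {A : LC} (hA : FC A)
    (g : A ⟶ A) (hg : Sm Λ (Y := so F hA) (sp F hA hA g)) :
    Sm Λ (Y := so F (fc_pow J hA)) (sp F (fc_pow J hA) (fc_pow J hA) (powHom J g)) := by
  obtain ⟨n, ⟨e⟩⟩ := Finite.exists_equiv_fin J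
  cases n with
  | zero => exact (e (Classical.arbitrary J)).elim0
  | succ n =>
    refine sm_sp_iso F (fc_pow_fin hA (n + 1)) _ (reIso A e.symm) (reIso_powHom e.symm g).symm ?_
    exact sm_sp_iso F (hA.tensor (fc_pow_fin hA n)) _ (consIso A n) (consIso_powHom g n)
      (sm_sp_tensor F h hA (fc_pow_fin hA n) g _ hg)

theorem powHom_pow (J : Type) [Finite J] {A : LC} (g : End A) (j : ℕ) :
    ((show End (powObj J A) from powHom J g) ^ j : End (powObj J A)) = powHom J (g ^ j : End A) := by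
  induction j with
  | zero => exact (powHom_id J A).symm
  | succ j ih => rw [pow_succ, pow_succ, End.mul_def, End.mul_def, ih, powHom_comp]

theorem fW_pow {A : LC} (g : End A) (j : ℕ) :
    ((show End (Wd G A).X from fW g) ^ j : End (Wd G A).X) = fW (g ^ j : End A) := by
  rw [← cancel_epi (qW G A), qW_fW, ← powHom_pow]
  exact (pow_comm (show End (powObj G A) from powHom G g) (show End (Wd G A).X from fW g)
    (qW G A) (qW_fW g).symm j).symm

theorem hom_pow (A : FCat) (g : End A) (j : ℕ) :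
    (g ^ j : End A).hom = ((show End A.obj from g.hom) ^ j : End A.obj) := by
  induction j with
  | zero => rfl
  | succ j ih => rw [pow_succ, pow_succ, End.mul_def, End.mul_def, ← ih]; rfl

/-- the traces on the complement of the diagonal -/
theorem sum_lef_W (h : Rows F R) (hG : (Nat.card G).Prime) {A : LC} (hA : FC A)
    (hc : Cofib (dgJ G A)) (g : End A) (hW : FC (Wd G A).X) :
    ∑ k, R.lef (sp F hW hW ((Wd G A).ρ k ≫ fW g)) =
      R.lef (sp F hA hA g) ^ Nat.card G +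
        ((Nat.card G : ℚ) - 1) * R.lef (sp F hA hA (g ^ Nat.card G : End A)) -
        Nat.card G * R.lef (sp F hA hA g) := by
  classical
  have hP := fc_pow G hA
  have h1 : ∀ k, R.lef (sp F hW hW ((Wd G A).ρ k ≫ fW g)) =
      R.lef (sp F hP hP (perm A (Equiv.mulLeft k) ≫ powHom G g)) - R.lef (sp F hA hA g) := by
    intro k
    have h2 := h.lin2 (sp_dist F hA hP hc) (h.lin1.fd (fn_so F _)) (h.lin1.fd (fn_so F _))
      (h.lin1.fd (fn_so F _)) (sp_triEnd F hA hP hc g (perm A (Equiv.mulLeft k) ≫ powHom G g)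
        (by rw [← Category.assoc, dgJ_perm, dgJ_powHom]) ((Wd G A).ρ k ≫ fW g) (by
          change qW G A ≫ (Wd G A).ρ k ≫ fW g = (perm A (Equiv.mulLeft k) ≫ powHom G g) ≫ qW G A
          rw [qW_ρ_assoc, qW_fW, Category.assoc]))
    rw [h2]
    exact (add_sub_cancel_left _ _).symm
  have h2 : R.lef (sp F hP hP (perm A (Equiv.mulLeft 1) ≫ powHom G g)) =
      R.lef (sp F hA hA g) ^ Nat.card G := by
    have h3 : Equiv.mulLeft (1 : G) = 1 := by ext; simp
    rw [h3, perm_one, Category.id_comp]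
    exact (h.perm1 (trR h)).pow G (A := FCat.mk hA) (FCat.hom g)
  have h3 : ∀ k ∈ Finset.univ.erase (1 : G),
      R.lef (sp F hP hP (perm A (Equiv.mulLeft k) ≫ powHom G g)) =
      R.lef (sp F hA hA (g ^ Nat.card G : End A)) := by
    intro k hk
    have h4 := h.perm2 (trR h) G hG k (Finset.ne_of_mem_erase hk) (A := FCat.mk hA) (FCat.hom g)
    have h5 : ((show End (FCat.mk hA) from FCat.hom g) ^ Nat.card G : End (FCat.mk hA)) =
        FCat.hom (X := FCat.mk hA) (Y := FCat.mk hA) (g ^ Nat.card G : End A) :=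
      ObjectProperty.hom_ext _ (hom_pow (FCat.mk hA) (FCat.hom g) _)
    rw [h5] at h4
    exact h4
  rw [Finset.sum_congr rfl fun k _ => h1 k, Finset.sum_sub_distrib,
    ← Finset.add_sum_erase _ _ (Finset.mem_univ (1 : G)), h2, Finset.sum_congr rfl h3,
    Finset.sum_const, Finset.sum_const, Finset.card_erase_of_mem (Finset.mem_univ _),
    Finset.card_univ, Nat.card_eq_fintype_card, nsmul_eq_mul, nsmul_eq_mul,
    Nat.cast_sub Fintype.card_pos, Nat.cast_one]

/-- the projection `E × W ⟶ W` -/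
def prW (M : ℕ) (W : GSp G) : (Eh M M W).X ⟶ W.X :=
  ofIsProper (X := LC.of ((EG G M M).X × W.X)) (Y := W.X) Prod.snd isProperMap_snd_of_compactSpace

theorem isEq_prW (M : ℕ) (W : GSp G) : GSp.IsEq (prW M W) := fun _ => by
  ext x; rfl

theorem fh_prW (M : ℕ) {W : GSp G} (f : W.X ⟶ W.X) : fh M M f ≫ prW M W = prW M W ≫ f := by
  apply hom_ext
  rintro ⟨e, w⟩
  have h1 : app (fh M M f) (OnePoint.some (X := (Eh M M W).X) (e, w)) =
      smash (e : OnePoint (EG G M M).X) (app f (w : OnePoint W.X)) :=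
    app_whiskerLeft_smash (EG G M M).X f (e : OnePoint (EG G M M).X) (w : OnePoint W.X)
  rw [app_comp, app_comp]
  refine (congrArg (app (prW M W)) h1).trans ?_
  change _ = app f (w : OnePoint W.X)
  generalize app f (w : OnePoint W.X) = y
  induction y using OnePoint.rec with
  | infty => exact app_infty _
  | coe y => rfl

/-- the section `W ⟶ E × W` -/
def secW {M : ℕ} {W : GSp G} (c : W.X → (EG G M M).X) (hc : Continuous c) :
    W.X ⟶ (Eh M M W).X :=
  ofClosed (X := W.X) (Y := LC.of ((EG G M M).X × W.X)) (fun w => (c w, w))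
    (Function.LeftInverse.isClosedEmbedding (f := Prod.snd) (fun _ => rfl) continuous_snd
      (hc.prodMk continuous_id))

theorem secW_prW {M : ℕ} {W : GSp G} (c : W.X → (EG G M M).X) (hc : Continuous c) :
    secW c hc ≫ prW M W = 𝟙 _ := by
  ext x; rfl

theorem isEq_secW {M : ℕ} {W : GSp G} (c : W.X → (EG G M M).X) (hc : Continuous c)
    (he : ∀ (g : G) w, c (g • w) = g • c w) : GSp.IsEq (secW c hc) := fun g => by
  ext w
  exact congrArg (OnePoint.some (X := (EG G M M).X × W.X)) (Prod.ext (he g w) rfl)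

/-- **The step.** -/
theorem step (h : Rows F R) (hG : (Nat.card G).Prime) (Λ : T) {A : LC} (hA : Nice A) (g : End A)
    (hg : Sm Λ (Y := so F hA.fc) (sp F hA.fc hA.fc g)) :
    ∃ (Y : T) (f : End Y), Fn Y ∧ Sm Λ f ∧ ∀ j : ℕ,
      (Nat.card G : ℚ) * R.lef (Y := Y) (f ^ (j + 1) : End Y) =
        R.lef (sp F hA.fc hA.fc (g ^ (j + 1) : End A)) ^ Nat.card G +
          ((Nat.card G : ℚ) - 1) *
            R.lef (sp F hA.fc hA.fc (g ^ ((j + 1) * Nat.card G) : End A)) -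
          Nat.card G * R.lef (sp F hA.fc hA.fc (g ^ (j + 1) : End A)) := by
  obtain ⟨M, c, hc, he⟩ := h.cls G hG A hA.sep
  have hd := h.diag G A hA.cof
  have hP := fc_pow G hA.fc
  have hW : FC (Wd G A).X := FC.cof hd hA.fc hP
  have hE := fc_Eh h.fce hW (le_refl M)
  have hO := fc_orb h.ndr h.fce h.strat hW M le_rfl
  -- the endomorphisms
  let W := Wd G A
  let fw : End W.X := fW g
  have hfw : GSp.IsEq fw := isEq_fW g
  let φ' : (Eh M M W).X ⟶ (Eh M M W).X := prW M W ≫ secW c hc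
  have hφ' : GSp.IsEq φ' := (isEq_prW M W).comp (isEq_secW c hc he)
  let φ : (Eh M M W).orb ⟶ (Eh M M W).orb := GSp.orbMap φ' hφ'
  let a : End (Eh M M W).orb := fo M M fw hfw
  let f₁ : End (Eh M M W).orb := a ≫ φ
  have k1 : ∀ j : ℕ, (Eh M M W).π ≫ (a ^ j : End _) ≫ φ =
      (prW M W ≫ (fw ^ j : End _) ≫ secW c hc) ≫ (Eh M M W).π := by
    intro j
    have e1 := pow_comm (show End (Eh M M W).X from fh M M fw) a (Eh M M W).π
      (GSp.π_orbMap _ _).symm j
    have e2 := pow_comm (show End (Eh M M W).X from fh M M fw) fw (prW M W) (fh_prW M fw) j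
    rw [← Category.assoc, ← e1, Category.assoc, GSp.π_orbMap, ← Category.assoc]
    congr 1
    rw [← Category.assoc, e2, Category.assoc]
  have k2 : ∀ j : ℕ, (f₁ ^ (j + 1) : End _) = (a ^ (j + 1) : End _) ≫ φ := by
    intro j
    induction j with
    | zero => simp [f₁]
    | succ j ih =>
      rw [pow_succ' f₁, End.mul_def, ih, ← cancel_epi (Eh M M W).π, k1,
        ← Category.assoc (Eh M M W).π, k1]
      have e1 := k1 1
      rw [pow_one, pow_one] at e1
      rw [Category.assoc, show (f₁ : _ ⟶ _) = a ≫ φ from rfl, e1, ← Category.assoc]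
      congr 1
      rw [Category.assoc, Category.assoc, ← Category.assoc (secW c hc), secW_prW,
        Category.id_comp, pow_succ' fw (j + 1), End.mul_def, Category.assoc]
  refine ⟨so F hO, sp F hO hO f₁, fn_so F hO, ?_, fun j => ?_⟩
  · have s1 : Sm Λ (Y := so F hW) (sp F hW hW fw) :=
      (h.sm1 Λ).tri₃ (sp_dist F hA.fc hP hd) (sp_triEnd F hA.fc hP hd g (powHom G g)
        (dgJ_powHom G g) (fW g) (qW_fW g)) hg (sm_pow (h.sm1 Λ) G hA.fc g hg)
    have s2 := sm_orb F h.ndr h.fce h.strat hW (h.sm1 Λ) fw hfw s1 M le_rfl hO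
    refine sm_dom (f := sp F hO hO a) (sp F hO hO φ) (fun j => ⟨j + 1, sp F hO hO a, ?_⟩) s2
    rw [← sp_pow, ← sp_pow, k2, sp_comp, sp_comp, pow_succ, End.mul_def, Category.assoc]
  · rw [← sp_pow, k2, Nat.card_eq_fintype_card,
      h.coi.tr (act_Eh F hE hO) (co_orb F h.ndr h.fce h.strat hW h.coi M le_rfl hE hO)
        (h.lin1.fd (fn_so F _)) (h.lin1.fd (fn_so F _))
        (sp F hE hE (prW M W ≫ (fw ^ (j + 1) : End _) ≫ secW c hc)) _
        (sp_sq F _ _ _ _ (k1 (j + 1)).symm), ← Nat.card_eq_fintype_card, pow_mul,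
      ← sum_lef_W h hG hA.fc hd (g ^ (j + 1)) hW]
    refine Finset.sum_congr rfl fun k _ => ?_
    have e1 : (Eh M M W).ρ k ≫ prW M W ≫ (fw ^ (j + 1) : End _) ≫ secW c hc =
        prW M W ≫ (W.ρ k ≫ (fw ^ (j + 1) : End _) ≫ secW c hc) := by
      rw [← Category.assoc, isEq_prW M W k, Category.assoc]
    rw [sp_comp, e1, ← sp_comp F hE hW hE,
      h.lin1.cyc (h.lin1.fd (fn_so F _)) (h.lin1.fd (fn_so F _)), sp_comp, Category.assoc,
      Category.assoc, secW_prW, Category.comp_id, fW_pow]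

end Step

/-! ### The iteration -/

theorem arith {p : ℕ} (hp : p.Prime) {N : ℕ} {d : ℤ} (hd : ¬ (p : ℤ) ^ (N + 1) ∣ d)
    (h : (p : ℤ) ∣ d) : ∃ d' : ℤ, ¬ (p : ℤ) ^ N ∣ d' ∧ ∀ m m' n : ℤ, m ≡ d [ZMOD (p : ℤ) ^ (N + 1)] →
      m' ≡ d [ZMOD (p : ℤ) ^ (N + 1)] → p * n = m ^ p + (p - 1) * m' - p * m →
      n ≡ d' [ZMOD (p : ℤ) ^ N] := by
  obtain ⟨e, rfl⟩ := h
  obtain ⟨q, rfl⟩ : ∃ q, p = q + 2 := ⟨p - 2, by have := hp.two_le; omega⟩
  set P : ℤ := ((q + 2 : ℕ) : ℤ) with hP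
  have hP0 : P ≠ 0 := by rw [hP]; exact_mod_cast hp.ne_zero
  refine ⟨e * ((P * e) ^ (q + 1) - 1), fun h => hd ?_, fun m m' n hm hm' hn => ?_⟩
  · have hc : IsCoprime (P ^ N) ((P * e) ^ (q + 1) - 1) := by
      apply IsCoprime.pow_left
      exact ⟨e * (P * e) ^ q, -1, by ring⟩
    rw [pow_succ']
    exact mul_dvd_mul_left _ (hc.dvd_of_dvd_mul_right h)
  · have h1 : P * n ≡ P * (e * ((P * e) ^ (q + 1) - 1)) [ZMOD P ^ (N + 1)] := by
      rw [hn]
      have h2 : P * (e * ((P * e) ^ (q + 1) - 1)) =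
          (P * e) ^ (q + 2) + (P - 1) * (P * e) - P * (P * e) := by ring
      rw [h2]
      exact ((hm.pow _).add (hm'.mul_left _)).sub (hm.mul_left _)
    rw [pow_succ'] at h1
    exact Int.ModEq.mul_left_cancel' hP0 h1

theorem shift_pow {Y : T} (f : End Y) (k : ℤ) (j : ℕ) :
    ((show End (Y⟦k⟧) from f⟦k⟧') ^ j : End (Y⟦k⟧)) = (f ^ j : End Y)⟦k⟧' := by
  induction j with
  | zero => exact ((shiftFunctor T k).map_id Y).symm
  | succ j ih => rw [pow_succ, pow_succ, End.mul_def, End.mul_def, ih, Functor.map_comp]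

/-- **The iteration.** -/
theorem iter (h : Rows F R) (Λ : T) {p a : ℕ} (hp : p.Prime) (hΛ : ((p : ℤ) ^ a) • 𝟙 Λ = 0) :
    ∀ (N : ℕ) (d : ℤ), ¬ (p : ℤ) ^ N ∣ d → ∀ {Y : T} (f : End Y), Fn Y → Sm Λ f →
      (∀ j : ℕ, ∃ m : ℤ, R.lef (Y := Y) (f ^ (j + 1) : End Y) = m ∧ m ≡ d [ZMOD (p : ℤ) ^ N]) →
      ∀ t : ℤ, Finite (𝟙_ T ⟶ Λ⟦t⟧)
  | 0, d, hd, _, _, _, _, _ => (hd (by simp)).elim
  | N + 1, d, hd, Y, f, hY, hf, ht => by
    by_cases hpd : (p : ℤ) ∣ d
    · have : NeZero p := ⟨hp.ne_zero⟩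
      have hG : Nat.card (Multiplicative (ZMod p)) = p := by simp
      obtain ⟨A, g, k, e, hA, hg⟩ := h.real f hY
      have hs : Sm Λ (Y := so F hA.fc) (sp F hA.fc hA.fc g.hom) :=
        sm_iso e.symm (by
          rw [Iso.symm_hom, Iso.comp_inv_eq, Category.assoc]
          exact (Iso.eq_inv_comp e).2 hg.symm) ((h.sm1 Λ).shift f k hf)
      obtain ⟨Y₁, f₁, hY₁, hf₁, ht₁⟩ := step (G := Multiplicative (ZMod p)) h (by rwa [hG]) Λ hA
        g.hom hs
      rw [hG] at ht₁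
      have hd' : ¬ (p : ℤ) ^ (N + 1) ∣ (k.negOnePow : ℤ) * d := fun h' =>
        hd ((k.negOnePow.isUnit.dvd_mul_left).1 h')
      obtain ⟨d', h1, h2⟩ := arith hp hd' (hpd.mul_left _)
      have h3 : ∀ j : ℕ, ∃ m : ℤ, R.lef (sp F hA.fc hA.fc
          ((show End A.obj from g.hom) ^ (j + 1) : End A.obj)) = m ∧
          m ≡ (k.negOnePow : ℤ) * d [ZMOD (p : ℤ) ^ (N + 1)] := by
        intro j
        obtain ⟨m, hm, hm'⟩ := ht j
        refine ⟨(k.negOnePow : ℤ) * m, ?_, hm'.mul_left _⟩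
        rw [sp_pow, lef_conj h (fn_so F hA.fc) e (pow_comm (show End (so F hA.fc) from
          sp F hA.fc hA.fc g.hom) (show End (Y⟦k⟧) from f⟦k⟧') e.hom hg (j + 1)), shift_pow,
          h.lin1.shift (h.lin1.fd hY), hm, Int.cast_mul]
      refine iter h Λ hp hΛ N d' h1 f₁ hY₁ hf₁ fun j => ?_
      obtain ⟨n, hn⟩ := lef_int h hY₁ (f₁ ^ (j + 1) : End Y₁)
      obtain ⟨m, hm, hm1⟩ := h3 j
      obtain ⟨m', hm', hm2⟩ := h3 ((j + 1) * p - 1)
      have e1 : (j + 1) * p - 1 + 1 = (j + 1) * p :=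
        Nat.sub_add_cancel (Nat.mul_pos (Nat.succ_pos j) hp.pos)
      rw [e1] at hm'
      refine ⟨n, hn, h2 m m' n hm1 hm2 ?_⟩
      have e2 := ht₁ j
      rw [hn, hm, hm'] at e2
      exact_mod_cast e2
    · obtain ⟨D, ⟨P⟩⟩ := h.dual Y hY
      refine h.sm2 Λ p a hp hΛ f hY hf fun j => ?_
      obtain ⟨m, hm, hm'⟩ := exists_int h hY P (f ^ (j + 1) : End Y)
      obtain ⟨m₁, hm₁, hm₂⟩ := ht j
      have e1 : m = m₁ := by exact_mod_cast hm'.symm.trans hm₁
      refine ⟨D, P.coevaluation', (β_ Y D).hom ≫ P.evaluation', m, hm, fun h' => hpd ?_⟩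
      have e2 : m ≡ d [ZMOD (p : ℤ)] :=
        (e1 ▸ hm₂ : m ≡ d [ZMOD (p : ℤ) ^ (N + 1)]).of_dvd (dvd_pow_self _ (Nat.succ_ne_zero N))
      exact (Int.ModEq.dvd_iff e2).1 h'

end Asm

/-- **THEOREM DELTA from the rows.** -/
theorem delta_of {F : SpaceFunctor T} {R : RatD T} (h : Rows F R) : DELTA F := by
  intro Λ p a hp hΛ A M hM B _ c N d hd htr hs
  refine Asm.iter h Λ hp hΛ N d hd (actS F B A c) (fn_S F _) hs fun j => ⟨_, ?_, htr j⟩
  rw [← map_pow, actS_apply, fixTr, Finsupp.sum, Finsupp.sum, Int.cast_sum]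
  refine (map_sum (Asm.lefHom h (fn_S F (pwF B A))) _ _).trans ?_
  refine Finset.sum_congr rfl fun σ _ => ?_
  rw [map_zsmul, Int.cast_mul, zsmul_eq_mul, Int.cast_natCast]
  congr 1
  exact (h.perm1 (Asm.trR h)).fix B A M (Asm.lef_ev h hM) σ

end Vale.Agent.P261Z.Dl
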