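import Vale.Agent.P261Z.T2.DSk
import Vale.Agent.P261Z.JM.Smith

/-!
# P261, block T2: the Smith element in the form used by theorem DELTA
-/

namespace Vale.Agent.P261Z.Dl

open Vale.Agent.P261Z.JM

theorem fixTr_eq {B : Type} [Fintype B] [DecidableEq B] (M : ℕ)
    (c : MonoidAlgebra ℤ (Equiv.Perm B)) : fixTr M c = ∑ a : B → Fin M, mat c a a := by
  simp only [mat]
  rw [fixTr, Finsupp.sum_fintype _ _ (fun _ => zero_mul _), Finset.sum_comm]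
  refine Finset.sum_congr rfl fun σ _ => ?_
  rw [← Finset.sum_filter, Finset.sum_const, Nat.card_eq_fintype_card, Fintype.card_subtype,
    nsmul_eq_mul, mul_comm]

/-- **The Smith element**, with the traces of its powers written with `fixTr`. -/
theorem exists_smith_fixTr {p M : ℕ} (hp : p.Prime) (hM : 1 ≤ M) (N₀ : ℕ) :
    ∃ (r : ℕ) (c : MonoidAlgebra ℤ (Equiv.Perm (Fin r))) (μ : ℤ) (N : ℕ) (d : ℤ),
      IsIdem p M c μ ∧ N₀ ≤ N ∧ (p : ℤ) ^ N ∣ μ - 1 ∧ ¬ (p : ℤ) ^ N ∣ d ∧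
      ∀ j : ℕ, fixTr M (c ^ (j + 1)) ≡ d [ZMOD (p : ℤ) ^ N] := by
  obtain ⟨r, c, μ, N, d, h1, h2, h3, h4, h5⟩ := exists_smith hp hM N₀
  refine ⟨r, c, μ, N, d, h1, h2, h3, h4, fun j => ?_⟩
  rw [fixTr_eq]
  exact (Int.modEq_iff_dvd.2 (h5 (j + 1) (Nat.le_add_left _ _))).symm

end Vale.Agent.P261Z.Dl
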