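import Vale.Agent.P261Z.T2.DMain
import Vale.Agent.P261Z.T2.DSmith

/-!
# P261, block T2: theorem DELTA applied to the Smith element
-/

open CategoryTheory MonoidalCategory Limits Pretriangulated

noncomputable section

universe v u

namespace Vale.Agent.P261Z.Dl

open Vale.Agent.P251 Vale.Agent.P251.T Vale.Agent.P251.S Vale.Agent.P251.I Vale.Agent.P251.G

variable {T : Type u} [Category.{v} T] [Preadditive T] [HasZeroObject T]
    [HasShift T ℤ] [∀ n : ℤ, (shiftFunctor T n).Additive] [Pretriangulated T]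
    [MonoidalCategory T] [SymmetricCategory T] [TensorTriangulated T]
    [IsTriangulated T] [MonoidalClosed T] [HasCoproducts.{0} T] [HasProducts.{0} T]
    [StableCat T] [LocallySmall.{0} T]

/-- **Finiteness from smallness of the Smith elements.** -/
theorem finite_of_base (F : SpaceFunctor T) (Λ : T) {p a : ℕ} (hp : p.Prime)
    (hΛ : ((p : ℤ) ^ a) • 𝟙 Λ = 0) (A : FCat) {M : ℕ} (hM : 1 ≤ M) (hA : Ev M (F.S.obj A))
    (h : ∀ (r : ℕ) (c : MonoidAlgebra ℤ (Equiv.Perm (Fin r))) (μ : ℤ), JM.IsIdem p M c μ →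
      (p : ℤ) ^ 2 ∣ μ - 1 → Sm Λ (actS F (Fin r) A c)) (t : ℤ) :
    Finite (𝟙_ T ⟶ Λ⟦t⟧) := by
  obtain ⟨r, c, μ, N, d, h1, h2, h3, h4, h5⟩ := JM.exists_smith hp hM 2
  refine delta F Λ p a hp hΛ A M hA (Fin r) c N d h4 (fun j => ?_)
    (h r c μ h1 ((pow_dvd_pow _ h2).trans h3)) t
  rw [fixTr_eq]
  exact (Int.modEq_iff_dvd.2 (h5 (j + 1) (Nat.succ_pos j))).symm

/-- the same, for maps out of the spheres -/
theorem finite_of_base' (F : SpaceFunctor T) (Λ : T) {p a : ℕ} (hp : p.Prime)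
    (hΛ : ((p : ℤ) ^ a) • 𝟙 Λ = 0) (A : FCat) {M : ℕ} (hM : 1 ≤ M) (hA : Ev M (F.S.obj A))
    (h : ∀ (r : ℕ) (c : MonoidAlgebra ℤ (Equiv.Perm (Fin r))) (μ : ℤ), JM.IsIdem p M c μ →
      (p : ℤ) ^ 2 ∣ μ - 1 → Sm Λ (actS F (Fin r) A c)) (t : ℤ) :
    Finite ((𝟙_ T)⟦t⟧ ⟶ Λ) :=
  @Finite.of_equiv _ _ (finite_of_base F Λ hp hΛ A hM hA h (-t))
    ((shiftEquiv' T t (-t) (add_neg_cancel t)).toAdjunction.homEquiv _ _).symm

end Vale.Agent.P261Z.Dl
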