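import Vale.Agent.P261Z.T2.DNdr

/-!
# P261, block T2, theorem DELTA: row CLASS (the classifying map)
-/

open CategoryTheory Topology OnePoint

set_option linter.unusedSectionVars false

noncomputable section

namespace Vale.Agent.P261Z.Dl

open Vale.Agent.P251 Vale.Agent.P251.T Vale.Agent.P251.S Vale.Agent.P251.I Vale.Agent.P251.G
  Vale.Agent.P251.G.LC

namespace Cls

variable {G : Type} [Group G] [Fintype G] [DecidableEq G]

/-- positive iff the values on `S` exceed all the other values -/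
def wt (S : Finset G) (ξ : G → ℝ) : ℝ := ∏ a ∈ S, ∏ b ∈ Sᶜ, max 0 (ξ a - ξ b)

theorem wt_nonneg (S : Finset G) (ξ : G → ℝ) : 0 ≤ wt S ξ :=
  Finset.prod_nonneg fun _ _ => Finset.prod_nonneg fun _ _ => le_max_left _ _

theorem continuous_wt (S : Finset G) : Continuous (wt S) :=
  continuous_finsetProd _ fun a _ => continuous_finsetProd _ fun b _ => by fun_prop

theorem wt_ne_zero_iff (S : Finset G) (ξ : G → ℝ) :
    wt S ξ ≠ 0 ↔ ∀ a ∈ S, ∀ b ∈ Sᶜ, ξ b < ξ a := by
  simp only [wt, Finset.prod_ne_zero_iff]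
  refine forall₄_congr fun a _ b _ => ?_
  constructor
  · intro h
    by_contra h'
    exact h (max_eq_left (by linarith [not_lt.1 h']))
  · intro h
    exact (lt_max_of_lt_right (sub_pos.2 h)).ne'

theorem exists_exit (hp : (Nat.card G).Prime) {k : G} (hk : k ≠ 1) {S : Finset G}
    (h1 : S.Nonempty) (h2 : Sᶜ.Nonempty) : ∃ a ∈ S, k * a ∈ Sᶜ := by
  by_contra h
  push Not at h
  obtain ⟨a, ha⟩ := h1
  obtain ⟨b, hb⟩ := h2
  have : Fact (Nat.card G).Prime := ⟨hp⟩
  obtain ⟨n, hn⟩ := mem_powers_of_prime_card (p := Nat.card G) rfl hk (g' := b * a⁻¹)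
  have h3 : ∀ n : ℕ, k ^ n * a ∈ S := by
    intro n
    induction n with
    | zero => simpa using ha
    | succ n ih =>
      have := h _ ih
      rw [Finset.mem_compl, not_not, ← mul_assoc, ← pow_succ'] at this
      exact this
  have h4 := h3 n
  have h5 : k ^ n = b * a⁻¹ := hn
  rw [h5, inv_mul_cancel_right] at h4
  exact Finset.mem_compl.1 hb h4

theorem star (hp : (Nat.card G).Prime) {S : Finset G} (h1 : S.Nonempty) (h2 : Sᶜ.Nonempty)
    (ξ : G → ℝ) {g h : G} (hgh : g ≠ h) :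
    wt S (fun a => ξ (g * a)) * wt S (fun a => ξ (h * a)) = 0 := by
  by_contra hne
  obtain ⟨e1, e2⟩ := mul_ne_zero_iff.1 hne
  rw [wt_ne_zero_iff] at e1 e2
  have hk : g⁻¹ * h ≠ 1 := fun e => hgh (inv_mul_eq_one.1 e)
  obtain ⟨a, ha, ha'⟩ := exists_exit hp hk h1 h2
  obtain ⟨b, hb, hb'⟩ := exists_exit hp hk h2 (by rwa [compl_compl])
  rw [compl_compl] at hb'
  have f1 := e1 _ hb' _ ha'
  have f2 := e2 _ ha _ hb
  simp only [mul_assoc, mul_inv_cancel_left] at f1
  exact lt_asymm f1 f2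

theorem exists_wt (ξ : G → ℝ) {j k : G} (h : ξ j ≠ ξ k) :
    ∃ S : Finset G, S.Nonempty ∧ Sᶜ.Nonempty ∧ wt S ξ ≠ 0 := by
  wlog hlt : ξ j < ξ k generalizing j k
  · exact this h.symm (lt_of_le_of_ne (not_lt.1 hlt) h.symm)
  refine ⟨Finset.univ.filter fun a => ξ j < ξ a, ⟨k, by simpa using hlt⟩, ⟨j, by simp⟩, ?_⟩
  rw [wt_ne_zero_iff]
  intro a ha b hb
  simp only [Finset.mem_compl, Finset.mem_filter, Finset.mem_univ, true_and, not_lt] at ha hb
  exact hb.trans_lt ha

end Cls

open Cls Ndr in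
theorem cls : CLASS := by
  intro G _ _ hp A hA
  classical
  obtain ⟨N, φ, hφ, hinj⟩ := hA
  have := Fintype.ofFinite G
  let J : Type := Fin N × {S : Finset G // S.Nonempty ∧ Sᶜ.Nonempty}
  let e : J ≃ Fin (Fintype.card J) := Fintype.equivFin J
  let M := Fintype.card J
  let v : (Wd G A).X → G → A := fun w => Subtype.val (p := (· ∈ cofSet (dgJ G A))) w
  have hv : Continuous v := (isOpenEmbedding_cof (dgJ G A)).continuous
  let y : (Wd G A).X → Fin M → G → ℝ := fun w l g =>
    wt (e.symm l).2.1 fun a => φ (v w (g * a) : OnePoint A) (e.symm l).1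
  have hy : Continuous y := continuous_pi fun l => continuous_pi fun g =>
    (continuous_wt _).comp (continuous_pi fun a => (continuous_apply _).comp
      (hφ.comp (OnePoint.continuous_coe.comp ((continuous_apply _).comp hv))))
  have hy0 : ∀ w l g, 0 ≤ y w l g := fun w l g => wt_nonneg _ _
  have hle : ∀ w l g, y w l g ≤ mx M (y w) := fun w l g => le_of_forall_gt fun r hr =>
    (le_abs_self _).trans_lt (((mx_lt M).1 hr).2 l l.2 g)
  have hpos : ∀ w, 0 < mx M (y w) := by
    intro w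
    obtain ⟨j, k, hjk⟩ := (mem_cofSet_dgJ A (v w)).1 w.2
    have h1 : φ (v w j : OnePoint A) ≠ φ (v w k : OnePoint A) := fun h =>
      hjk (OnePoint.coe_injective (hinj h))
    obtain ⟨l, hl⟩ := Function.ne_iff.1 h1
    obtain ⟨S, h2, h3, h4⟩ := exists_wt (fun a => φ (v w a : OnePoint A) l) hl
    refine lt_of_lt_of_le ?_ (hle w (e (l, ⟨S, h2, h3⟩)) 1)
    refine lt_of_le_of_ne (hy0 _ _ _) (Ne.symm ?_)
    simpa only [y, e.symm_apply_apply, one_mul] using h4
  have hmax : ∀ w, ∃ l g, y w l g = mx M (y w) := by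
    intro w
    by_contra h
    push Not at h
    refine lt_irrefl (mx M (y w)) ((mx_lt M).2 ⟨hpos w, fun l _ g => ?_⟩)
    rw [abs_of_nonneg (hy0 w l g)]
    exact lt_of_le_of_ne (hle w l g) (h l g)
  have hsm : ∀ (g : G) w, y (g • w) = tl g (y w) := by
    intro g w
    funext l h
    simp only [y, tl, v, Wd_smul_val, mul_assoc]
  have hmem : ∀ w, (fun l g => y w l g / mx M (y w)) ∈ ESet G M M := by
    intro w
    obtain ⟨l, g, h⟩ := hmax w
    refine ⟨⟨fun l g => ⟨div_nonneg (hy0 w l g) (hpos w).le, (div_le_one (hpos w)).2 (hle w l g)⟩,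
      fun l g h hgh => ?_⟩, l, l.2, g, ?_⟩
    · have h1 : y w l g * y w l h = 0 :=
        star hp (e.symm l).2.2.1 (e.symm l).2.2.2 (fun a => φ (v w a : OnePoint A) (e.symm l).1) hgh
      change y w l g / _ * (y w l h / _) = 0
      rw [div_mul_div_comm, h1, zero_div]
    · change y w l g / _ = 1
      rw [h, div_self (hpos w).ne']
  refine ⟨M, fun w => (⟨_, hmem w⟩ : ESet G M M), ?_, fun g w => Subtype.ext ?_⟩
  · refine Continuous.subtype_mk (continuous_pi fun l => continuous_pi fun g => ?_) _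
    exact ((continuous_apply g).comp ((continuous_apply l).comp hy)).div
      ((continuous_mx M).comp hy) fun w => (hpos w).ne'
  · funext l h
    change y (g • w) l h / mx M (y (g • w)) = y w l (g⁻¹ * h) / mx M (y w)
    rw [hsm, mx_tl]
    rfl

end Vale.Agent.P261Z.Dl
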