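import Vale.Agent.P261Z.T2.DSk

/-!
# P261, block T2, theorem DELTA: coinvariants
-/

open CategoryTheory MonoidalCategory Limits Pretriangulated MonObj

set_option linter.unusedSectionVars false

noncomputable section

universe v u

namespace Vale.Agent.P261Z.Dl

open Vale.Agent.P251 Vale.Agent.P251.T Vale.Agent.P251.S

namespace Coi

section Lin

variable {A₁ A₂ A₃ A₄ B₁ B₂ B₃ B₄ : Type*} [AddCommGroup A₁] [AddCommGroup A₂] [AddCommGroup A₃]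
  [AddCommGroup A₄] [AddCommGroup B₁] [AddCommGroup B₂] [AddCommGroup B₃] [AddCommGroup B₄]
  [Module ℚ A₁] [Module ℚ A₂] [Module ℚ A₃] [Module ℚ A₄] [Module ℚ B₁] [Module ℚ B₂]
  [Module ℚ B₃] [Module ℚ B₄] {f' : B₁ →ₗ[ℚ] B₂} {g' : B₂ →ₗ[ℚ] B₃} {h' : B₃ →ₗ[ℚ] B₄}
  {f : A₁ →ₗ[ℚ] A₂} {g : A₂ →ₗ[ℚ] A₃} {h : A₃ →ₗ[ℚ] A₄} {π₁ : B₁ →ₗ[ℚ] A₁} {π₂ : B₂ →ₗ[ℚ] A₂}
  {π₃ : B₃ →ₗ[ℚ] A₃} {π₄ : B₄ →ₗ[ℚ] A₄} {N₂ : B₂ →ₗ[ℚ] B₂} {N₃ : B₃ →ₗ[ℚ] B₃}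
  {N₄ : B₄ →ₗ[ℚ] B₄} {c : ℚ}

theorem surj4 (hc : c ≠ 0) (w₁ : ∀ y, π₂ (f' y) = f (π₁ y)) (w₂ : ∀ y, π₃ (g' y) = g (π₂ y))
    (w₃ : ∀ y, π₄ (h' y) = h (π₃ y)) (n₃ : ∀ y, N₄ (h' y) = h' (N₃ y))
    (p₃ : ∀ y, π₃ (N₃ y) = c • π₃ y) (z : ∀ x, h (g x) = 0) (e₃ : ∀ y, h' y = 0 → ∃ z, y = g' z)
    (e₂ : ∀ x, g x = 0 → ∃ z, x = f z) (s₁ : Function.Surjective π₁)
    (s₃ : Function.Surjective π₃) (k₄ : ∀ y, π₄ y = 0 → N₄ y = 0) : Function.Surjective π₂ := by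
  intro x
  obtain ⟨y₃, h3⟩ := s₃ (g x)
  obtain ⟨y₂, h2⟩ := e₃ (N₃ y₃) (by rw [← n₃, k₄ _ (by rw [w₃, h3, z])])
  obtain ⟨x₁, h1⟩ := e₂ (π₂ y₂ - c • x) (by rw [map_sub, map_smul, ← w₂, ← h2, p₃, h3, sub_self])
  obtain ⟨y₁, rfl⟩ := s₁ x₁
  refine ⟨c⁻¹ • (y₂ - f' y₁), ?_⟩
  rw [map_smul, map_sub, w₁, ← h1, sub_sub_cancel, inv_smul_smul₀ hc]

theorem ker4 (hc : c ≠ 0) (w₁ : ∀ y, π₂ (f' y) = f (π₁ y)) (w₂ : ∀ y, π₃ (g' y) = g (π₂ y))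
    (w₃ : ∀ y, π₄ (h' y) = h (π₃ y)) (n₂ : ∀ y, N₃ (g' y) = g' (N₂ y))
    (n₃ : ∀ y, N₄ (h' y) = h' (N₃ y)) (p₃ : ∀ y, π₃ (N₃ y) = c • π₃ y)
    (q₃ : ∀ y, N₃ (N₃ y) = c • N₃ y) (z : ∀ y, g' (f' y) = 0)
    (e₃ : ∀ y, h' y = 0 → ∃ z, y = g' z) (e₂ : ∀ x, g x = 0 → ∃ z, x = f z)
    (s₁ : Function.Surjective π₁) (k₂ : ∀ y, π₂ y = 0 → N₂ y = 0)
    (k₄ : ∀ y, π₄ y = 0 → N₄ y = 0) (y : B₃) (hy : π₃ y = 0) : N₃ y = 0 := by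
  obtain ⟨y₂, h2⟩ := e₃ (N₃ y) (by rw [← n₃, k₄ _ (by rw [w₃, hy, map_zero])])
  obtain ⟨x₁, h1⟩ := e₂ (π₂ y₂) (by rw [← w₂, ← h2, p₃, hy, smul_zero])
  obtain ⟨y₁, rfl⟩ := s₁ x₁
  have h3 := congrArg g' (k₂ (y₂ - f' y₁) (by rw [map_sub, w₁, h1, sub_self]))
  rw [← n₂, map_sub g', z, sub_zero, ← h2, q₃, map_zero] at h3
  exact (smul_eq_zero.1 h3).resolve_left hc

theorem trace_eq [Module.Finite ℚ A₂] [Module.Finite ℚ B₂] (s₂ : Function.Surjective π₂)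
    (k₂ : ∀ y, π₂ y = 0 → N₂ y = 0) (p₂ : ∀ y, π₂ (N₂ y) = c • π₂ y) {φ' : B₂ →ₗ[ℚ] B₂}
    {φ : A₂ →ₗ[ℚ] A₂} (w : ∀ y, π₂ (φ' y) = φ (π₂ y)) :
    c * LinearMap.trace ℚ A₂ φ = LinearMap.trace ℚ B₂ (φ' ∘ₗ N₂) := by
  obtain ⟨s, hs⟩ := π₂.exists_rightInverse_of_surjective (LinearMap.range_eq_top.2 s₂)
  have h1 : ∀ x, π₂ (s x) = x := LinearMap.congr_fun hs
  have h2 : φ' ∘ₗ N₂ = (φ' ∘ₗ N₂ ∘ₗ s) ∘ₗ π₂ := LinearMap.ext fun y => by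
    have := k₂ (y - s (π₂ y)) (by rw [map_sub, h1, sub_self])
    rw [map_sub, sub_eq_zero] at this
    exact congrArg φ' this
  have h3 : π₂ ∘ₗ φ' ∘ₗ N₂ ∘ₗ s = c • φ := LinearMap.ext fun x => by
    simp only [LinearMap.comp_apply, LinearMap.smul_apply, w, p₂, h1, map_smul]
  rw [h2, LinearMap.trace_comp_comm', h3, map_smul, smul_eq_mul]

end Lin

variable {T : Type u} [Category.{v} T] [Preadditive T] [HasZeroObject T]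
    [HasShift T ℤ] [∀ n : ℤ, (shiftFunctor T n).Additive] [Pretriangulated T]
    [MonoidalCategory T] [SymmetricCategory T] [TensorTriangulated T] (R : RatD T)

theorem sq (n : ℤ) {X Y Y' Z : T} {a : X ⟶ Y} {b : Y ⟶ Z} {a' : X ⟶ Y'} {b' : Y' ⟶ Z}
    (w : a ≫ b = a' ≫ b') (y : R.V n X) : R.Vm n b (R.Vm n a y) = R.Vm n b' (R.Vm n a' y) := by
  rw [← LinearMap.comp_apply, ← R.Vm_comp, w, R.Vm_comp, LinearMap.comp_apply]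

theorem zr (n : ℤ) {X Y Z : T} {a : X ⟶ Y} {b : Y ⟶ Z} (w : a ≫ b = 0) (y : R.V n X) :
    R.Vm n b (R.Vm n a y) = 0 := by
  rw [← LinearMap.comp_apply, ← R.Vm_comp, w, R.Vm_zero, LinearMap.zero_apply]

theorem sm (n : ℤ) {X Y Z : T} {a : X ⟶ Y} {b : Y ⟶ Z} {c : X ⟶ Z} {k : ℕ} (w : a ≫ b = k • c)
    (y : R.V n X) : R.Vm n b (R.Vm n a y) = (k : ℚ) • R.Vm n c y := by
  rw [← LinearMap.comp_apply, ← R.Vm_comp, w, Nat.cast_smul_eq_nsmul]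
  exact LinearMap.congr_fun ((R.VmHom n X Z).map_nsmul k c) y

/-- the suspension isomorphism -/
def σ (n : ℤ) (Y : T) (x : R.V n Y) : R.V (n + 1) (Y⟦(1 : ℤ)⟧) :=
  R.hom.symm ((shiftFunctorAdd T n 1).hom.app _ ≫ (R.hom x)⟦(1 : ℤ)⟧' ≫ (tsh R.Q Y).hom)

theorem σ_nat (n : ℤ) {Y Z : T} (f : Y ⟶ Z) (x : R.V n Y) :
    R.Vm (n + 1) (f⟦(1 : ℤ)⟧') (σ R n Y x) = σ R n Z (R.Vm n f x) := by
  apply R.hom.injective
  rw [R.hom_Vm, σ, σ, AddEquiv.apply_symm_apply, AddEquiv.apply_symm_apply, R.hom_Vm,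
    Functor.map_comp, Category.assoc, Category.assoc, Category.assoc, tsh_right]

theorem σ_surj (n : ℤ) (Y : T) : Function.Surjective (σ R n Y) := fun y =>
  ⟨R.hom.symm ((shiftFunctor T (1 : ℤ)).preimage
    ((shiftFunctorAdd T n 1).inv.app _ ≫ R.hom y ≫ (tsh R.Q Y).inv)), by
    apply R.hom.injective
    simp [σ]⟩

theorem σ_zero (n : ℤ) (Y : T) (x : R.V n Y) : σ R n Y x = 0 ↔ x = 0 := by
  rw [σ, R.hom.symm.map_eq_zero_iff, Preadditive.IsIso.comp_left_eq_zero,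
    Preadditive.IsIso.comp_right_eq_zero, (shiftFunctor T (1 : ℤ)).map_eq_zero_iff,
    R.hom.map_eq_zero_iff]

theorem ker_shift {Y X : T} (π : Y ⟶ X) (N : Y ⟶ Y) :
    (∀ n y, R.Vm n π y = 0 → R.Vm n N y = 0) ↔
      ∀ n y, R.Vm n (π⟦(1 : ℤ)⟧') y = 0 → R.Vm n (N⟦(1 : ℤ)⟧') y = 0 := by
  refine ⟨fun h n y => ?_, fun h n y hy => ?_⟩
  · obtain ⟨n, rfl⟩ : ∃ m, n = m + 1 := ⟨n - 1, by ring⟩
    obtain ⟨y, rfl⟩ := σ_surj R n Y y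
    rw [σ_nat, σ_nat, σ_zero, σ_zero]
    exact h n y
  · rw [← σ_zero, ← σ_nat] at hy ⊢
    exact h _ _ hy

variable {G : Type} [Group G] [Fintype G] {Y X : T} {ρ : G → (Y ⟶ Y)} {π : Y ⟶ X}

theorem sum_π (h : Act ρ π) : (∑ g, ρ g) ≫ π = Fintype.card G • π := by
  simp [Preadditive.sum_comp, h.inv]

theorem sum_sum (h : Act ρ π) : (∑ g, ρ g) ≫ (∑ g, ρ g) = Fintype.card G • ∑ g, ρ g := by
  have h1 : ∀ k, ρ k ≫ ∑ g, ρ g = ∑ g, ρ g := fun k => by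
    rw [Preadditive.comp_sum]
    exact Fintype.sum_equiv (Equiv.mulRight k) _ _ fun g => (h.mul g k).symm
  simp [Preadditive.sum_comp, h1]

theorem fin_supp (h : R.FD Y) (f : Y ⟶ Y) : Function.HasFiniteSupport
    fun n : ℤ => ((n.negOnePow : ℤ) : ℚ) * LinearMap.trace ℚ (R.V n Y) (R.Vm n f) :=
  h.2.subset fun n hn => by
    by_contra h1
    have : Subsingleton (R.V n Y) := not_nontrivial_iff_subsingleton.1 h1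
    exact hn (by beta_reduce; rw [Subsingleton.elim (R.Vm n f) 0, map_zero, mul_zero])

end Coi

variable {T : Type u} [Category.{v} T] [Preadditive T] [HasZeroObject T]
    [HasShift T ℤ] [∀ n : ℤ, (shiftFunctor T n).Additive] [Pretriangulated T]
    [MonoidalCategory T] [SymmetricCategory T] [TensorTriangulated T]

open Coi in
theorem coi (R : RatD T) : COI R where
  tri := by
    intro G _ _ Y₁ Y₂ Y₃ X₁ X₂ X₃ f' g' h' f g h hY hX ρ₁ ρ₂ ρ₃ π₁ π₂ π₃ _ a₂ a₃ t w₁ w₂ w₃ c₁ c₃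
    have hc : (Fintype.card G : ℚ) ≠ 0 := Nat.cast_ne_zero.2 Fintype.card_ne_zero
    have n₁ : f' ≫ ∑ k, ρ₂ k = (∑ k, ρ₁ k) ≫ f' := by
      simp only [Preadditive.comp_sum, Preadditive.sum_comp, fun k => (t k).w₁]
    have n₂ : g' ≫ ∑ k, ρ₃ k = (∑ k, ρ₂ k) ≫ g' := by
      simp only [Preadditive.comp_sum, Preadditive.sum_comp, fun k => (t k).w₂]
    have n₃ : h' ≫ (∑ k, ρ₁ k)⟦(1 : ℤ)⟧' = (∑ k, ρ₃ k) ≫ h' := by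
      simp only [Functor.map_sum, Preadditive.comp_sum, Preadditive.sum_comp, fun k => (t k).w₃]
    have k₁ := (ker_shift R _ _).1 c₁.ker
    have sh : ∀ {A B B' C : T} {a : A ⟶ B} {b : B ⟶ C} {a' : A ⟶ B'} {b' : B' ⟶ C},
        a ≫ b = a' ≫ b' → a⟦(1 : ℤ)⟧' ≫ b⟦(1 : ℤ)⟧' = a'⟦(1 : ℤ)⟧' ≫ b'⟦(1 : ℤ)⟧' := fun w => by
      rw [← Functor.map_comp, w, Functor.map_comp]
    refine ⟨fun n => surj4 hc (sq R n w₁) (sq R n w₂) (sq R n w₃) (sq R n n₃) (sm R n (sum_π a₃))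
      (zr R n (comp_distTriang_mor_zero₂₃ _ hX)) (exL₃ hY R.Q) (exL₂ hX R.Q) (c₁.surj n)
      (c₃.surj n) (k₁ n), (ker_shift R _ _).2 fun n => ker4 hc (sq R n w₃) (sq R n (sh w₁))
      (sq R n (sh w₂)) (sq R n (sh n₁)) (sq R n (sh n₂)) (sm R n ?_) (sm R n ?_)
      (zr R n (comp_distTriang_mor_zero₃₁ _ hY)) (fun y hy => ?_) (exL₁ hX R.Q) (c₃.surj n)
      (k₁ n) ((ker_shift R _ _).1 c₃.ker n)⟩
    · rw [← Functor.map_comp, sum_π a₂, Functor.map_nsmul]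
    · rw [← Functor.map_comp, sum_sum a₂, Functor.map_nsmul]
    · obtain ⟨b, hb⟩ : ∃ b : (𝟙_ T)⟦n⟧ ⟶ R.Q ⊗ Y₁⟦(1 : ℤ)⟧,
          R.hom y = b ≫ R.Q ◁ (-(f'⟦(1 : ℤ)⟧')) :=
        exL₁ (rot_of_distTriang _ hY) R.Q (R.hom y) hy
      refine ⟨-R.hom.symm b, R.hom.injective ?_⟩
      rw [hb, R.hom_Vm, map_neg, AddEquiv.apply_symm_apply, Preadditive.neg_comp, wl_neg,
        Preadditive.comp_neg]
  tr := by
    intro G _ _ Y X ρ π a c hY hX φ' φ w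
    unfold RatD.lef
    rw [mul_finsum' _ _ (fin_supp R hX φ), sum_finsum_comm _ _ fun g _ => fin_supp R hY _]
    refine finsum_congr fun n => ?_
    have := hY.1 n
    have := hX.1 n
    rw [mul_left_comm, trace_eq (c.surj n) (c.ker n) (sm R n (sum_π a)) (sq R n w), ← R.Vm_comp,
      ← Finset.mul_sum, ← map_sum, Preadditive.sum_comp]
    exact congrArg (fun u => _ * LinearMap.trace ℚ _ u) (map_sum (R.VmHom n Y Y) _ _)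

end Vale.Agent.P261Z.Dl
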