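import Vale.Agent.P261Z.T2.DSk

/-!
# P261, block T2, theorem DELTA: the calculus of the categorical trace
-/

open CategoryTheory MonoidalCategory Limits BraidedCategory

set_option linter.unusedSectionVars false

noncomputable section

universe v u v' u'

namespace Vale.Agent.P261Z.Dl

variable {C : Type u} [Category.{v} C] [MonoidalCategory C] [SymmetricCategory C]

theorem ctr_eq {Y D : C} (P : ExactPairing Y D) (f : Y ⟶ Y) :
    ctr P f = η_ Y D ≫ f ▷ D ≫ (β_ Y D).hom ≫ ε_ Y D := rfl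

theorem ctr_cyc {X Y D E : C} (P : ExactPairing X D) (P' : ExactPairing Y E) (a : X ⟶ Y)
    (b : Y ⟶ X) : ctr P (a ≫ b) = ctr P' (b ≫ a) := by
  let _ : HasRightDual X := ⟨D⟩
  let _ : HasRightDual Y := ⟨E⟩
  obtain ⟨m, h1, h2⟩ : ∃ m : E ⟶ D, η_ Y E ≫ Y ◁ m = η_ X D ≫ a ▷ D ∧
      m ▷ X ≫ ε_ X D = E ◁ a ≫ ε_ Y E :=
    ⟨rightAdjointMate a, coevaluation_comp_rightAdjointMate a, rightAdjointMate_comp_evaluation a⟩
  rw [ctr_eq, ctr_eq, comp_whiskerRight, comp_whiskerRight, Category.assoc, Category.assoc,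
    ← reassoc_of% h1, whisker_exchange_assoc, braiding_naturality_right_assoc, h2,
    ← braiding_naturality_left_assoc a]

/-- The trace does not depend on the pairing. -/
theorem ctr_indep {X D E : C} (P : ExactPairing X D) (P' : ExactPairing X E) (f : X ⟶ X) :
    ctr P f = ctr P' f := by
  simpa using ctr_cyc P P' f (𝟙 X)

theorem ctr_one {D : C} (P : ExactPairing (𝟙_ C) D) (a : 𝟙_ C ⟶ 𝟙_ C) : ctr P a = a := by
  rw [ctr_indep P exactPairingUnit]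
  change (ρ_ _).inv ≫ a ▷ _ ≫ (β_ _ _).hom ≫ (ρ_ _).hom = a
  rw [braiding_tensorUnit_left]
  monoidal

namespace CtH

/-- the trace in the last factor -/
def ptr {X D : C} (P : ExactPairing X D) {U U' : C} (h : U ⊗ X ⟶ U' ⊗ X) : U ⟶ U' :=
  (ρ_ U).inv ≫ U ◁ η_ X D ≫ (α_ U X D).inv ≫ h ▷ D ≫ (α_ U' X D).hom ≫
    U' ◁ ((β_ X D).hom ≫ ε_ X D) ≫ (ρ_ U').hom

variable {X D : C} (P : ExactPairing X D)

theorem ptr_left {U U' U'' : C} (a : U ⟶ U') (h : U' ⊗ X ⟶ U'' ⊗ X) :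
    ptr P (a ▷ X ≫ h) = a ≫ ptr P h := by
  simp only [ptr, comp_whiskerRight, Category.assoc]
  rw [← associator_inv_naturality_left_assoc, whisker_exchange_assoc,
    ← rightUnitor_inv_naturality_assoc]

theorem ptr_right {U U' U'' : C} (h : U ⊗ X ⟶ U' ⊗ X) (a : U' ⟶ U'') :
    ptr P (h ≫ a ▷ X) = ptr P h ≫ a := by
  simp only [ptr, comp_whiskerRight, Category.assoc]
  rw [associator_naturality_left_assoc, ← whisker_exchange_assoc, rightUnitor_naturality]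

theorem ptr_whisker (Z : C) {U U' : C} (h : U ⊗ X ⟶ U' ⊗ X) :
    ptr P ((α_ Z U X).hom ≫ Z ◁ h ≫ (α_ Z U' X).inv) = Z ◁ ptr P h := by
  unfold ptr
  monoidal

theorem ptr_braid : ptr P (β_ X X).hom = 𝟙 X := by
  have h : (α_ X X D).inv ≫ (β_ X X).hom ▷ D ≫ (α_ X X D).hom ≫ X ◁ (β_ X D).hom =
      (β_ X (X ⊗ D)).hom ≫ (α_ X D X).hom := by
    simp [braiding_tensor_right_hom]
  rw [ptr, MonoidalCategory.whiskerLeft_comp, Category.assoc, reassoc_of% h,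
    braiding_naturality_right_assoc, ExactPairing.evaluation_coevaluation_assoc]
  simp

theorem ptr_whiskerLeft (U : C) (g : X ⟶ X) :
    ptr P (U ◁ g) = (ρ_ U).inv ≫ U ◁ ctr P g ≫ (ρ_ U).hom := by
  rw [ptr, ctr_eq]
  monoidal

theorem slide {A : C} (e : A ⟶ 𝟙_ C) (W : C) :
    (β_ A W).hom ≫ W ◁ e = e ▷ W ≫ (λ_ W).hom ≫ (ρ_ W).inv := by
  rw [← braiding_naturality_left, braiding_tensorUnit_left]

theorem key {U E X D : C} (e : U ⊗ E ⟶ 𝟙_ C) (e' : D ⊗ X ⟶ 𝟙_ C) :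
    U ◁ (β_ X (D ⊗ E)).hom ⊗≫ (β_ U D).hom ▷ (E ⊗ X) ⊗≫ D ◁ e ▷ X ⊗≫ e' =
      𝟙 _ ⊗≫ U ◁ (β_ X D).hom ▷ E ⊗≫ U ◁ e' ▷ E ⊗≫ e := by
  have h1 : (β_ U D).hom ▷ E = 𝟙 _ ⊗≫ U ◁ (β_ D E).hom ⊗≫ (β_ (U ⊗ E) D).hom ⊗≫ 𝟙 _ := by
    have h : U ◁ (β_ D E).hom ≫ U ◁ (β_ E D).hom = 𝟙 _ := by
      rw [← MonoidalCategory.whiskerLeft_comp, SymmetricCategory.symmetry,
        MonoidalCategory.whiskerLeft_id]
    calc _ = 𝟙 _ ⊗≫ (U ◁ (β_ D E).hom ≫ U ◁ (β_ E D).hom) ⊗≫ (β_ U D).hom ▷ E := by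
          rw [h]; monoidal
      _ = _ := by rw [braiding_tensor_left_hom]; monoidal
  calc _ = U ◁ (β_ X (D ⊗ E)).hom ⊗≫ ((β_ U D).hom ▷ E) ▷ X ⊗≫ D ◁ e ▷ X ⊗≫ e' := by monoidal
    _ = U ◁ (β_ X (D ⊗ E)).hom ⊗≫ U ◁ (β_ D E).hom ▷ X ⊗≫
          ((β_ (U ⊗ E) D).hom ≫ D ◁ e) ▷ X ⊗≫ e' := by rw [h1]; monoidal
    _ = U ◁ (β_ X (D ⊗ E)).hom ⊗≫ U ◁ (β_ D E).hom ▷ X ⊗≫
          (e ▷ (D ⊗ X) ≫ 𝟙_ C ◁ e') ⊗≫ 𝟙 _ := by rw [slide]; monoidal
    _ = 𝟙 _ ⊗≫ U ◁ (β_ X D).hom ▷ E ⊗≫ U ◁ ((β_ (D ⊗ X) E).hom ≫ E ◁ e') ⊗≫ e := by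
          rw [← whisker_exchange, braiding_tensor_right_hom, braiding_tensor_left_hom]; monoidal
    _ = _ := by rw [slide]; monoidal

/-- The trace on a tensor product is the trace of the trace in the last factor. -/
theorem ctr_ptr {U E H : C} (P' : ExactPairing U E) (P'' : ExactPairing (U ⊗ X) H)
    (h : U ⊗ X ⟶ U ⊗ X) : ctr P'' h = ctr P' (ptr P h) := by
  rw [ctr_indep P'' (ExactPairing.tensor (Y₁ := E) (Y₂ := D)), ctr_eq, ctr_eq,
    ExactPairing.tensor_coevaluation, ExactPairing.tensor_evaluation, ptr]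
  calc _ = η_ U E ⊗≫ (U ◁ η_ X D) ▷ E ⊗≫ h ▷ (D ⊗ E) ⊗≫ (U ◁ (β_ X (D ⊗ E)).hom ⊗≫
          (β_ U D).hom ▷ (E ⊗ X) ⊗≫ D ◁ ((β_ U E).hom ≫ ε_ U E) ▷ X ⊗≫ ε_ X D) := by
        rw [braiding_tensor_left_hom, braiding_tensor_right_hom U]; monoidal
    _ = _ := by rw [key]; monoidal

theorem ctr_scalar (f : X ⟶ X) (s : 𝟙_ C ⟶ 𝟙_ C) :
    ctr P (f ≫ (ρ_ X).inv ≫ X ◁ s ≫ (ρ_ X).hom) = ctr P f ≫ s := by
  rw [ctr_eq, ctr_eq, comp_whiskerRight, Category.assoc, braiding_naturality_left_assoc]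
  simp only [Category.assoc]
  congr 3
  calc _ = 𝟙 _ ⊗≫ ((D ⊗ X) ◁ s ≫ ε_ X D ▷ 𝟙_ C) ⊗≫ 𝟙 _ := by monoidal
    _ = _ := by rw [whisker_exchange]; monoidal

end CtH

open CtH in
theorem ct (C : Type u) [Category.{v} C] [MonoidalCategory C] [SymmetricCategory C] : CT C where
  one := ctr_one
  cyc := ctr_cyc
  ten P P' P'' f g := by
    rw [ctr_ptr P' P P'', MonoidalCategory.tensorHom_def, ptr_left, ptr_whiskerLeft,
      ctr_scalar]
  swap {Z X D E H} P₀ P P' h k := by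
    have e : (h ⊗ₘ k) ≫ (α_ Z X X).hom ≫ Z ◁ (β_ X X).hom ≫ (α_ Z X X).inv =
        h ▷ X ≫ (α_ Z X X).hom ≫ Z ◁ ((β_ X X).hom ≫ k ▷ X) ≫ (α_ Z X X).inv := by
      rw [← braiding_naturality_right, MonoidalCategory.tensorHom_def]
      monoidal
    rw [ctr_ptr P₀ P P', e, ptr_left, ptr_whisker, ptr_right, ptr_braid, Category.id_comp]

section Add

variable [Preadditive C] [MonoidalPreadditive C] {Y D : C} (P : ExactPairing Y D)

theorem ctr_add (f g : Y ⟶ Y) : ctr P (f + g) = ctr P f + ctr P g := by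
  simp [ctr_eq]

theorem ctr_zero : ctr P (0 : Y ⟶ Y) = 0 := by
  simp [ctr_eq]

/-- the trace as an additive map -/
def ctrHom : (Y ⟶ Y) →+ (𝟙_ C ⟶ 𝟙_ C) where
  toFun := ctr P
  map_zero' := ctr_zero P
  map_add' := ctr_add P

theorem ctr_sum {ι : Type*} (s : Finset ι) (f : ι → (Y ⟶ Y)) :
    ctr P (∑ i ∈ s, f i) = ∑ i ∈ s, ctr P (f i) := map_sum (ctrHom P) f s

theorem ctr_zsmul (n : ℤ) (f : Y ⟶ Y) : ctr P (n • f) = n • ctr P f := map_zsmul (ctrHom P) n f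

theorem ctr_neg (f : Y ⟶ Y) : ctr P (-f) = -ctr P f := map_neg (ctrHom P) f

theorem ctr_sub (f g : Y ⟶ Y) : ctr P (f - g) = ctr P f - ctr P g := map_sub (ctrHom P) f g

end Add

section Map

open Functor.LaxMonoidal Functor.OplaxMonoidal

variable {C' : Type u'} [Category.{v'} C'] [MonoidalCategory C'] [SymmetricCategory C']
  (F : C ⥤ C') [F.Braided]

/-- the image of a pairing -/
@[instance_reducible] def mapPair {Y D : C} (P : ExactPairing Y D) :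
    ExactPairing (F.obj Y) (F.obj D) where
  coevaluation' := ε F ≫ F.map (η_ Y D) ≫ δ F Y D
  evaluation' := μ F D Y ≫ F.map (ε_ Y D) ≫ η F
  coevaluation_evaluation' := by
    have h := congrArg F.map (ExactPairing.coevaluation_evaluation Y D)
    simp only [Functor.map_comp, Functor.Monoidal.map_whiskerLeft,
      Functor.Monoidal.map_whiskerRight, Functor.Monoidal.map_associator_inv,
      Functor.Monoidal.map_rightUnitor, Functor.Monoidal.map_leftUnitor_inv, Category.assoc,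
      Functor.Monoidal.μ_δ_assoc, cancel_epi] at h
    simp only [MonoidalCategory.whiskerLeft_comp, comp_whiskerRight, Category.assoc]
    rw [← cancel_mono (ε F ▷ F.obj D ≫ μ F (𝟙_ C) D), ← cancel_epi (F.obj D ◁ η F)]
    simpa using h
  evaluation_coevaluation' := by
    have h := congrArg F.map (ExactPairing.evaluation_coevaluation Y D)
    simp only [Functor.map_comp, Functor.Monoidal.map_whiskerLeft,
      Functor.Monoidal.map_whiskerRight, Functor.Monoidal.map_associator,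
      Functor.Monoidal.map_leftUnitor, Functor.Monoidal.map_rightUnitor_inv, Category.assoc,
      Functor.Monoidal.μ_δ_assoc, cancel_epi] at h
    simp only [MonoidalCategory.whiskerLeft_comp, comp_whiskerRight, Category.assoc]
    rw [← cancel_mono (F.obj Y ◁ ε F ≫ μ F Y (𝟙_ C)), ← cancel_epi (η F ▷ F.obj Y)]
    simpa using h

/-- Braided monoidal functors preserve the trace. -/
theorem ctr_map {Y D : C} {D' : C'} (P : ExactPairing Y D) (P' : ExactPairing (F.obj Y) D')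
    (f : Y ⟶ Y) : ctr P' (F.map f) = ε F ≫ F.map (ctr P f) ≫ η F := by
  rw [ctr_indep P' (mapPair F P), ctr_eq P]
  change (ε F ≫ F.map (η_ Y D) ≫ δ F Y D) ≫ F.map f ▷ F.obj D ≫ (β_ _ _).hom ≫
    μ F D Y ≫ F.map (ε_ Y D) ≫ η F = _
  simp [Functor.map_braiding]

end Map

/-- The free functor preserves the trace. -/
theorem ctr_free (R : C) [MonObj R] [IsCommMonObj R] {Y D : C} {D' : P251.M.FM R}
    (P : ExactPairing Y D) (P' : ExactPairing ((P251.M.FM.free R).obj Y) D') (f : Y ⟶ Y) :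
    ctr P' ((P251.M.FM.free R).map f) = (P251.M.FM.free R).map (ctr P f) :=
  (ctr_map _ P P' f).trans ((Category.id_comp _).trans (Category.comp_id _))

end Vale.Agent.P261Z.Dl
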