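import Vale.Agent.P261Z.T2.DSk
import Vale.Agent.P251.G.CellLC

/-!
# P261, block T2, theorem DELTA: row DIAG (the diagonals of the powers are cofibrations)
-/

open CategoryTheory MonoidalCategory Topology OnePoint

noncomputable section

namespace Vale.Agent.P261Z.Dl

open Vale.Agent.P251 Vale.Agent.P251.G Vale.Agent.P251.G.LC

namespace Diag

theorem cofib_fin {A : LC} (h : Cofib (dg A)) : ∀ n : ℕ, Cofib (dgJ (Fin (n + 1)) A)
  | 0 => by
    have e : dgJ (Fin (0 + 1)) A =
        (ofHomeo (X := A) (Y := powObj (Fin (0 + 1)) A)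
          (Homeomorph.funUnique (Fin 1) A).symm).hom := by
      ext a
      rfl
    rw [e]
    exact cofib_of_iso _
  | n + 1 => by
    have e : dgJ (Fin (n + 1 + 1)) A =
        dg A ≫ A ◁ dgJ (Fin (n + 1)) A ≫ (consIso A (n + 1)).hom := by
      ext a
      rw [app_comp, app_comp, app_dg, app_whiskerLeft_smash]
      refine Eq.trans ?_ (app_consIso_coe A (n + 1) a fun _ => a).symm
      refine congrArg _ (funext fun i => ?_)
      induction i using Fin.cases <;> rfl
    rw [e]
    exact h.comp' (((cofib_fin h n).whiskerLeft' A).comp' (cofib_of_iso _))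

end Diag

theorem diag : DIAG := by
  intro J _ _ A h
  obtain ⟨n, ⟨e⟩⟩ := Finite.exists_equiv_fin J
  cases n with
  | zero => exact (e (Classical.arbitrary J)).elim0
  | succ n =>
    have e' : dgJ J A = dgJ (Fin (n + 1)) A ≫ (reIso A e.symm).hom := by
      ext a
      rfl
    rw [e']
    exact (Diag.cofib_fin h n).comp' (cofib_of_iso _)

end Vale.Agent.P261Z.Dl
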