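import Vale.Agent.P261Z.T2.DSk
import Vale.Agent.P251.S.TensorShift
import Mathlib.CategoryTheory.Monoidal.Rigid.Braided

/-!
# P261, block T2, theorem DELTA, row DUAL: finite objects are dualizable
-/

open CategoryTheory MonoidalCategory Limits Pretriangulated MonObj Topology OnePoint

set_option linter.unusedSectionVars false

noncomputable section

universe v u

namespace Vale.Agent.P261Z.Dl

open Vale.Agent.P251 Vale.Agent.P251.T Vale.Agent.P251.S Vale.Agent.P251.I Vale.Agent.P251.G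
  Vale.Agent.P251.G.LC

namespace DualAux

section Mon

variable {C : Type u} [Category.{v} C] [MonoidalCategory C] {Y D : C} (ev : Y ⊗ D ⟶ 𝟙_ C)

/-- the map `[W, D ⊗ Z] ⟶ [Y ⊗ W, Z]` induced by a pairing -/
def nu {W Z : C} (x : W ⟶ D ⊗ Z) : Y ⊗ W ⟶ Z :=
  Y ◁ x ≫ (α_ Y D Z).inv ≫ ev ▷ Z ≫ (λ_ Z).hom

theorem nu_right {W Z Z' : C} (x : W ⟶ D ⊗ Z) (f : Z ⟶ Z') :
    nu ev (x ≫ D ◁ f) = nu ev x ≫ f := by
  simp only [nu, whiskerLeft_comp, Category.assoc]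
  rw [associator_inv_naturality_right_assoc, whisker_exchange_assoc, leftUnitor_naturality]

theorem nu_left {W W' Z : C} (w : W' ⟶ W) (x : W ⟶ D ⊗ Z) :
    nu ev (w ≫ x) = Y ◁ w ≫ nu ev x := by
  simp only [nu, whiskerLeft_comp, Category.assoc]

theorem nu_tensor {W Z : C} (P : C) (x : W ⟶ D ⊗ Z) :
    nu ev (x ▷ P ≫ (α_ D Z P).hom) = (α_ Y W P).inv ≫ nu ev x ▷ P := by
  simp only [nu]
  monoidal

theorem nu_unit {W : C} (x : W ⟶ D ⊗ 𝟙_ C) : nu ev x = Y ◁ (x ≫ (ρ_ D).hom) ≫ ev := by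
  simp only [nu]
  monoidal

/-- the objects for which `nu` is bijective -/
def Good (Z : C) : Prop := ∀ W : C, Function.Bijective (nu ev : (W ⟶ D ⊗ Z) → (Y ⊗ W ⟶ Z))

variable {ev}

theorem Good.of_iso {Z Z' : C} (e : Z ≅ Z') (h : Good ev Z) : Good ev Z' := by
  intro W
  refine ⟨fun x y hxy => ?_, fun u => ?_⟩
  · have h1 : x ≫ D ◁ e.inv = y ≫ D ◁ e.inv := (h W).1 (by rw [nu_right, nu_right, hxy])
    exact (cancel_mono (D ◁ e.inv)).1 h1
  · obtain ⟨x, hx⟩ := (h W).2 (u ≫ e.inv)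
    exact ⟨x ≫ D ◁ e.hom, by rw [nu_right, hx, Category.assoc, e.inv_hom_id, Category.comp_id]⟩

theorem bij_of_iso {Z W W' : C} (e : W ≅ W')
    (h : Function.Bijective (nu ev : (W ⟶ D ⊗ Z) → (Y ⊗ W ⟶ Z))) :
    Function.Bijective (nu ev : (W' ⟶ D ⊗ Z) → (Y ⊗ W' ⟶ Z)) := by
  refine ⟨fun x y hxy => ?_, fun u => ?_⟩
  · have h1 : e.hom ≫ x = e.hom ≫ y := h.1 (by rw [nu_left, nu_left, hxy])
    exact (cancel_epi e.hom).1 h1
  · obtain ⟨x, hx⟩ := h.2 (Y ◁ e.hom ≫ u)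
    exact ⟨e.inv ≫ x, by rw [nu_left, hx, whiskerLeft_inv_hom_assoc]⟩

theorem Good.tensor {Z : C} (h : Good ev Z) (P : C) [(tensorRight P).IsEquivalence] :
    Good ev (Z ⊗ P) := by
  intro W
  refine bij_of_iso (W := (tensorRight P).objPreimage W ⊗ P)
    ((tensorRight P).objObjPreimageIso W) ?_
  generalize (tensorRight P).objPreimage W = V
  have hs : ∀ x : V ⊗ P ⟶ D ⊗ Z ⊗ P, ∃ x' : V ⟶ D ⊗ Z, x = x' ▷ P ≫ (α_ D Z P).hom := fun x => by
    obtain ⟨x', hx'⟩ := (tensorRight P).map_surjective (X := V) (Y := D ⊗ Z) (x ≫ (α_ D Z P).inv)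
    refine ⟨x', ?_⟩
    change x' ▷ P = _ at hx'
    rw [hx', Category.assoc, Iso.inv_hom_id, Category.comp_id]
  refine ⟨fun x y hxy => ?_, fun u => ?_⟩
  · obtain ⟨x, rfl⟩ := hs x
    obtain ⟨y, rfl⟩ := hs y
    rw [nu_tensor, nu_tensor, cancel_epi] at hxy
    rw [(h V).1 ((tensorRight P).map_injective (X := Y ⊗ V) (Y := Z) hxy)]
  · obtain ⟨u', hu'⟩ := (tensorRight P).map_surjective (X := Y ⊗ V) (Y := Z) ((α_ Y V P).hom ≫ u)
    obtain ⟨x, rfl⟩ := (h V).2 u'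
    refine ⟨x ▷ P ≫ (α_ D Z P).hom, ?_⟩
    change nu ev x ▷ P = _ at hu'
    rw [nu_tensor, hu', Iso.inv_hom_id_assoc]

/-- an exact pairing from the two bijections -/
theorem pairing (h1 : Good ev (𝟙_ C)) (hY : Good ev Y) : Nonempty (ExactPairing D Y) := by
  obtain ⟨c, hc⟩ := (hY (𝟙_ C)).2 (ρ_ Y).hom
  refine ⟨⟨c, ev, ?_, ?_⟩⟩
  · rw [← hc]
    simp [nu]
  · refine (h1 _).1 ?_
    rw [← Category.assoc, nu_right, nu_tensor, hc, nu_unit]
    monoidal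

end Mon

variable {T : Type u} [Category.{v} T] [Preadditive T] [HasZeroObject T]
    [HasShift T ℤ] [∀ n : ℤ, (shiftFunctor T n).Additive] [Pretriangulated T]
    [MonoidalCategory T] [SymmetricCategory T] [TensorTriangulated T]

variable {Y D : T} {ev : Y ⊗ D ⟶ 𝟙_ T}

theorem nu_add {W Z : T} (x y : W ⟶ D ⊗ Z) : nu ev (x + y) = nu ev x + nu ev y := by
  simp only [nu, MonoidalPreadditive.whiskerLeft_add, Preadditive.add_comp]

theorem nu_sub {W Z : T} (x y : W ⟶ D ⊗ Z) : nu ev (x - y) = nu ev x - nu ev y := by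
  simp only [nu, wl_sub, Preadditive.sub_comp]

theorem nu_zero {W Z : T} : nu ev (0 : W ⟶ D ⊗ Z) = 0 := by
  simp only [nu, MonoidalPreadditive.whiskerLeft_zero, zero_comp]

theorem Good.eq_zero {W Z : T} (h : Good ev Z) (x : W ⟶ D ⊗ Z) (hx : nu ev x = 0) : x = 0 :=
  (h W).1 (hx.trans nu_zero.symm)

theorem good_zero {Z : T} (h : IsZero Z) : Good ev Z := fun _ =>
  ⟨fun x y _ => ((tensorLeft D).map_isZero h).eq_of_tgt x y, fun _ => ⟨0, h.eq_of_tgt _ _⟩⟩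

instance sphEquiv (k : ℤ) : (tensorRight ((𝟙_ T)⟦k⟧)).IsEquivalence :=
  Functor.isEquivalence_of_iso (F := shiftFunctor T k)
    (NatIso.ofComponents (fun X => tensorSph k X) (fun f => tensorSph_naturality k f)).symm

theorem Good.shift {Z : T} (h : Good ev Z) (k : ℤ) : Good ev (Z⟦k⟧) :=
  (h.tensor ((𝟙_ T)⟦k⟧)).of_iso (tensorSph k Z)

theorem Good.ext (Δ : Triangle T) (hΔ : Δ ∈ distTriang T) (h₁ : Good ev Δ.obj₁)
    (h₃ : Good ev Δ.obj₃) : Good ev Δ.obj₂ := by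
  intro W
  have hi := inv_rot_of_distTriang _ hΔ
  have hr := rot_of_distTriang _ hΔ
  have key : ∀ x : W ⟶ D ⊗ Δ.obj₂, nu ev x = 0 → x = 0 := fun x hx => by
    obtain ⟨y, rfl⟩ := exL D Δ hΔ x (h₃.eq_zero _ (by rw [nu_right, hx, zero_comp]))
    rw [nu_right] at hx
    obtain ⟨k, hk, h0⟩ : ∃ k : Δ.obj₃⟦(-1 : ℤ)⟧ ⟶ Δ.obj₁,
        (∃ z, nu ev y = z ≫ k) ∧ k ≫ Δ.mor₁ = 0 :=
      ⟨Δ.invRotate.mor₁, Triangle.coyoneda_exact₂ _ hi (nu ev y) hx,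
        comp_distTriang_mor_zero₁₂ _ hi⟩
    obtain ⟨z, hz⟩ := hk
    obtain ⟨z, rfl⟩ := (h₃.shift (-1) W).2 z
    have hy : y = z ≫ D ◁ k := (h₁ W).1 (hz.trans (nu_right ev z _).symm)
    rw [hy, Category.assoc, ← whiskerLeft_comp, h0, MonoidalPreadditive.whiskerLeft_zero,
      comp_zero]
  refine ⟨fun x y hxy => sub_eq_zero.1 (key _ (by rw [nu_sub, hxy, sub_self])), fun u => ?_⟩
  obtain ⟨a, ha⟩ := (h₃ W).2 (u ≫ Δ.mor₂)
  have ha0 : a ≫ D ◁ Δ.mor₃ = 0 := (h₁.shift 1).eq_zero _ (by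
    rw [nu_right, ha, Category.assoc, comp_distTriang_mor_zero₂₃ _ hΔ, comp_zero])
  obtain ⟨b, hb⟩ : ∃ b : W ⟶ D ⊗ Δ.obj₂, a = b ≫ D ◁ Δ.mor₂ := exL D _ hr a ha0
  obtain ⟨c, hc⟩ := Triangle.coyoneda_exact₂ _ hΔ (u - nu ev b) (by
    rw [Preadditive.sub_comp, ← ha, hb, nu_right, sub_self])
  obtain ⟨c, rfl⟩ := (h₁ W).2 c
  exact ⟨b + c ≫ D ◁ Δ.mor₁, by rw [nu_add, nu_right, ← hc, add_sub_cancel]⟩

theorem good_of_fn (h1 : Good ev (𝟙_ T)) {Z : T} (hZ : Fn Z) : Good ev Z := by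
  induction hZ with
  | zero h => exact good_zero h
  | sphere k => exact h1.shift k
  | ext Δ hΔ _ _ ih₁ ih₃ => exact ih₁.ext Δ hΔ ih₃

theorem good_one [MonoidalClosed T] (Y : T) :
    Good (D := (ihom Y).obj (𝟙_ T)) ((ihom.ev Y).app (𝟙_ T)) (𝟙_ T) := by
  intro W
  refine ⟨fun x y hxy => ?_, fun u => ⟨MonoidalClosed.curry u ≫ (ρ_ _).inv, ?_⟩⟩
  · rw [nu_unit, nu_unit] at hxy
    exact (cancel_mono (ρ_ _).hom).1 (MonoidalClosed.uncurry_injective hxy)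
  · rw [nu_unit, Category.assoc, Iso.inv_hom_id, Category.comp_id]
    exact MonoidalClosed.uncurry_curry u

end DualAux

variable {T : Type u} [Category.{v} T] [Preadditive T] [HasZeroObject T]
    [HasShift T ℤ] [∀ n : ℤ, (shiftFunctor T n).Additive] [Pretriangulated T]
    [MonoidalCategory T] [SymmetricCategory T] [TensorTriangulated T]

/-- ROW DUAL -/
theorem dual [MonoidalClosed T] : DUAL T := fun Y hY => by
  obtain ⟨P⟩ := DualAux.pairing (DualAux.good_one Y) (DualAux.good_of_fn (DualAux.good_one Y) hY)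
  exact ⟨_, ⟨BraidedCategory.exactPairing_swap ((ihom Y).obj (𝟙_ T)) Y⟩⟩

end Vale.Agent.P261Z.Dl
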