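import Vale.Agent.P261Z.T2.DNdr

/-!
# P261, block T2, theorem DELTA: the steps and the strata of the join are finite cell spaces
-/

open CategoryTheory MonoidalCategory Limits Topology OnePoint

set_option linter.unusedSectionVars false

noncomputable section

namespace Vale.Agent.P261Z.Dl

open Vale.Agent.P251 Vale.Agent.P251.G Vale.Agent.P251.G.LC

namespace Fce

theorem proper_of {E E' X Y : Type} [TopologicalSpace E] [TopologicalSpace E'] [T2Space E']
    [TopologicalSpace X] [TopologicalSpace Y] [T2Space Y] [LocallyCompactSpace Y] {K : Set E}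
    (hK : IsCompact K) {j : X → E} (hj : IsInducing j) {k : Y → E'} (hk : IsEmbedding k)
    {φ : E → E'} (hφ : Continuous φ) {a : X → Y} (ha : ∀ x, k (a x) = φ (j x)) (h1 : ∀ x, j x ∈ K)
    (h2 : ∀ z ∈ K, φ z ∈ Set.range k → z ∈ Set.range j) : IsProperMap a := by
  refine isProperMap_iff_isCompact_preimage.2 ⟨hk.continuous_iff.2 ?_, fun C hC => ?_⟩
  · exact (funext ha : k ∘ a = φ ∘ j) ▸ hφ.comp hj.continuous
  · have e : j '' (a ⁻¹' C) = K ∩ φ ⁻¹' (k '' C) := by
      ext z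
      refine ⟨fun ⟨x, hx, e⟩ => e ▸ ⟨h1 x, a x, hx, ha x⟩, fun ⟨hz, y, hy, e⟩ => ?_⟩
      obtain ⟨x, rfl⟩ := h2 z hz ⟨y, e⟩
      exact ⟨x, Set.mem_preimage.2 (hk.injective ((ha x).trans e.symm) ▸ hy), rfl⟩
    rw [hj.isCompact_iff, e]
    exact hK.inter_right ((hC.image hk.continuous).isClosed.preimage hφ)

variable {G : Type} [Group G] [Finite G] {M : ℕ}

instance : CompactSpace (PSet G M) := isCompact_iff_compactSpace.1 (isCompact_PSet G M)

/-- the star -/
def St (y : G → ℝ) : Prop := (∀ g, y g ∈ Set.Icc (0 : ℝ) 1) ∧ ∀ g h, g ≠ h → y g * y h = 0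

theorem mem_P {z : Fin M → G → ℝ} : z ∈ PSet G M ↔ ∀ l, St (z l) :=
  ⟨fun h l => ⟨h.1 l, h.2 l⟩, fun h => ⟨fun l => (h l).1, fun l => (h l).2⟩⟩

theorem St.smul {y : G → ℝ} (h : St y) (t : unitInterval) : St ((t : ℝ) • y) :=
  ⟨fun g => ⟨mul_nonneg t.2.1 (h.1 g).1, mul_le_one₀ t.2.2 (h.1 g).1 (h.1 g).2⟩, fun g k e => by
    rw [Pi.smul_apply, Pi.smul_apply, smul_mul_smul_comm, h.2 g k e, smul_zero]⟩

theorem st_zero : St (0 : G → ℝ) := ⟨fun _ => by simp, fun _ _ _ => by simp⟩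

theorem fc_P : FC (LC.of (PSet G M)) := by
  refine FC.unit.hequiv ⟨point (X := LC.of (PSet G M)) ⟨0, mem_P.2 fun _ => st_zero⟩,
    ofCompact (X := LC.of (PSet G M)) (Y := LC.of Unit) (fun _ => ()) continuous_const,
    .of_eq (hom_ext fun _ => rfl), ofCompact (X := LC.of (PSet G M × unitInterval))
      (Y := LC.of (PSet G M)) (fun x => ⟨(x.2 : ℝ) • x.1.1, mem_P.2 fun l =>
        (mem_P.1 x.1.2 l).smul x.2⟩) (by fun_prop), hom_ext fun z => ?_, hom_ext fun z => ?_⟩
  · exact congrArg OnePoint.some (Subtype.ext (zero_smul ℝ z.1))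
  · exact congrArg OnePoint.some (Subtype.ext (one_smul ℝ z.1))

open Classical in
/-- the end point of the ray with index one -/
def e1 : G → ℝ := Pi.single 1 1

theorem st_e1 : St (e1 : G → ℝ) := by
  classical
  refine ⟨fun g => ?_, fun g h e => ?_⟩
  · by_cases hg : g = 1 <;> simp [e1, hg]
  · by_cases hg : g = 1
    · simp [e1, hg ▸ e.symm]
    · simp [e1, hg]

theorem St.eq_e1 {y : G → ℝ} (h : St y) (h1 : y 1 = 1) : y = e1 := funext fun g => by
  by_cases hg : g = 1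
  · simp [e1, hg, h1]
  · simpa [e1, hg, h1] using h.2 g 1 hg

variable (i : Fin M)

theorem upd_P {z : Fin M → G → ℝ} (hz : z ∈ PSet G M) {y : G → ℝ} (hy : St y) :
    Function.update z i y ∈ PSet G M := mem_P.2 fun l => by
  by_cases h : l = i
  · rw [h, Function.update_self]; exact hy
  · rw [Function.update_of_ne h]; exact mem_P.1 hz l

/-- none of the first coordinates is an end point -/
def Lt (z : Fin M → G → ℝ) : Prop := ∀ l : Fin M, l < i → ∀ g, z l g < 1

theorem lt_upd {z : Fin M → G → ℝ} {y : G → ℝ} : Lt i (Function.update z i y) ↔ Lt i z :=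
  forall₂_congr fun l hl => by rw [Function.update_of_ne hl.ne]

/-- the inclusion of a step in the power of the star -/
abbrev inc : (EG G M i).X ⟶ LC.of (PSet G M) := ofCompact (X := (EG G M i).X)
  (Y := LC.of (PSet G M)) (Set.inclusion fun _ hz => hz.1) (continuous_inclusion _)

theorem mem_cof (z : PSet G M) : z ∈ cofSet (inc i) ↔ Lt i z.1 := by
  change (¬ ∃ y, app (inc i) y = (z : OnePoint (PSet G M))) ↔ _
  refine ⟨fun h l hl g => (z.2.1 l g).2.lt_of_ne fun e =>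
    h ⟨OnePoint.some (X := ESet G M i) ⟨z.1, z.2, l, hl, g, e⟩, rfl⟩, fun h ⟨y, hy⟩ => ?_⟩
  induction y using OnePoint.rec with
  | infty => exact OnePoint.infty_ne_coe _ hy
  | coe y =>
    obtain ⟨y, h1, l, hl, g, e⟩ := y
    obtain rfl : (⟨y, h1⟩ : PSet G M) = z := OnePoint.coe_injective hy
    exact (h l hl g).ne e

theorem hequiv : HEquiv (cof (inc (G := G) i)) (FG G M i) := by
  let j : cof (inc (G := G) i) → Fin M → G → ℝ := fun x => x.1.1
  have hj : IsEmbedding j := IsEmbedding.subtypeVal.comp IsEmbedding.subtypeVal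
  have rj : ∀ z, z ∈ Set.range j ↔ z ∈ PSet G M ∧ Lt i z := fun z =>
    ⟨fun ⟨x, e⟩ => e ▸ ⟨x.1.2, (mem_cof i _).1 x.2⟩,
      fun h => ⟨⟨⟨z, h.1⟩, (mem_cof i _).2 h.2⟩, rfl⟩⟩
  let k : FG G M i → Fin M → G → ℝ := fun x => x.1
  have hk : IsEmbedding k := IsEmbedding.subtypeVal
  let a : cof (inc (G := G) i) → FG G M i := fun x => ⟨Function.update (j x) i e1,
    ⟨upd_P i x.1.2 st_e1, by simp [e1]⟩, (lt_upd i).2 ((mem_cof i _).1 x.2)⟩
  have ha : IsProperMap a := proper_of (isCompact_PSet G M) hj.isInducing hk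
    (φ := fun z => Function.update z i e1) (by fun_prop) (fun _ => rfl) (fun x => x.1.2)
    fun z hz ⟨y, e⟩ => (rj z).2 ⟨hz, (lt_upd (y := e1) i).1 ((congrArg (Lt i) e).mp y.2.2)⟩
  let b : FG G M i → cof (inc (G := G) i) := fun x => ⟨⟨Function.update (k x) i 0,
    upd_P i x.2.1.1 st_zero⟩, (mem_cof i _).2 ((lt_upd i).2 x.2.2)⟩
  have hb : IsProperMap b := proper_of ((isCompact_PSet G M).inter_right
      (isClosed_eq (f := fun z : Fin M → G → ℝ => z i 1) (by fun_prop) (continuous_const (y := 1))))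
    hk.isInducing hj (φ := fun z => Function.update z i 0) (by fun_prop) (fun _ => rfl)
    (fun x => x.2.1) fun z hz e => ⟨⟨z, hz, (lt_upd i).1 ((rj _).1 e).2⟩, rfl⟩
  let H : cof (inc (G := G) i) × unitInterval → cof (inc (G := G) i) := fun x =>
    ⟨⟨Function.update (j x.1) i ((x.2 : ℝ) • j x.1 i),
      upd_P i x.1.1.2 ((mem_P.1 x.1.1.2 i).smul x.2)⟩,
      (mem_cof i _).2 ((lt_upd i).2 ((mem_cof i _).1 x.1.2))⟩
  have hH : IsProperMap H := proper_of ((isCompact_PSet G M).prod isCompact_univ)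
    (hj.prodMap (IsEmbedding.id (X := unitInterval))).isInducing hj
    (φ := fun z => Function.update z.1 i ((z.2 : ℝ) • z.1 i)) (by fun_prop) (fun _ => rfl)
    (fun x => ⟨x.1.1.2, trivial⟩) fun z hz e =>
      let ⟨x, hx⟩ := (rj z.1).2 ⟨hz.1, (lt_upd i).1 ((rj _).1 e).2⟩
      ⟨(x, z.2), Prod.ext hx rfl⟩
  refine ⟨ofIsProper a ha, ofIsProper b hb, ⟨ofIsProper (X := cof (inc (G := G) i) ⊗ II) H hH,
    hom_ext fun x => ?_, hom_ext fun x => ?_⟩, .of_eq (hom_ext fun x => ?_)⟩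
  · exact congrArg OnePoint.some (hj.injective (by simp [j, H, a, b, k]; rfl))
  · exact congrArg OnePoint.some (hj.injective (by simp [j, H]; rfl))
  · exact congrArg OnePoint.some (hk.injective (by
      simp [j, a, b, k, ← (mem_P.1 x.2.1.1 i).eq_e1 x.2.1.2]))

variable (G) in
/-- the point -/
def pt : GSp G where
  X := LC.of Unit
  cont := ⟨fun _ => continuous_of_discreteTopology⟩

end Fce

open Fce

theorem fce (h : NDR) (h' : STRAT) : FCE := by
  intro G _ _ M
  have h1 : ∀ i : Fin M, FC (EG G M i).X → FC (FG G M i) := fun i hi =>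
    (FC.cof (cofib_EP G M i) hi fc_P).hequiv (hequiv i)
  have h2 : ∀ i, i ≤ M → FC (EG G M i).X := by
    intro i hi
    induction i with
    | zero =>
      have : IsEmpty (EG G M 0).X := ⟨fun z => let ⟨_, _, hl, _⟩ := z.2; Nat.not_lt_zero _ hl⟩
      exact FC.of_isEmpty _
    | succ i ih =>
      obtain ⟨k, ⟨ν⟩⟩ := Finite.exists_equiv_fin G
      obtain ⟨s, e, -, -, h3⟩ := h' G M ⟨i, hi⟩ (pt G)
      obtain ⟨u, -⟩ := h3 k ν
      have h4 := ih (Nat.le_of_succ_le hi)
      exact (FC.of_ext ((h G M i).1.whiskerRight (LC.of Unit)) (h4.tensor FC.unit) u.symm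
        (fc_finProd ((h1 ⟨i, hi⟩ h4).tensor FC.unit) k)).of_iso (ρ_ _)
  exact ⟨h2, fun i => h1 i (h2 i i.2.le)⟩

end Vale.Agent.P261Z.Dl
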