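import Vale.Agent.P261Z.T2.DSk

/-!
# P261, block T2, theorem DELTA: the Lefschetz number is the categorical trace
-/

open CategoryTheory MonoidalCategory Limits Pretriangulated MonObj

set_option linter.unusedSectionVars false

noncomputable section

universe v u

namespace Vale.Agent.P261Z.Dl

open Vale.Agent.P251 Vale.Agent.P251.T Vale.Agent.P251.M

namespace Lef

section general

variable {C : Type u} [Category.{v} C] [MonoidalCategory C] [SymmetricCategory C]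

theorem isEquiv {A B : C} (e : A ⊗ B ≅ 𝟙_ C) : (tensorRight A).IsEquivalence :=
  (CategoryTheory.Equivalence.mk (tensorRight A) (tensorRight B)
    ((rightUnitorNatIso C).symm ≪≫ ((tensoringRight C).mapIso e).symm ≪≫ tensorRightTensor A B)
    ((tensorRightTensor B A).symm ≪≫ (tensoringRight C).mapIso (β_ B A ≪≫ e) ≪≫
      rightUnitorNatIso C)).isEquivalence_functor

/-- invertible objects are dualizable -/
theorem exists_pairing {A B : C} (e : A ⊗ B ≅ 𝟙_ C) : Nonempty (ExactPairing A B) := by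
  have := isEquiv e
  obtain ⟨ε⟩ : Nonempty (B ⊗ A ≅ 𝟙_ C) := ⟨β_ B A ≪≫ e⟩
  obtain ⟨c, h⟩ := (tensorRight A).map_surjective (X := 𝟙_ C) (Y := A ⊗ B)
    ((λ_ A).hom ≫ (ρ_ A).inv ≫ A ◁ ε.inv ≫ (α_ A B A).inv)
  have h1 : c ▷ A ≫ (α_ A B A).hom ≫ A ◁ ε.hom = (λ_ A).hom ≫ (ρ_ A).inv := by
    rw [show c ▷ A = _ from h]
    simp
  refine ⟨⟨c, ε.hom, (tensorRight A).map_injective ?_, h1⟩⟩
  rw [← cancel_mono ((α_ (𝟙_ C) B A).hom ≫ 𝟙_ C ◁ ε.hom)]
  calc _ = (α_ B (𝟙_ C) A).hom ≫ B ◁ (c ▷ A ≫ (α_ A B A).hom) ≫ (α_ B A (B ⊗ A)).inv ≫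
        (ε.hom ▷ (B ⊗ A) ≫ 𝟙_ C ◁ ε.hom) := by simp
    _ = (α_ B (𝟙_ C) A).hom ≫ B ◁ (c ▷ A ≫ (α_ A B A).hom ≫ A ◁ ε.hom) ≫
        (α_ B A (𝟙_ C)).inv ≫ ε.hom ▷ 𝟙_ C := by
      rw [← whisker_exchange]
      simp
    _ = _ := by
      rw [h1]
      simp [unitors_inv_equal]

variable [Preadditive C] [MonoidalPreadditive C]

/-- the trace is additive -/
def ctrHom {Y D : C} (P : ExactPairing Y D) : (Y ⟶ Y) →+ (𝟙_ C ⟶ 𝟙_ C) :=
  AddMonoidHom.mk' (ctr P) fun f g => by simp [ctr]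

/-- the dimension of the spheres -/
theorem dim_sph (h : CT C) (s : ℤ → C) (a : ∀ m n, s m ⊗ s n ≅ s (m + n)) (z : s 0 ≅ 𝟙_ C)
    (b : (β_ (s 1) (s 1)).hom = -𝟙 _) (n : ℤ) {D : C} (P : ExactPairing (s n) D) :
    ctr P (𝟙 _) = (n.negOnePow : ℤ) • 𝟙 _ := by
  have p := fun n => (exists_pairing (a n (-n) ≪≫ eqToIso (by rw [add_neg_cancel]) ≪≫ z)).some
  have iso : ∀ {X Y D E : C} (P : ExactPairing X D) (P' : ExactPairing Y E) (_ : X ≅ Y),
      ctr P (𝟙 _) = ctr P' (𝟙 _) := fun P P' e => by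
    simpa using h.cyc P P' e.hom e.inv
  have p2 := fun m n => @exactPairingCongrLeft _ _ _ _ _ _ (p (m + n)) (a m n)
  have mul : ∀ m n, ctr (p (m + n)) (𝟙 _) = ctr (p m) (𝟙 _) ≫ ctr (p n) (𝟙 _) := fun m n => by
    rw [← h.ten _ _ (p2 m n), id_tensorHom_id]
    exact iso _ _ (a m n).symm
  have one : ctr (p 0) (𝟙 _) = 𝟙 _ := (iso _ exactPairingUnit z).trans (h.one _ _)
  have odd : ctr (p 1) (𝟙 _) = -𝟙 _ := by
    have p3 := @exactPairingCongrLeft _ _ _ _ _ _ (p (0 + 1 + 1))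
      (whiskerRightIso (a 0 1) (s 1) ≪≫ a (0 + 1) 1)
    have h1 := h.swap (p 1) (p2 0 1) p3 (𝟙 _) (𝟙 _)
    have h2 := h.ten (p2 0 1) (p 1) p3 (𝟙 _) (𝟙 _)
    have h3 : ctr (p2 0 1) (𝟙 _) = ctr (p 1) (𝟙 _) := iso _ _ (a 0 1)
    have h4 : ctr (p 1) (𝟙 _) ≫ ctr (p (-1)) (𝟙 _) = 𝟙 _ := (mul 1 (-1)).symm.trans one
    have h5 : ctr p3 (-𝟙 _) = -ctr p3 (𝟙 _) := map_neg (ctrHom p3) _
    have h6 : s 0 ◁ (-𝟙 (s 1 ⊗ s 1)) = -𝟙 _ := by
      simpa using (tensorLeft (s 0)).map_neg (f := 𝟙 (s 1 ⊗ s 1))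
    rw [id_tensorHom_id, h3] at h2
    rw [b, h6] at h1
    simp only [id_tensorHom_id, Preadditive.neg_comp, Preadditive.comp_neg, Category.id_comp,
      Iso.hom_inv_id, whiskerLeft_id, h5, h2, h3] at h1
    have h7 := congrArg (· ≫ ctr (p (-1)) (𝟙 _)) h1
    simp only [Preadditive.neg_comp, Category.assoc, h4, Category.comp_id] at h7
    exact neg_eq_iff_eq_neg.1 h7
  rw [iso P (p n) (Iso.refl _)]
  clear P
  induction n with
  | zero => simpa using one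
  | succ n ih => simp [mul, ih, odd, Int.negOnePow_succ]
  | pred n ih =>
    have h1 := mul (-n - 1) 1
    rw [iso _ (p (-n)) (eqToIso (by rw [sub_add_cancel])), ih, odd] at h1
    simpa [Int.negOnePow_sub, neg_eq_iff_eq_neg, eq_comm] using congrArg Neg.neg h1

end general

variable {T : Type u} [Category.{v} T] [Preadditive T] [HasZeroObject T]
    [HasShift T ℤ] [∀ n : ℤ, (shiftFunctor T n).Additive] [Pretriangulated T]
    [MonoidalCategory T] [SymmetricCategory T] [TensorTriangulated T]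

/-- the pairing of the free modules -/
@[reducible] def freeP (Q : T) [MonObj Q] [IsCommMonObj Q] {Y D : T} (P : ExactPairing Y D) :
    ExactPairing ((FM.free Q).obj Y) ((FM.free Q).obj D) where
  coevaluation' := (FM.free Q).map P.coevaluation'
  evaluation' := (FM.free Q).map P.evaluation'
  coevaluation_evaluation' := by
    have := congrArg (FM.free Q).map P.coevaluation_evaluation'
    simp only [Functor.map_comp, ← FM.free_whiskerLeft, ← FM.free_whiskerRight] at this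
    exact this
  evaluation_coevaluation' := by
    have := congrArg (FM.free Q).map P.evaluation_coevaluation'
    simp only [Functor.map_comp, ← FM.free_whiskerLeft, ← FM.free_whiskerRight] at this
    exact this

theorem ctr_free (Q : T) [MonObj Q] [IsCommMonObj Q] {Y D : T} (P : ExactPairing Y D)
    (f : Y ⟶ Y) : ctr (freeP Q P) ((FM.free Q).map f) = (FM.free Q).map (ctr P f) := by
  simp only [ctr, Functor.map_comp, ← FM.free_whiskerRight]
  rfl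

/-- spheres multiply -/
def sphAdd (m n : ℤ) : (𝟙_ T)⟦m⟧ ⊗ (𝟙_ T)⟦n⟧ ≅ (𝟙_ T)⟦m + n⟧ :=
  tensorUnitShiftIso _ n ≪≫ ((shiftFunctorAdd T m n).app _).symm

/-- spheres are invertible -/
def sphInv (n : ℤ) : (𝟙_ T)⟦n⟧ ⊗ (𝟙_ T)⟦-n⟧ ≅ 𝟙_ T :=
  tensorUnitShiftIso _ (-n) ≪≫ shiftShiftNeg _ n

variable (R : RatD T)

theorem sph_zero {k n : ℤ} (h : k ≠ n) (x : (𝟙_ T)⟦k⟧ ⟶ R.Q ⊗ (𝟙_ T)⟦n⟧) : x = 0 := by
  have := isEquiv (sphInv (T := T) n)
  let e := sphAdd (T := T) (k - n) n ≪≫ eqToIso (by rw [sub_add_cancel] :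
    (𝟙_ T)⟦k - n + n⟧ = (𝟙_ T)⟦k⟧)
  obtain ⟨g, hg⟩ := (tensorRight ((𝟙_ T)⟦n⟧)).map_surjective (e.hom ≫ x)
  rw [R.conc _ (sub_ne_zero.2 h) g, Functor.map_zero] at hg
  exact zero_of_epi_comp e.hom hg.symm

/-- the fundamental class -/
def un (n : ℤ) : R.V n ((𝟙_ T)⟦n⟧) := R.hom.symm (FM.unit R.Q _)

theorem sph_span {n : ℤ} (x : R.V n ((𝟙_ T)⟦n⟧)) : ∃ c : ℚ, x = c • un R n := by
  have := isEquiv (sphInv (T := T) n)
  obtain ⟨g, hg⟩ := (tensorRight ((𝟙_ T)⟦n⟧)).map_surjective ((λ_ _).hom ≫ R.hom x)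
  obtain ⟨a, m, hm, e⟩ := R.gen g
  have h1 := congrArg (fun t => (λ_ _).inv ≫ (tensorRight ((𝟙_ T)⟦n⟧)).map t) e
  simp only [Functor.map_zsmul, hg, Preadditive.comp_zsmul, Iso.inv_hom_id_assoc] at h1
  have h2 : (m : ℚ) • x = (a : ℚ) • un R n := by
    rw [Int.cast_smul_eq_zsmul, Int.cast_smul_eq_zsmul]
    exact h1
  exact ⟨(m : ℚ)⁻¹ * a, by rw [mul_smul, ← h2, inv_smul_smul₀ (Int.cast_ne_zero.2 hm)]⟩

/-- the linear extension of a class -/
def ext {n : ℤ} {Y : T} (y : R.V n Y) (k : ℤ) : R.V k ((𝟙_ T)⟦n⟧) →ₗ[ℚ] R.V k Y :=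
  (show R.V k _ →+ R.V k Y from Preadditive.rightComp _ (FM.bind (R.hom y))).toRatLinearMap

theorem ext_un {n : ℤ} {Y : T} (y : R.V n Y) : ext R y n (un R n) = y := FM.unit_bind _

/-- a homology class as a morphism of free modules -/
def km {n : ℤ} {Y : T} : R.V n Y →+ ((FM.free R.Q).obj ((𝟙_ T)⟦n⟧) ⟶ (FM.free R.Q).obj Y) where
  toFun y := ⟨R.hom y⟩
  map_zero' := rfl
  map_add' _ _ := rfl

/-- an endomorphism of the unit as a homology class -/
def cl : (𝟙_ (FM R.Q) ⟶ 𝟙_ (FM R.Q)) →+ R.V 0 (𝟙_ T) where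
  toFun a := R.hom.symm ((shiftFunctorZero T ℤ).hom.app _ ≫ a.hom)
  map_zero' := comp_zero
  map_add' _ _ := Preadditive.comp_add ..

theorem cl_ne : cl R (𝟙 _) ≠ 0 := fun h => by
  have h1 : FM.unit R.Q (𝟙_ T) = 0 := zero_of_epi_comp ((shiftFunctorZero T ℤ).hom.app _) h
  have h2 := congrArg (fun t => (λ_ _).hom ≫ t ≫ (ρ_ _).hom) h1
  refine one_ne_zero (R.inj 1 ?_)
  simpa [FM.unit, unitors_equal] using h2

theorem ctr_sph (h' : CT (FM R.Q)) (n : ℤ) {D : FM R.Q}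
    (P : ExactPairing ((FM.free R.Q).obj ((𝟙_ T)⟦n⟧)) D) (c : ℚ) :
    cl R (ctr P (km R (c • un R n))) = (((n.negOnePow : ℤ) : ℚ) * c) • cl R (𝟙 _) := by
  have h1 := map_rat_smul (((cl R).comp (ctrHom P)).comp (km R)) c (un R n)
  have h2 := dim_sph h' (fun n => (FM.free R.Q).obj ((𝟙_ T)⟦n⟧))
    (fun m n => (FM.free R.Q).mapIso (sphAdd m n))
    ((FM.free R.Q).mapIso ((shiftFunctorZero T ℤ).app _))
    ((congrArg (FM.free R.Q).map TensorTriangulated.sign).trans (by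
      rw [Functor.map_neg, CategoryTheory.Functor.map_id]
      rfl)) n P
  refine h1.trans ?_
  change c • cl R (ctr P (𝟙 _)) = _
  rw [h2, map_zsmul, mul_comm, mul_smul, Int.cast_smul_eq_zsmul]

variable {R} {Y : T} (hY : R.FD Y)

/-- the index set of a homogeneous basis -/
abbrev Ix : Type := Σ n : hY.2.toFinset, Fin (Module.finrank ℚ (R.V n Y))

/-- the basis in degree `n` -/
def bas (n : ℤ) : Module.Basis (Fin (Module.finrank ℚ (R.V n Y))) ℚ (R.V n Y) :=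
  haveI := hY.1 n
  Module.finBasis ℚ _

theorem sum_ext {k : ℤ} (hk : k ∈ hY.2.toFinset) (x : ∀ i : Ix hY, R.V k ((𝟙_ T)⟦(i.1 : ℤ)⟧))
    (j : Fin (Module.finrank ℚ (R.V k Y))) :
    x ⟨⟨k, hk⟩, j⟩ = (bas hY k).repr (∑ i : Ix hY, ext R (bas hY i.1 i.2) k (x i)) j • un R k := by
  choose c hc using fun j => sph_span R (x ⟨⟨k, hk⟩, j⟩)
  rw [Fintype.sum_sigma, Finset.sum_eq_single ⟨k, hk⟩ (fun n _ hn => Finset.sum_eq_zero fun j _ =>
    by rw [show x ⟨n, j⟩ = 0 from sph_zero R (fun e => hn (Subtype.ext e.symm)) _, map_zero])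
    (by simp)]
  simp only [hc, map_smul, ext_un, Module.Basis.repr_sum_self]

variable [IsTriangulated T] [MonoidalClosed T] [HasCoproducts.{0} T] [HasProducts.{0} T]
  [StableCat T]

theorem exists_split : ∃ v : ∀ i : Ix hY, Y ⟶ R.Q ⊗ (𝟙_ T)⟦(i.1 : ℤ)⟧,
    ∑ i, v i ≫ FM.bind (R.hom (bas hY i.1 i.2)) = FM.unit R.Q Y := by
  let Φ : ⨁ (fun i : Ix hY => R.Q ⊗ (𝟙_ T)⟦(i.1 : ℤ)⟧) ⟶ R.Q ⊗ Y :=
    biproduct.desc fun i => FM.bind (R.hom (bas hY i.1 i.2))
  have key : ∀ {A : T} (x : A ⟶ _), x ≫ Φ =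
      ∑ i, (x ≫ biproduct.π _ i) ≫ FM.bind (R.hom (bas hY i.1 i.2)) := fun x => by
    rw [← biproduct.lift_desc]
    congr 1
    ext
    simp
  have : IsIso Φ := by
    refine isIso_of_bijective_hom (fun k => (𝟙_ T)⟦k⟧)
      (fun k k' h => ⟨((shiftFunctorAdd' T k 1 k' h).app (𝟙_ T)).symm⟩)
      (fun X hX => StableCat.generator X hX) Φ (fun k x hx => ?_) fun k y => ?_
    · refine biproduct.hom_ext _ _ fun ⟨⟨n, hn⟩, j⟩ => ?_
      rw [zero_comp]
      by_cases e : k = n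
      · subst e
        have h := sum_ext hY hn (fun i => x ≫ biproduct.π _ i) j
        rw [show (∑ i : Ix hY, ext R (bas hY i.1 i.2) k (x ≫ biproduct.π _ i)) = 0 from
          (key x).symm.trans hx, map_zero, Finsupp.zero_apply, zero_smul] at h
        exact h
      · exact sph_zero R e _
    · by_cases hk : k ∈ hY.2.toFinset
      · refine ⟨∑ j, R.hom ((bas hY k).repr y j • un R k) ≫
          biproduct.ι (fun i : Ix hY => R.Q ⊗ (𝟙_ T)⟦(i.1 : ℤ)⟧) ⟨⟨k, hk⟩, j⟩, ?_⟩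
        have h : ∑ j, ext R (bas hY k j) k ((bas hY k).repr y j • un R k) = y := by
          simp only [map_smul, ext_un]
          exact (bas hY k).sum_repr _
        simp only [Φ, Preadditive.sum_comp, Category.assoc, biproduct.ι_desc]
        exact h
      · have : Subsingleton (R.V k Y) := not_nontrivial_iff_subsingleton.1 (by simpa using hk)
        exact ⟨0, Subsingleton.elim (α := R.V k Y) _ _⟩
  exact ⟨fun i => (FM.unit R.Q Y ≫ inv Φ) ≫ biproduct.π _ i, (key _).symm.trans (by simp)⟩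

end Lef

open Lef in
/-- ROW LEF -/
theorem lef_eq {T : Type u} [Category.{v} T] [Preadditive T] [HasZeroObject T]
    [HasShift T ℤ] [∀ n : ℤ, (shiftFunctor T n).Additive] [Pretriangulated T]
    [MonoidalCategory T] [SymmetricCategory T] [TensorTriangulated T]
    [IsTriangulated T] [MonoidalClosed T] [HasCoproducts.{0} T] [HasProducts.{0} T]
    [StableCat T] (R : RatD T) (_h : CT T) (h' : CT (M.FM R.Q)) : LEF R := by
  intro Y D P hY f m hm
  obtain ⟨v, hv⟩ := exists_split hY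
  let F := (FM.free R.Q).map f
  let v' : ∀ i : Ix hY, (FM.free R.Q).obj Y ⟶ (FM.free R.Q).obj ((𝟙_ T)⟦(i.1 : ℤ)⟧) :=
    fun i => ⟨v i⟩
  let ev : ((FM.free R.Q).obj Y ⟶ (FM.free R.Q).obj Y) →+ (Y ⟶ R.Q ⊗ Y) :=
    AddMonoidHom.mk' FM.Hom.hom fun _ _ => rfl
  have h1 : ∑ i, v' i ≫ km R (bas hY i.1 i.2) = 𝟙 _ :=
    FM.hom_ext ((map_sum ev _ _).trans hv)
  have h2 : ∀ (k : ℤ) (hk : k ∈ hY.2.toFinset) (w : R.V k Y) j,
      km R w ≫ v' ⟨⟨k, hk⟩, j⟩ = km R ((bas hY k).repr w j • un R k) := fun k hk w j => by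
    have h3 := sum_ext hY hk (fun i => (km R w ≫ v' i).hom) j
    let ev' : ((FM.free R.Q).obj ((𝟙_ T)⟦k⟧) ⟶ (FM.free R.Q).obj Y) →+ R.V k Y :=
      AddMonoidHom.mk' FM.Hom.hom fun _ _ => rfl
    have h4 : ∑ i, (km R w ≫ v' i) ≫ km R (bas hY i.1 i.2) = km R w := by
      simp only [Category.assoc, ← Preadditive.comp_sum, h1, Category.comp_id]
    rw [show (∑ i : Ix hY, ext R (bas hY i.1 i.2) k (km R w ≫ v' i).hom) = w from
      (map_sum ev' _ _).symm.trans (congrArg ev' h4)] at h3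
    exact FM.hom_ext h3
  have p : ∀ n : ℤ, ExactPairing ((FM.free R.Q).obj ((𝟙_ T)⟦n⟧)) ((FM.free R.Q).obj ((𝟙_ T)⟦-n⟧)) :=
    fun n => (exists_pairing ((FM.free R.Q).mapIso (sphInv n))).some
  have h5 : ∀ i : Ix hY, cl R (ctr (freeP R.Q P) (F ≫ v' i ≫ km R (bas hY i.1 i.2))) =
      ((((i.1 : ℤ).negOnePow : ℤ) : ℚ) * (bas hY i.1).repr (R.Vm i.1 f (bas hY i.1 i.2)) i.2) •
        cl R (𝟙 _) := fun ⟨⟨k, hk⟩, j⟩ => by
    dsimp only
    rw [← Category.assoc, h'.cyc _ (p k), ← Category.assoc,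
      show km R (bas hY k j) ≫ F = km R (R.Vm k f (bas hY k j)) from
        FM.hom_ext (FM.comp_free_map_hom _ _), h2, ctr_sph R h']
  have h6 := map_sum ((cl R).comp (ctrHom (freeP R.Q P)))
    (fun i : Ix hY => F ≫ v' i ≫ km R (bas hY i.1 i.2)) Finset.univ
  rw [← Preadditive.comp_sum, h1, Category.comp_id] at h6
  have h7 : cl R (ctr (freeP R.Q P) F) = (m : ℚ) • cl R (𝟙 _) := by
    rw [ctr_free, hm, Functor.map_zsmul, CategoryTheory.Functor.map_id, Int.cast_smul_eq_zsmul,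
      ← map_zsmul]
    rfl
  have h8 := (h7.symm.trans h6).trans ((Finset.sum_congr rfl fun i _ => h5 i).trans
    (Finset.sum_smul ..).symm)
  rw [smul_left_injective ℚ (cl_ne R) h8, RatD.lef,
    finsum_eq_sum_of_support_subset (s := hY.2.toFinset), ← Finset.sum_coe_sort, Fintype.sum_sigma]
  · refine Finset.sum_congr rfl fun n _ => ?_
    rw [LinearMap.trace_eq_matrix_trace ℚ (bas hY n), Matrix.trace, Finset.mul_sum]
    simp only [Matrix.diag_apply, LinearMap.toMatrix_apply]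
  · intro n hn
    by_contra hk
    have : Subsingleton (R.V n Y) := not_nontrivial_iff_subsingleton.1 (by simpa using hk)
    exact hn (by simp [Subsingleton.elim (R.Vm n f) 0])

end Vale.Agent.P261Z.Dl
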