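import Vale.Agent.P261Z.T2.DSk
import Vale.Agent.P251.S.Conv6

/-!
# P261, block T2, theorem DELTA: rational homology and the Lefschetz number
-/

open CategoryTheory MonoidalCategory Limits Pretriangulated MonObj

set_option linter.unusedSectionVars false

noncomputable section

universe v u

namespace Vale.Agent.P261Z.Dl

open Vale.Agent.P251 Vale.Agent.P251.T Vale.Agent.P251.S

variable {T : Type u} [Category.{v} T] [Preadditive T] [HasZeroObject T]
    [HasShift T ℤ] [∀ n : ℤ, (shiftFunctor T n).Additive] [Pretriangulated T]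
    [MonoidalCategory T] [SymmetricCategory T] [TensorTriangulated T]

namespace RatD

variable (R : RatD T)

/-- the suspension map in homology -/
def shA (k n m : ℤ) (h : n + k = m) (Y : T) : R.V n Y →+ R.V m (Y⟦k⟧) where
  toFun x := R.hom.symm ((shiftFunctorAdd' T n k m h).hom.app (𝟙_ T) ≫ (R.hom x)⟦k⟧' ≫
    (tshI R.Q Y k).hom)
  map_zero' := by simp
  map_add' x y := by simp [Preadditive.add_comp, Preadditive.comp_add]

theorem hom_shA (k n m : ℤ) (h : n + k = m) (Y : T) (x : R.V n Y) : R.hom (R.shA k n m h Y x) =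
    (shiftFunctorAdd' T n k m h).hom.app (𝟙_ T) ≫ (R.hom x)⟦k⟧' ≫ (tshI R.Q Y k).hom := rfl

theorem shA_bij (k n m : ℤ) (h : n + k = m) (Y : T) : Function.Bijective (R.shA k n m h Y) := by
  refine ⟨fun x y e => ?_, fun y => ⟨R.hom.symm ((shiftFunctor T k).preimage
    ((shiftFunctorAdd' T n k m h).inv.app (𝟙_ T) ≫ R.hom y ≫ (tshI R.Q Y k).inv)), ?_⟩⟩
  · have := congrArg R.hom e
    rw [hom_shA, hom_shA, cancel_epi, cancel_mono] at this
    exact R.hom.injective ((shiftFunctor T k).map_injective this)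
  · apply R.hom.injective
    rw [hom_shA]
    simp

/-- the suspension isomorphism in homology -/
def sh (k n m : ℤ) (h : n + k = m) (Y : T) : R.V n Y ≃ₗ[ℚ] R.V m (Y⟦k⟧) :=
  LinearEquiv.ofBijective (R.shA k n m h Y).toRatLinearMap (R.shA_bij k n m h Y)

theorem sh_nat (k n m : ℤ) (h : n + k = m) {Y Z : T} (f : Y ⟶ Z) (x : R.V n Y) :
    R.sh k n m h Z (R.Vm n f x) = R.Vm m (f⟦k⟧') (R.sh k n m h Y x) := by
  apply R.hom.injective
  rw [hom_Vm]
  change R.hom (R.shA k n m h Z _) = R.hom (R.shA k n m h Y _) ≫ _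
  rw [hom_shA, hom_shA, hom_Vm, Functor.map_comp, Category.assoc, Category.assoc, Category.assoc,
    tshI_nat]

theorem sh_nat' (k n m : ℤ) (h : n + k = m) {Y Z : T} (f : Y ⟶ Z) (x : R.V m (Y⟦k⟧)) :
    (R.sh k n m h Z).symm (R.Vm m (f⟦k⟧') x) = R.Vm n f ((R.sh k n m h Y).symm x) := by
  rw [LinearEquiv.symm_apply_eq, sh_nat, LinearEquiv.apply_symm_apply]

theorem Vm_comp_apply (n : ℤ) {X Y Z : T} (f : X ⟶ Y) (g : Y ⟶ Z) (x : R.V n X) :
    R.Vm n g (R.Vm n f x) = R.Vm n (f ≫ g) x := by rw [Vm_comp, LinearMap.comp_apply]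

/-- the connecting map -/
def bd (n m : ℤ) (e : n + 1 = m) {X Z : T} (h : Z ⟶ X⟦(1 : ℤ)⟧) : R.V m Z →ₗ[ℚ] R.V n X :=
  (R.sh 1 n m e X).symm.toLinearMap ∘ₗ R.Vm m h

theorem bd_apply (n m : ℤ) (e : n + 1 = m) {X Z : T} (h : Z ⟶ X⟦(1 : ℤ)⟧) (z : R.V m Z) :
    R.bd n m e h z = (R.sh 1 n m e X).symm (R.Vm m h z) := rfl

theorem bd_nat (n m : ℤ) (e : n + 1 = m) {X Z X' Z' : T} {h : Z ⟶ X⟦(1 : ℤ)⟧}
    {h' : Z' ⟶ X'⟦(1 : ℤ)⟧} {a : X ⟶ X'} {c : Z ⟶ Z'} (w : h ≫ a⟦(1 : ℤ)⟧' = c ≫ h') :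
    R.bd n m e h' ∘ₗ R.Vm m c = R.Vm n a ∘ₗ R.bd n m e h := by
  ext z
  rw [LinearMap.comp_apply, LinearMap.comp_apply, bd_apply, bd_apply, ← sh_nat', Vm_comp_apply,
    Vm_comp_apply, w]

section les

variable {X Y Z : T} {f : X ⟶ Y} {g : Y ⟶ Z} {h : Z ⟶ X⟦(1 : ℤ)⟧}
  (hΔ : Triangle.mk f g h ∈ distTriang T)

include hΔ

theorem exact₂ (n : ℤ) : Function.Exact (R.Vm n f) (R.Vm n g) := fun y =>
  ⟨fun hy => let ⟨b, hb⟩ := exL₂ hΔ R.Q (R.hom y) (congrArg R.hom hy); ⟨R.hom.symm b, hb.symm⟩,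
    fun ⟨x, hx⟩ => by
      rw [← hx, Vm_comp_apply, show f ≫ g = 0 from comp_distTriang_mor_zero₁₂ _ hΔ, Vm_zero,
        LinearMap.zero_apply]⟩

theorem exact₃ (n m : ℤ) (e : n + 1 = m) : Function.Exact (R.Vm m g) (R.bd n m e h) := fun z => by
  rw [bd_apply, LinearEquiv.map_eq_zero_iff]
  exact R.exact₂ (rot_of_distTriang _ hΔ) m z

theorem exact₁ (n m : ℤ) (e : n + 1 = m) : Function.Exact (R.bd n m e h) (R.Vm n f) := fun x => by
  obtain ⟨x, rfl⟩ := (R.sh 1 n m e X).symm.surjective x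
  rw [← sh_nat', LinearEquiv.map_eq_zero_iff]
  refine ⟨fun hx => ?_, fun ⟨z, hz⟩ => ?_⟩
  · obtain ⟨b, hb⟩ := exL₁ hΔ R.Q (R.hom x) (congrArg R.hom hx)
    exact ⟨R.hom.symm b, congrArg _ hb.symm⟩
  · rw [← (R.sh 1 n m e X).symm.injective hz, Vm_comp_apply,
      show h ≫ f⟦(1 : ℤ)⟧' = 0 from comp_distTriang_mor_zero₃₁ _ hΔ, Vm_zero, LinearMap.zero_apply]

theorem FD.ext (h₁ : R.FD X) (h₃ : R.FD Z) : R.FD Y := by
  refine ⟨fun n => ?_, (h₁.2.union h₃.2).subset fun n hn => ?_⟩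
  · have := h₁.1 n
    have := h₃.1 n
    have : Module.Finite ℚ (LinearMap.ker (R.Vm n g)) := by
      rw [(R.exact₂ hΔ n).linearMap_ker_eq]
      infer_instance
    have := Module.Finite.equiv (LinearMap.quotKerEquivRange (R.Vm n g)).symm
    exact Module.Finite.of_submodule_quotient (LinearMap.ker (R.Vm n g))
  · by_contra hc
    simp only [Set.mem_union, Set.mem_ofPred_eq, not_or, not_nontrivial_iff_subsingleton] at hc
    obtain ⟨h1, h3⟩ := hc
    refine not_subsingleton_iff_nontrivial.2 hn (subsingleton_of_forall_eq 0 fun y => ?_)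
    obtain ⟨x, rfl⟩ := (R.exact₂ hΔ n y).1 (Subsingleton.elim _ _)
    rw [Subsingleton.elim x 0, map_zero]

end les

theorem FD.shift {Y : T} (h : R.FD Y) (k : ℤ) : R.FD (Y⟦k⟧) := by
  refine ⟨fun m => ?_, (h.2.image (· + k)).subset fun m hm => ⟨m - k, ?_, sub_add_cancel m k⟩⟩
  · have := h.1 (m - k)
    exact Module.Finite.equiv (R.sh k (m - k) m (sub_add_cancel m k) Y)
  · exact (R.sh k (m - k) m (sub_add_cancel m k) Y).toEquiv.nontrivial_congr.2 hm

theorem sub_one {n : ℤ} (hn : n ≠ 0) : Subsingleton (R.V n (𝟙_ T)) :=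
  subsingleton_of_forall_eq 0 fun x => R.hom.injective (by
    rw [map_zero, ← cancel_mono (ρ_ R.Q).hom, R.conc n hn (_ ≫ _), zero_comp])

theorem finrank_one : Module.finrank ℚ (R.V 0 (𝟙_ T)) = 1 := by
  let ε := (shiftFunctorZero T ℤ).app (𝟙_ T)
  refine finrank_eq_one (R.hom.symm (ε.hom ≫ η[R.Q] ≫ (ρ_ R.Q).inv)) (fun h => ?_) fun x => ?_
  · have h1 : ε.hom ≫ η[R.Q] ≫ (ρ_ R.Q).inv = 0 := by simpa using congrArg R.hom h
    rw [← cancel_epi ε.inv, ← cancel_mono (ρ_ R.Q).hom] at h1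
    exact one_ne_zero (R.inj 1 (by simpa using h1))
  · obtain ⟨a, m, hm, e⟩ := R.gen (ε.inv ≫ R.hom x ≫ (ρ_ R.Q).hom)
    refine ⟨(a : ℚ) / m, smul_right_injective _ (Int.cast_ne_zero (α := ℚ).2 hm) ?_⟩
    have e' := congrArg (fun y => ε.hom ≫ y ≫ (ρ_ R.Q).inv) e
    simp only [smul_smul, mul_div_cancel₀ _ (Int.cast_ne_zero (α := ℚ).2 hm),
      Int.cast_smul_eq_zsmul]
    apply R.hom.injective
    rw [map_zsmul, map_zsmul, AddEquiv.apply_symm_apply]
    simpa using e'.symm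

theorem fd_one : R.FD (𝟙_ T) := by
  refine ⟨fun n => ?_, (Set.finite_singleton 0).subset fun n hn => ?_⟩
  · by_cases hn : n = 0
    · subst hn
      exact Module.finite_of_finrank_eq_succ R.finrank_one
    · have := R.sub_one hn
      infer_instance
  · by_contra h0
    exact not_subsingleton_iff_nontrivial.2 hn (R.sub_one h0)

theorem fd_zero {Z : T} (h : IsZero Z) : R.FD Z := by
  have h1 : ∀ n, Subsingleton (R.V n Z) := fun n => subsingleton_of_forall_eq 0 fun x =>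
    R.hom.injective (((tensorLeft R.Q).map_isZero h).eq_of_tgt _ _)
  exact ⟨fun n => inferInstance, Set.finite_empty.subset fun n hn =>
    not_subsingleton_iff_nontrivial.2 hn (h1 n)⟩

theorem fd_of_fn {Y : T} (h : Fn Y) : R.FD Y := by
  induction h with
  | zero h => exact R.fd_zero h
  | sphere k => exact FD.shift R R.fd_one k
  | ext Δ hΔ _ _ h₁ h₃ => exact FD.ext R hΔ h₁ h₃

theorem FD.supp {Y : T} (h : R.FD Y) {φ : ℤ → ℚ} (hφ : ∀ n, Subsingleton (R.V n Y) → φ n = 0) :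
    (Function.support fun n : ℤ => ((n.negOnePow : ℤ) : ℚ) * φ n).Finite :=
  h.2.subset fun n hn => not_subsingleton_iff_nontrivial.1 fun hs => hn (by
    simp only [hφ n hs, mul_zero])

theorem FD.supp' {Y : T} (h : R.FD Y) (f : Y ⟶ Y) : (Function.support fun n : ℤ =>
    ((n.negOnePow : ℤ) : ℚ) * LinearMap.trace ℚ (R.V n Y) (R.Vm n f)).Finite :=
  FD.supp R h fun n _ => by rw [Subsingleton.elim (R.Vm n f) 0, map_zero]

theorem trace_sh (k n m : ℤ) (h : n + k = m) {Y : T} (f : Y ⟶ Y) :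
    LinearMap.trace ℚ _ (R.Vm m (f⟦k⟧')) = LinearMap.trace ℚ _ (R.Vm n f) := by
  rw [← LinearMap.trace_conj' (R.Vm n f) (R.sh k n m h Y)]
  congr 1
  ext x
  rw [LinearEquiv.conj_apply_apply, sh_nat, LinearEquiv.apply_symm_apply]

theorem lef_shift {Y : T} (h : R.FD Y) (f : Y ⟶ Y) (k : ℤ) :
    R.lef (f⟦k⟧') = ((k.negOnePow : ℤ) : ℚ) * R.lef f := by
  rw [lef, lef, mul_finsum' _ _ (FD.supp' R h f), ← finsum_comp_equiv (Equiv.addRight k)]
  refine finsum_congr fun n => ?_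
  rw [Equiv.coe_addRight, Int.negOnePow_add, ← R.trace_sh k n (n + k) rfl f, Units.val_mul,
    Int.cast_mul]
  ring

end RatD

theorem lin1 (R : RatD T) : LIN1 R where
  fd := R.fd_of_fn
  add h f g := by
    simp only [RatD.lef, R.Vm_add, map_add, mul_add]
    exact finsum_add_distrib (RatD.FD.supp' R h f) (RatD.FD.supp' R h g)
  cyc hX hY a b := finsum_congr fun n => by
    have := hX.1 n
    have := hY.1 n
    rw [R.Vm_comp, R.Vm_comp, LinearMap.trace_comp_comm']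
  shift := R.lef_shift
  one := by
    rw [RatD.lef, finsum_eq_single _ 0 fun n hn => ?_]
    · have := R.fd_one.1 0
      rw [R.Vm_id, LinearMap.trace_id, R.finrank_one]
      simp
    · have := R.sub_one hn
      rw [Subsingleton.elim (R.Vm n _) 0, map_zero, mul_zero]

end Vale.Agent.P261Z.Dl
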