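import Vale.Agent.P261Z.T2.DLin1

/-!
# P261, block T2, theorem DELTA: additivity of the Lefschetz number
-/

open CategoryTheory MonoidalCategory Limits Pretriangulated MonObj

set_option linter.unusedSectionVars false

noncomputable section

universe v u

namespace Vale.Agent.P261Z.Dl

open Vale.Agent.P251 Vale.Agent.P251.T Vale.Agent.P251.S

namespace Lin2

variable {A B : Type v} [AddCommGroup A] [Module ℚ A] [AddCommGroup B] [Module ℚ B]

open Classical in
/-- the trace on an invariant subspace -/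
def tro (U : Submodule ℚ A) (a : A →ₗ[ℚ] A) : ℚ :=
  if h : ∀ x ∈ U, a x ∈ U then LinearMap.trace ℚ U (a.restrict h) else 0

theorem tro_zero [Subsingleton A] (U : Submodule ℚ A) (a : A →ₗ[ℚ] A) : tro U a = 0 := by
  rw [tro]
  split_ifs with h
  · rw [Subsingleton.elim (a.restrict h) 0, map_zero]
  · rfl

theorem key [Module.Finite ℚ A] (f : A →ₗ[ℚ] B) (a : A →ₗ[ℚ] A) (b : B →ₗ[ℚ] B)
    (w : f ∘ₗ a = b ∘ₗ f) :
    LinearMap.trace ℚ A a = tro (LinearMap.ker f) a + tro (LinearMap.range f) b := by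
  have w' : ∀ x, f (a x) = b (f x) := fun x => LinearMap.congr_fun w x
  have h1 : ∀ x ∈ LinearMap.ker f, a x ∈ LinearMap.ker f := fun x hx => by
    rw [LinearMap.mem_ker] at hx ⊢
    rw [w', hx, map_zero]
  have h2 : ∀ y ∈ LinearMap.range f, b y ∈ LinearMap.range f := by
    rintro _ ⟨x, rfl⟩
    exact ⟨a x, w' x⟩
  obtain ⟨s, hs⟩ := f.rangeRestrict.exists_rightInverse_of_surjective f.range_rangeRestrict
  have hs' : ∀ y, f (s y) = y := fun y => congrArg Subtype.val (LinearMap.congr_fun hs y)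
  let π : A →ₗ[ℚ] LinearMap.ker f := (LinearMap.id - s ∘ₗ f.rangeRestrict).codRestrict _
    fun x => by simp [hs']
  have e : a = (a ∘ₗ (LinearMap.ker f).subtype) ∘ₗ π + (a ∘ₗ s) ∘ₗ f.rangeRestrict := by
    ext x
    simp [π]
  rw [tro, tro, dif_pos h1, dif_pos h2]
  conv_lhs => rw [e, map_add, LinearMap.trace_comp_comm' π,
    LinearMap.trace_comp_comm' f.rangeRestrict]
  congr 2
  · ext x
    have : f.rangeRestrict (a x) = 0 := Subtype.ext (h1 x x.2)
    simp [π, this]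
  · ext y
    simp [w', hs']

end Lin2

variable {T : Type u} [Category.{v} T] [Preadditive T] [HasZeroObject T]
    [HasShift T ℤ] [∀ n : ℤ, (shiftFunctor T n).Additive] [Pretriangulated T]
    [MonoidalCategory T] [SymmetricCategory T] [TensorTriangulated T]

open Lin2 LinearMap in
theorem lin2 (R : RatD T) : LIN2 R := by
  intro X Y Z f g h hΔ hX hY hZ a b c w
  let α : ℤ → ℚ := fun n => tro (range (R.Vm n f)) (R.Vm n b)
  let β : ℤ → ℚ := fun n => tro (range (R.Vm n g)) (R.Vm n c)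
  let ga : ℤ → ℚ := fun n => tro (range (R.bd n (n + 1) rfl h)) (R.Vm n a)
  have ea : ∀ n, trace ℚ _ (R.Vm n a) = ga n + α n := fun n => by
    have := hX.1 n
    rw [key (R.Vm n f) (R.Vm n a) (R.Vm n b) (by rw [← R.Vm_comp, ← R.Vm_comp, w.w₁]),
      (R.exact₁ hΔ n (n + 1) rfl).linearMap_ker_eq]
  have eb : ∀ n, trace ℚ _ (R.Vm n b) = α n + β n := fun n => by
    have := hY.1 n
    rw [key (R.Vm n g) (R.Vm n b) (R.Vm n c) (by rw [← R.Vm_comp, ← R.Vm_comp, w.w₂]),
      (R.exact₂ hΔ n).linearMap_ker_eq]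
  have ec : ∀ n, trace ℚ _ (R.Vm (n + 1) c) = β (n + 1) + ga n := fun n => by
    have := hZ.1 (n + 1)
    rw [key (R.bd n (n + 1) rfl h) (R.Vm (n + 1) c) (R.Vm n a) (R.bd_nat _ _ _ w.w₃),
      (R.exact₃ hΔ n (n + 1) rfl).linearMap_ker_eq]
  have sα := RatD.FD.supp R hY (φ := α) fun n _ => tro_zero _ _
  have sβ := RatD.FD.supp R hZ (φ := β) fun n _ => tro_zero _ _
  have sga := RatD.FD.supp R hX (φ := ga) fun n _ => tro_zero _ _
  have sβ' : (Function.support fun n : ℤ => (((n + 1).negOnePow : ℤ) : ℚ) * β (n + 1)).Finite :=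
    sβ.preimage (f := (· + 1)) (add_left_injective 1).injOn
  have e1 : ∀ n : ℤ, (((n + 1).negOnePow : ℤ) : ℚ) * ga n = -(((n.negOnePow : ℤ) : ℚ) * ga n) :=
    fun n => by simp [Int.negOnePow_succ]
  have sft : ∀ φ : ℤ → ℚ, ∑ᶠ n, φ n = ∑ᶠ n, φ (n + 1) := fun φ =>
    (finsum_comp_equiv (Equiv.addRight 1)).symm
  rw [RatD.lef, RatD.lef, RatD.lef, sft fun n : ℤ => ((n.negOnePow : ℤ) : ℚ) * trace ℚ _ (R.Vm n c)]
  simp only [ea, eb, ec, mul_add, e1]
  rw [finsum_add_distrib sα sβ, finsum_add_distrib sga sα, finsum_add_distrib sβ' (by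
    simpa [Function.HasFiniteSupport] using sga), finsum_neg_distrib,
    sft fun n : ℤ => ((n.negOnePow : ℤ) : ℚ) * β n]
  ring

end Vale.Agent.P261Z.Dl
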