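import Vale.Agent.P261Z.T2.CS

/-!
# P261, part T2: spaces whose diagonal is a cofibration

`LEC X` is closed under isomorphisms, tensor products and mapping cones.
-/

open CategoryTheory MonoidalCategory OnePoint Topology Filter

namespace Vale.Agent.P261Z.T2

open Vale.Agent.P251.G Vale.Agent.P251.G.LC

variable {A B X Y : LC}

theorem injective_ofClosed' (f : A → B) (hf : IsClosedEmbedding f) :
    Function.Injective (app (ofClosed f hf)) := injective_app_ofClosed f hf

theorem rg_ofClosed (f : A → B) (hf : IsClosedEmbedding f) : rg (ofClosed f hf) = Set.range f :=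
  Set.ext fun y => coe_mem_range_app_ofClosed f hf y

theorem isClosedEmbedding_diag (X : LC) : IsClosedEmbedding fun x : X => ((x, x) : X × X) :=
  Function.LeftInverse.isClosedEmbedding (f := Prod.fst) (fun _ => rfl) continuous_fst
    (continuous_id.prodMk continuous_id)

/-- the diagonal -/
def diag (X : LC) : X ⟶ X ⊗ X := ofClosed (Y := X ⊗ X) _ (isClosedEmbedding_diag X)

theorem rg_diag (X : LC) : rg (diag X) = {p : X × X | p.1 = p.2} := by
  rw [diag, rg_ofClosed]
  ext p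
  exact ⟨fun ⟨x, hx⟩ => hx ▸ rfl, fun h => ⟨p.1, Prod.ext rfl h⟩⟩

/-- The diagonal is a cofibration. -/
def LEC (X : LC) : Prop := Cofib (diag X)

theorem lec_iff : LEC X ↔ CS (Z := X ⊗ X) {p : X × X | p.1 = p.2} Set.univ :=
  ⟨fun h => rg_diag X ▸ CS.of_cofib h,
    fun h => CS.cofib (injective_ofClosed' _ _) ((rg_diag X).symm ▸ h)⟩

theorem isClosed_diagSet (X : LC) : IsClosed {p : X × X | p.1 = p.2} :=
  isClosed_eq continuous_fst continuous_snd

theorem app_diag (X : LC) (x : OnePoint X) : app (diag X) x = smash x x := by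
  induction x using OnePoint.rec with
  | infty => exact app_infty _
  | coe x => rfl

theorem diag_naturality (f : X ⟶ Y) : diag X ≫ (f ⊗ₘ f) = f ≫ diag Y :=
  app_ext fun x => by rw [app_comp, app_comp, app_diag, app_diag, app_tensorHom_smash]

theorem LEC.of_iso (h : LEC X) (e : X ≅ Y) : LEC Y := by
  have h1 : diag Y = e.inv ≫ diag X ≫ (e ⊗ᵢ e).hom := by
    rw [tensorIso_hom, diag_naturality, Iso.inv_hom_id_assoc]
  rw [LEC, h1]
  exact (Cofib.comp_iso h (e ⊗ᵢ e)).iso_comp e.symm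

theorem lec_of_subsingleton (X : LC) [Subsingleton X] : LEC X := by
  rw [lec_iff]
  have h : {p : X × X | p.1 = p.2} = Set.univ :=
    Set.eq_univ_of_forall fun _ => Subsingleton.elim _ _
  rw [h]
  have h1 := CS.of_cofib (cofib_id (X ⊗ X))
  rwa [rg_id] at h1

theorem LEC.tensor (hX : LEC X) (hY : LEC Y) : LEC (X ⊗ Y) := by
  have h1 : Cofib (diag X ▷ Y ≫ (X ⊗ X) ◁ diag Y) :=
    (Cofib.whiskerRight hX Y).comp (Cofib.whiskerLeft hY (X ⊗ X))
  let e : (X ⊗ X) ⊗ (Y ⊗ Y) ≅ (X ⊗ Y) ⊗ (X ⊗ Y) :=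
    ofHomeo (X := (X ⊗ X) ⊗ (Y ⊗ Y)) (Y := (X ⊗ Y) ⊗ (X ⊗ Y)) (Homeomorph.prodProdProdComm X X Y Y)
  have h2 : diag (X ⊗ Y) = (diag X ▷ Y ≫ (X ⊗ X) ◁ diag Y) ≫ e.hom := hom_ext fun _ => rfl
  rw [LEC, h2]
  exact h1.comp_iso e

theorem smash_eq_coe {U V : Type} {x : OnePoint U} {y : OnePoint V} {z : U × V}
    (h : smash x y = (z : OnePoint (U × V))) : x = z.1 ∧ y = z.2 := by
  have h1 : smash x y = smash (z.1 : OnePoint U) (z.2 : OnePoint V) := h
  rcases smash_inj h1 with h2 | h2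
  · exact h2
  · exact absurd h2.2 (OnePoint.coe_ne_infty _)

theorem exists_coe {j : A ⟶ B} (hj : Function.Injective (app j)) (a : A) :
    ∃ b : B, app j a = b := by
  have h : app j a ≠ ∞ := fun h => OnePoint.coe_ne_infty _ (eq_infty_of_app_eq_infty hj h)
  obtain ⟨b, hb⟩ := OnePoint.ne_infty_iff_exists.1 h
  exact ⟨b, hb.symm⟩

theorem rg_whiskerRight (j : A ⟶ B) (X : LC) :
    rg (j ▷ X) = {p : B × X | p.1 ∈ rg j} := by
  ext p
  refine ⟨fun h => ?_, fun ⟨a, ha⟩ => ⟨smash a (p.2 : OnePoint X), ?_⟩⟩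
  · obtain ⟨a, ha⟩ := mem_rg.1 h
    exact ⟨a.1, (smash_eq_coe ha).1⟩
  · rw [app_whiskerRight_smash, ha]
    rfl

/-- The diagonal together with the products with a subspace. -/
theorem cs_fat {j : Y ⟶ X} (hj : Cofib j) (hY : LEC Y) :
    CS (Z := X ⊗ X) {p : X × X | p.1 = p.2}
      {p : X × X | p.1 = p.2 ∨ p.1 ∈ rg j ∨ p.2 ∈ rg j} := by
  have hinj := hj.injective
  choose φ hφ using exists_coe hinj
  have hφi : Function.Injective φ := fun a b h =>
    OnePoint.coe_injective (hinj (by rw [hφ, hφ, h]))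
  have hrg : ∀ x, x ∈ rg j ↔ ∃ y, φ y = x := fun x => mem_rg.trans
    (exists_congr fun y => by rw [hφ]; exact OnePoint.coe_eq_coe)
  have hc := isClosed_rg j
  have c1 : IsClosed {p : X × X | p.1 = p.2 ∨ p.1 ∈ rg j ∧ p.2 ∈ rg j} :=
    (isClosed_diagSet X).union ((hc.preimage continuous_fst).inter (hc.preimage continuous_snd))
  have c2 : IsClosed {p : X × X | p.1 = p.2 ∨ p.2 ∈ rg j} :=
    (isClosed_diagSet X).union (hc.preimage continuous_snd)
  have s1 : CS (Z := X ⊗ X) {p : X × X | p.1 = p.2}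
      {p : X × X | p.1 = p.2 ∨ p.1 ∈ rg j ∧ p.2 ∈ rg j} := by
    have q : ∀ d : Y × Y, app (j ⊗ₘ j) (OnePoint.some (X := Y × Y) d) =
        OnePoint.some (X := X × X) (φ d.1, φ d.2) := fun d => by
      change smash (app j d.1) (app j d.2) = _
      rw [hφ, hφ]
      rfl
    refine (lec_iff.1 hY).push (j ⊗ₘ j) (isClosed_diagSet X) (fun d hd z hz => ?_)
      (fun d _ hd => ⟨_, q d, fun h => hd (hφi h)⟩) (fun d _ _ d' _ _ h => ?_) (fun z => ?_)
    · rw [← OnePoint.coe_injective ((q d).symm.trans hz)]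
      exact congrArg φ hd
    · have h1 := OnePoint.coe_injective ((q d).symm.trans (h.trans (q d')))
      exact Prod.ext (hφi (congrArg Prod.fst h1)) (hφi (congrArg Prod.snd h1))
    · refine or_congr Iff.rfl ⟨fun ⟨h1, h2⟩ => ?_, fun ⟨d, _, hd⟩ => ?_⟩
      · obtain ⟨a, ha⟩ := (hrg _).1 h1
        obtain ⟨b, hb⟩ := (hrg _).1 h2
        exact ⟨(a, b), trivial, (q (a, b)).trans (congrArg OnePoint.some (Prod.ext ha hb))⟩
      · rw [← OnePoint.coe_injective ((q d).symm.trans hd)]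
        exact ⟨(hrg _).2 ⟨_, rfl⟩, (hrg _).2 ⟨_, rfl⟩⟩
  have t1 := CS.of_cofib (Cofib.whiskerRight hj Y)
  rw [rg_whiskerRight j] at t1
  have s2 : CS (Z := X ⊗ X) {p : X × X | p.1 = p.2 ∨ p.1 ∈ rg j ∧ p.2 ∈ rg j}
      {p : X × X | p.1 = p.2 ∨ p.2 ∈ rg j} := by
    have q : ∀ d : X × Y, app (X ◁ j) (OnePoint.some (X := X × Y) d) =
        OnePoint.some (X := X × X) (d.1, φ d.2) := fun d => by
      change smash (d.1 : OnePoint X) (app j d.2) = _
      rw [hφ]
      rfl
    refine t1.push (X ◁ j) c1 (fun d hd z hz => ?_)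
      (fun d _ hd => ⟨_, q d, fun h => hd ?_⟩) (fun d _ _ d' _ _ h => ?_) (fun z => ?_)
    · rw [← OnePoint.coe_injective ((q d).symm.trans hz)]
      exact Or.inr ⟨hd, (hrg _).2 ⟨_, rfl⟩⟩
    · rcases h with h | h
      · exact (hrg _).2 ⟨_, h.symm⟩
      · exact h.1
    · have h1 := OnePoint.coe_injective ((q d).symm.trans (h.trans (q d')))
      exact Prod.ext (congrArg Prod.fst h1 :) (hφi (congrArg Prod.snd h1))
    · constructor
      · rintro (h | h)
        · exact Or.inl (Or.inl h)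
        · obtain ⟨b, hb⟩ := (hrg _).1 h
          exact Or.inr ⟨(z.1, b), trivial,
            (q (z.1, b)).trans (congrArg OnePoint.some (Prod.ext rfl hb))⟩
      · rintro ((h | h) | ⟨d, -, hd⟩)
        · exact Or.inl h
        · exact Or.inr h.2
        · rw [← OnePoint.coe_injective ((q d).symm.trans hd)]
          exact Or.inr ((hrg _).2 ⟨_, rfl⟩)
  have s3 : CS (Z := X ⊗ X) {p : X × X | p.1 = p.2 ∨ p.2 ∈ rg j}
      {p : X × X | p.1 = p.2 ∨ p.1 ∈ rg j ∨ p.2 ∈ rg j} := by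
    have q : ∀ d : X × Y, app (X ◁ j ≫ (β_ X X).hom) (OnePoint.some (X := X × Y) d) =
        OnePoint.some (X := X × X) (φ d.2, d.1) := fun d => by
      change app (β_ X X).hom (smash (d.1 : OnePoint X) (app j d.2)) = _
      rw [hφ]
      rfl
    refine t1.push (X ◁ j ≫ (β_ X X).hom) c2 (fun d hd z hz => ?_)
      (fun d _ hd => ⟨_, q d, fun h => hd ?_⟩) (fun d _ _ d' _ _ h => ?_) (fun z => ?_)
    · rw [← OnePoint.coe_injective ((q d).symm.trans hz)]
      exact Or.inr hd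
    · rcases h with h | h
      · exact (hrg _).2 ⟨_, h⟩
      · exact h
    · have h1 := OnePoint.coe_injective ((q d).symm.trans (h.trans (q d')))
      exact Prod.ext (congrArg Prod.snd h1 :) (hφi (congrArg Prod.fst h1))
    · constructor
      · rintro (h | h | h)
        · exact Or.inl (Or.inl h)
        · obtain ⟨b, hb⟩ := (hrg _).1 h
          exact Or.inr ⟨(z.2, b), trivial,
            (q (z.2, b)).trans (congrArg OnePoint.some (Prod.ext hb rfl))⟩
        · exact Or.inl (Or.inr h)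
      · rintro ((h | h) | ⟨d, -, hd⟩)
        · exact Or.inl h
        · exact Or.inr (Or.inr h)
        · rw [← OnePoint.coe_injective ((q d).symm.trans hd)]
          exact Or.inr (Or.inl ((hrg _).2 ⟨_, rfl⟩))
  exact (s1.trans s2).trans s3

theorem rg_coneBase (X : LC) : rg (coneBase X) = {p : X × NNReal | p.2 = 0} := by
  ext p
  refine ⟨fun h => ?_, fun h => ⟨(p.1 : OnePoint X), ?_⟩⟩
  · obtain ⟨a, ha⟩ := h
    rw [app_coneBase] at ha
    exact (OnePoint.coe_injective (smash_eq_coe ha).2).symm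
  · rw [app_coneBase]
    exact congrArg OnePoint.some (Prod.ext rfl (Eq.symm h))

/-- The top stratum. -/
theorem cs_top (hX : LEC X) : CS (Z := (X ⊗ HH) ⊗ (X ⊗ HH))
    {p : (X × NNReal) × (X × NNReal) | p.1.2 = 0 ∨ p.2.2 = 0 ∨ p.1 = p.2} Set.univ := by
  have c0 : IsClosed {p : (X × NNReal) × (X × NNReal) | p.1.2 = 0 ∨ p.2.2 = 0 ∨ p.1 = p.2} :=
    (isClosed_eq (by fun_prop) (by fun_prop)).union ((isClosed_eq (by fun_prop) (by fun_prop)).union
      (isClosed_eq (by fun_prop) (by fun_prop)))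
  have c1 : IsClosed {p : (X × NNReal) × (X × NNReal) | p.1.2 = 0 ∨ p.2.2 = 0 ∨ p.1.2 = p.2.2} :=
    (isClosed_eq (by fun_prop) (by fun_prop)).union ((isClosed_eq (by fun_prop) (by fun_prop)).union
      (isClosed_eq (by fun_prop) (by fun_prop)))
  have c2 : IsClosed {p : (X × NNReal) × (X × NNReal) | p.2.2 = 0 ∨ p.1.2 ≤ p.2.2} :=
    (isClosed_eq (by fun_prop) (by fun_prop)).union (isClosed_le (by fun_prop) (by fun_prop))
  have t1 := cs_prod hX
  rw [rg_diag] at t1
  have t2 := cs_prod (cofib_coneBase (X ⊗ X))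
  rw [rg_coneBase] at t2
  have s1 := t1.push_closed (Z := (X ⊗ HH) ⊗ (X ⊗ HH))
    (fun d : (X × X) × NNReal => ((d.1.1, d.2), (d.1.2, d.2)))
    (Function.LeftInverse.isClosedEmbedding
      (f := fun p : (X × NNReal) × (X × NNReal) => ((p.1.1, p.2.1), p.1.2)) (fun _ => rfl)
      (by fun_prop) (by fun_prop)) c0
    (T := {p : (X × NNReal) × (X × NNReal) | p.1.2 = 0 ∨ p.2.2 = 0 ∨ p.1.2 = p.2.2})
    (fun d hd => hd.elim Or.inl fun h => Or.inr (Or.inr (Prod.ext h rfl)))
    (fun d _ h => h.elim Or.inl fun h => h.elim Or.inl fun h => Or.inr (congrArg Prod.fst h :))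
    (fun z => ⟨fun h => h.elim (fun h => Or.inl (Or.inl h)) fun h => h.elim
        (fun h => Or.inl (Or.inr (Or.inl h))) fun h =>
          Or.inr ⟨((z.1.1, z.2.1), z.1.2), trivial, Prod.ext rfl (Prod.ext rfl h)⟩,
      fun h => h.elim (fun h => h.elim Or.inl fun h => h.elim (fun h => Or.inr (Or.inl h))
        fun h => Or.inr (Or.inr (congrArg Prod.snd h :))) fun ⟨_, _, h⟩ => h ▸ Or.inr (Or.inr rfl)⟩)
  have s2 := t2.push_closed (Z := (X ⊗ HH) ⊗ (X ⊗ HH))
    (fun d : ((X × X) × NNReal) × NNReal => ((d.1.1.1, d.1.2), (d.1.1.2, d.1.2 + d.2)))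
    (Function.LeftInverse.isClosedEmbedding
      (f := fun p : (X × NNReal) × (X × NNReal) => (((p.1.1, p.2.1), p.1.2), p.2.2 - p.1.2))
      (fun d => Prod.ext rfl (add_tsub_cancel_left _ _)) (by fun_prop) (by fun_prop)) c1
    (T := {p : (X × NNReal) × (X × NNReal) | p.2.2 = 0 ∨ p.1.2 ≤ p.2.2})
    (fun d hd => hd.elim (fun h => Or.inr (Or.inr (by
        change d.1.2 = d.1.2 + d.2
        rw [h, add_zero]))) Or.inl)
    (fun d _ h => h.elim Or.inr fun h => h.elim (fun h => Or.inl (add_eq_zero.1 h).2)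
      fun h => Or.inl (left_eq_add.1 h))
    (fun z => ⟨fun h => h.elim (fun h => Or.inl (Or.inr (Or.inl h))) fun h =>
        Or.inr ⟨(((z.1.1, z.2.1), z.1.2), z.2.2 - z.1.2), trivial,
          Prod.ext rfl (Prod.ext rfl (add_tsub_cancel_of_le h))⟩,
      fun h => h.elim (fun h => h.elim (fun h => Or.inr (le_of_eq_of_le h zero_le))
        fun h => h.elim Or.inl fun h => Or.inr (le_of_eq h))
        fun ⟨_, _, h⟩ => h ▸ Or.inr le_self_add⟩)
  have s3 := t2.push_closed (Z := (X ⊗ HH) ⊗ (X ⊗ HH))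
    (fun d : ((X × X) × NNReal) × NNReal => ((d.1.1.1, d.1.2 + d.2), (d.1.1.2, d.1.2)))
    (Function.LeftInverse.isClosedEmbedding
      (f := fun p : (X × NNReal) × (X × NNReal) => (((p.1.1, p.2.1), p.2.2), p.1.2 - p.2.2))
      (fun d => Prod.ext rfl (add_tsub_cancel_left _ _)) (by fun_prop) (by fun_prop)) c2
    (T := Set.univ)
    (fun d hd => hd.elim (fun h => Or.inr (by
        change d.1.2 + d.2 ≤ d.1.2
        rw [h, add_zero])) Or.inl)
    (fun d _ h => h.elim Or.inr fun h => Or.inl (le_zero_iff.1 ((add_le_iff_nonpos_right _).1 h)))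
    (fun z => ⟨fun _ => (le_total z.1.2 z.2.2).elim (fun h => Or.inl (Or.inr h)) fun h =>
        Or.inr ⟨(((z.1.1, z.2.1), z.2.2), z.1.2 - z.2.2), trivial,
          Prod.ext (Prod.ext rfl (add_tsub_cancel_of_le h)) rfl⟩, fun _ => trivial⟩)
  exact (s1.trans s2).trans s3

/-- **Mapping cones.** -/
theorem LEC.cone (hX : LEC X) (hY : LEC Y) (f : X ⟶ Y) : LEC (cone f) := by
  obtain ⟨hj, hb⟩ := bij_of_isPushout (injective_coneBase X) (isPushout_cone f)
  have hc := isClosed_rg (coneInr f)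
  have h0 : ∀ (d : X × NNReal) (z : LC.cone f), d.2 = 0 →
      app (coneInl f) (OnePoint.some (X := X × NNReal) d) = z → z ∈ rg (coneInr f) := by
    intro d z hd hz
    have h1 : d ∈ rg (coneBase X) := (rg_coneBase X).symm ▸ hd
    obtain ⟨a, ha⟩ := h1
    exact ⟨app f a, by rw [← hz, ← ha, ← app_comp, ← app_comp, cone_w]⟩
  have h1 : ∀ d : X × NNReal, d.2 ≠ 0 →
      OnePoint.some (X := X × NNReal) d ∈ (Set.range (app (coneBase X)))ᶜ := fun d hd h =>
    hd (Set.ext_iff.1 (rg_coneBase X) d |>.1 h)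
  have h2 : ∀ d : X × NNReal, d.2 ≠ 0 → ∃ z : LC.cone f,
      app (coneInl f) (OnePoint.some (X := X × NNReal) d) = z ∧ z ∉ rg (coneInr f) := by
    intro d hd
    have h3 := hb.mapsTo (h1 d hd)
    have h4 : app (coneInl f) (OnePoint.some (X := X × NNReal) d) ≠ ∞ := fun h5 =>
      h3 (h5 ▸ infty_mem_range_app _)
    obtain ⟨z, hz⟩ := OnePoint.ne_infty_iff_exists.1 h4
    exact ⟨z, hz.symm, fun h5 => h3 (hz ▸ h5)⟩
  have h3 : ∀ d d' : X × NNReal, d.2 ≠ 0 → d'.2 ≠ 0 →
      app (coneInl f) (OnePoint.some (X := X × NNReal) d) =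
        app (coneInl f) (OnePoint.some (X := X × NNReal) d') → d = d' := fun d d' hd hd' h =>
    OnePoint.coe_injective (hb.injOn (h1 d hd) (h1 d' hd') h)
  have q : ∀ d : (X × NNReal) × (X × NNReal),
      app (coneInl f ⊗ₘ coneInl f) (OnePoint.some (X := (X × NNReal) × (X × NNReal)) d) =
        smash (app (coneInl f) (OnePoint.some (X := X × NNReal) d.1))
          (app (coneInl f) (OnePoint.some (X := X × NNReal) d.2)) := fun _ => rfl
  refine lec_iff.2 ((cs_fat (cofib_coneInr f) hY).trans ((cs_top hX).push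
    (coneInl f ⊗ₘ coneInl f) ((isClosed_diagSet _).union ((hc.preimage continuous_fst).union
      (hc.preimage continuous_snd))) (fun d hd z hz => ?_) (fun d _ hd => ?_)
      (fun d _ hd d' _ hd' h => ?_) (fun z => ⟨fun _ => ?_, fun _ => trivial⟩)))
  · obtain ⟨h4, h5⟩ := smash_eq_coe ((q d).symm.trans hz)
    rcases hd with hd | hd | hd
    · exact Or.inr (Or.inl (h0 _ _ hd h4))
    · exact Or.inr (Or.inr (h0 _ _ hd h5))
    · exact Or.inl (OnePoint.coe_injective (h4.symm.trans (hd ▸ h5)))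
  · obtain ⟨z, hz, hz'⟩ := h2 d.1 fun h => hd (Or.inl h)
    obtain ⟨w, hw, hw'⟩ := h2 d.2 fun h => hd (Or.inr (Or.inl h))
    refine ⟨(z, w), by rw [q, hz, hw]; rfl, ?_⟩
    rintro (h | h | h)
    · exact hd (Or.inr (Or.inr (h3 _ _ (fun h => hd (Or.inl h)) (fun h => hd (Or.inr (Or.inl h)))
        (hz.trans ((congrArg OnePoint.some h).trans hw.symm)))))
    · exact hz' h
    · exact hw' h
  · obtain ⟨z, hz, -⟩ := h2 d'.1 fun h => hd' (Or.inl h)
    obtain ⟨w, hw, -⟩ := h2 d'.2 fun h => hd' (Or.inr (Or.inl h))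
    have h4 : smash (app (coneInl f) (OnePoint.some (X := X × NNReal) d.1))
        (app (coneInl f) (OnePoint.some (X := X × NNReal) d.2)) =
        OnePoint.some (X := LC.cone f × LC.cone f) (z, w) := by
      rw [← q, h, q, hz, hw]
      rfl
    obtain ⟨h5, h6⟩ := smash_eq_coe h4
    exact Prod.ext (h3 _ _ (fun h => hd (Or.inl h)) (fun h => hd' (Or.inl h)) (h5.trans hz.symm))
      (h3 _ _ (fun h => hd (Or.inr (Or.inl h))) (fun h => hd' (Or.inr (Or.inl h)))
        (h6.trans hw.symm))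
  · rcases surj_of_isPushout (injective_coneBase X) (isPushout_cone f)
      (z.1 : OnePoint (LC.cone f)) with h4 | h4
    · rcases surj_of_isPushout (injective_coneBase X) (isPushout_cone f)
        (z.2 : OnePoint (LC.cone f)) with h5 | h5
      · obtain ⟨a, ha⟩ := mem_rg.1 h4
        obtain ⟨b, hb⟩ := mem_rg.1 h5
        refine Or.inr ⟨(a, b), trivial, (q (a, b)).trans ?_⟩
        change smash (app (coneInl f) a) (app (coneInl f) b) = _
        rw [ha, hb]
        rfl
      · exact Or.inl (Or.inr (Or.inr h5))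
    · exact Or.inl (Or.inr (Or.inl h4))

end Vale.Agent.P261Z.T2
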