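import Vale.Agent.P261Z.T2.DSk
import Vale.Agent.P261Z.T2.Lec
import Mathlib.Topology.Compactification.OnePoint.Sphere
import Mathlib.Topology.TietzeExtension

/-!
# P261, block T2, theorem DELTA: good spaces

The rows `NSPH`, `NTEN`, `SEPX`, `GLUE`, `NCONE`.
-/

open CategoryTheory MonoidalCategory Limits Topology OnePoint

noncomputable section

namespace Vale.Agent.P261Z.Dl

open Vale.Agent.P251 Vale.Agent.P251.G Vale.Agent.P251.G.LC Vale.Agent.P261Z.T2

namespace Nc

theorem lec_iff' (A : LC) : Cofib (dg A) ↔ LEC A := Iff.rfl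

/-! ### Separating functions -/

theorem sep_of {A : LC} {E : Type} [NormedAddCommGroup E] [NormedSpace ℝ E]
    [FiniteDimensional ℝ E] (φ : OnePoint A → E) (hc : Continuous φ)
    (hi : Function.Injective φ) : Sep A :=
  ⟨Module.finrank ℝ E, fun x => (Module.finBasis ℝ E).equivFunL (φ x),
    (Module.finBasis ℝ E).equivFunL.continuous.comp hc,
    (Module.finBasis ℝ E).equivFunL.injective.comp hi⟩

theorem sep_norm {A : LC} (h : Sep A) : ∃ (N : ℕ) (φ : OnePoint A → Fin N → ℝ),
    Continuous φ ∧ Function.Injective φ ∧ φ ∞ = 0 := by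
  obtain ⟨N, φ, hc, hi⟩ := h
  exact ⟨N, fun x => φ x - φ ∞, hc.sub continuous_const,
    fun _ _ h => hi (sub_left_injective h), sub_self _⟩

theorem sep_of_injective {A B : LC} (f : A ⟶ B) (hf : Function.Injective (app f)) (h : Sep B) :
    Sep A := by
  obtain ⟨N, φ, hc, hi⟩ := h
  exact ⟨N, φ ∘ app f, hc.comp (continuous_app f), hi.comp hf⟩

theorem sep_of_iso {A B : LC} (e : A ≅ B) (h : Sep B) : Sep A :=
  sep_of_injective e.hom (cofib_of_iso e).injective' h

theorem sep_sph (n : ℕ) : Sep (Sph n) := by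
  let e := onePointEquivSphereOfFinrankEq (ι := Fin (n + 1)) (V := Fin n → ℝ) (by simp)
  exact sep_of (E := EuclideanSpace ℝ (Fin (n + 1))) (fun x => (e x).1)
    (continuous_subtype_val.comp e.continuous) (Subtype.val_injective.comp e.injective)

theorem sep_empty : Sep (LC.of Empty) :=
  ⟨0, fun _ => 0, continuous_const, fun _ _ _ => Subsingleton.elim _ _⟩

theorem mix_inj {E E' : Type} [NormedAddCommGroup E] [NormedSpace ℝ E] [NormedAddCommGroup E']
    [NormedSpace ℝ E'] {u u' : E} {v v' : E'} (hu : u ≠ 0) (hv : v ≠ 0)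
    (h1 : ‖v‖ • u = ‖v'‖ • u') (h2 : ‖u‖ ^ 2 • v = ‖u'‖ ^ 2 • v') : u = u' ∧ v = v' := by
  have a1 := congrArg norm h1
  have a2 := congrArg norm h2
  simp only [norm_smul, norm_norm, norm_pow] at a1 a2
  have p1 := norm_pos_iff.2 hu
  have p2 := norm_pos_iff.2 hv
  have a3 : ‖u‖ = ‖u'‖ := by
    have a4 : ‖u‖ * (‖v‖ * ‖u‖) = ‖u'‖ * (‖v‖ * ‖u‖) := by
      rw [a1]
      linear_combination a2 - ‖u‖ * a1
    exact mul_right_cancel₀ (mul_pos p2 p1).ne' a4
  have a5 : ‖v‖ = ‖v'‖ := by
    rw [← a3] at a1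
    exact mul_right_cancel₀ p1.ne' a1
  rw [← a5] at h1
  rw [← a3] at h2
  exact ⟨smul_right_injective E p2.ne' h1, smul_right_injective E' (pow_pos p1 2).ne' h2⟩

theorem sep_tensor {A B : LC} (hA : Sep A) (hB : Sep B) : Sep (A ⊗ B) := by
  obtain ⟨N, φ, hc, hi, h0⟩ := sep_norm hA
  obtain ⟨N', ψ, hc', hi', h0'⟩ := sep_norm hB
  let G : OnePoint A × OnePoint B → (Fin N → ℝ) × (Fin N' → ℝ) :=
    fun p => (‖ψ p.2‖ • φ p.1, ‖φ p.1‖ ^ 2 • ψ p.2)
  have hG : Continuous G := by
    have h1 : Continuous fun p : OnePoint A × OnePoint B => φ p.1 := hc.comp continuous_fst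
    have h2 : Continuous fun p : OnePoint A × OnePoint B => ψ p.2 := hc'.comp continuous_snd
    exact (h2.norm.smul h1).prodMk ((h1.norm.pow 2).smul h2)
  let Φ : OnePoint (A × B) → (Fin N → ℝ) × (Fin N' → ℝ) :=
    fun p => OnePoint.rec 0 (fun q : A × B => G (q.1, q.2)) p
  have hΦ : ∀ p : OnePoint A × OnePoint B, Φ (smash p.1 p.2) = G p := by
    rintro ⟨x, y⟩
    induction x using OnePoint.rec with
    | infty =>
      change 0 = G (∞, y)
      simp only [G, h0, smul_zero, norm_zero, ne_eq, OfNat.ofNat_ne_zero, not_false_eq_true,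
        zero_pow, zero_smul, Prod.mk_zero_zero]
    | coe x =>
      induction y using OnePoint.rec with
      | infty =>
        change 0 = G (x, ∞)
        simp only [G, h0', smul_zero, norm_zero, zero_smul, Prod.mk_zero_zero]
      | coe y => rfl
  have hq : IsQuotientMap fun p : OnePoint A × OnePoint B => smash p.1 p.2 :=
    IsClosedMap.isQuotientMap continuous_smash.isClosedMap continuous_smash fun p => by
      obtain ⟨x, y, h⟩ := smash_surjective p
      exact ⟨(x, y), h⟩
  have n1 : ∀ a : A, φ a ≠ 0 := fun a h => OnePoint.coe_ne_infty _ (hi (h.trans h0.symm))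
  have n2 : ∀ b : B, ψ b ≠ 0 := fun b h => OnePoint.coe_ne_infty _ (hi' (h.trans h0'.symm))
  have n3 : ∀ q : A × B, Φ q ≠ 0 := fun q h =>
    smul_ne_zero (norm_ne_zero_iff.2 (n2 q.2)) (n1 q.1) (congrArg Prod.fst h)
  refine sep_of (A := A ⊗ B) Φ (hq.continuous_iff.2 ((funext hΦ : Φ ∘ _ = G) ▸ hG)) ?_
  intro p q h
  induction p using OnePoint.rec with
  | infty =>
    induction q using OnePoint.rec with
    | infty => rfl
    | coe q => exact absurd h.symm (n3 q)
  | coe p =>
    induction q using OnePoint.rec with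
    | infty => exact absurd h (n3 p)
    | coe q =>
      obtain ⟨h1, h2⟩ := mix_inj (n1 p.1) (n2 p.2) (congrArg Prod.fst h) (congrArg Prod.snd h)
      exact congrArg OnePoint.some
        (Prod.ext (OnePoint.coe_injective (hi h1)) (OnePoint.coe_injective (hi' h2)))

theorem lec_RR : LEC RR := by
  let f : 𝟙_ LC ⟶ LC.of Empty := 0
  have h1 : LEC (cone f) :=
    (lec_of_subsingleton (LC.of Unit)).cone (lec_of_subsingleton (LC.of Empty)) f
  have h2 := isPushout_coneConn f isZero_empty (𝟙 _) 0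
  have h3 : IsIso (coneConn f) := h2.isIso_inl_of_isIso
  exact (h1.of_iso (asIso (coneConn f))).of_iso (λ_ RR)

theorem lec_sph : ∀ n : ℕ, LEC (Sph n)
  | 0 => lec_of_subsingleton _
  | n + 1 => (lec_RR.tensor (lec_sph n)).of_iso (consIso RR n)

end Nc

open Nc

theorem nsph : NSPH :=
  ⟨⟨FC.empty, lec_of_subsingleton (LC.of Empty), sep_empty⟩,
    fun n => ⟨FC.sph n, lec_sph n, sep_sph n⟩⟩

theorem nten : NTEN := fun _ _ hA hB =>
  ⟨hA.fc.tensor hB.fc, LEC.tensor hA.cof hB.cof, sep_tensor hA.sep hB.sep⟩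

theorem sepx : SEPX := by
  intro A B i hi hA hC
  obtain ⟨N, φ, hc, hφ⟩ := hA
  obtain ⟨N', ψ, hc', hψ⟩ := hC
  obtain ⟨g, hg⟩ := ContinuousMap.exists_extension' (isClosedEmbedding_app' hi) ⟨φ, hc⟩
  have hg' : ∀ a, g (app i a) = φ a := fun a => congrFun hg a
  refine sep_of (fun b => (g b, ψ (app (cofMap i) b)))
    (g.continuous.prodMk (hc'.comp (continuous_app _))) fun b b' h => ?_
  have h1 : g b = g b' := congrArg Prod.fst h
  have h2 : app (cofMap i) b = app (cofMap i) b' := hψ (congrArg Prod.snd h)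
  have key : ∀ x, app (cofMap i) x = ∞ ↔ x ∈ Set.range (app i) := fun x =>
    (app_cofMap_eq_infty_iff i x).trans
      ⟨fun h => h.elim (fun h => h ▸ infty_mem_range_app i) id, Or.inr⟩
  by_cases hb : b ∈ Set.range (app i)
  · obtain ⟨a', rfl⟩ := (key b').1 (h2 ▸ (key b).2 hb)
    obtain ⟨a, rfl⟩ := hb
    rw [hg', hg'] at h1
    rw [hφ h1]
  · have hb' : b' ∉ Set.range (app i) := fun h3 => hb ((key b).1 (h2.trans ((key b').2 h3)))
    induction b using OnePoint.rec with
    | infty => exact absurd (infty_mem_range_app i) hb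
    | coe b =>
      induction b' using OnePoint.rec with
      | infty => exact absurd (infty_mem_range_app i) hb'
      | coe b' =>
        have h3 := (app_cofMap_coe i ⟨b, hb⟩).symm.trans (h2.trans (app_cofMap_coe i ⟨b', hb'⟩))
        exact congrArg OnePoint.some (congrArg Subtype.val (OnePoint.coe_injective h3))

theorem glue : GLUE := fun g hX hA => LEC.cone hX hA g

theorem nice_RR : Nice RR :=
  ⟨FC.line, lec_RR, sep_of_iso (M.lineSph).symm (sep_sph 1)⟩

theorem ncone : NCONE := fun g hX hA =>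
  ⟨hX.fc.cone hA.fc g, glue g hX.cof hA.cof,
    sepx (coneInr g) (cofib_coneInr g).injective' hA.sep
      (sep_of_iso (cofConeInr g) (nten _ _ hX nice_RR).sep)⟩

end Vale.Agent.P261Z.Dl
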