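import Vale.Agent.P261Z.T2.DSk
import Vale.Agent.P251.S.TensorShift

/-!
# P261, block T2, theorem DELTA: realization by good spaces, the categorical half
-/

open CategoryTheory MonoidalCategory Limits Pretriangulated

set_option linter.unusedSectionVars false

noncomputable section

universe v u

namespace Vale.Agent.P261Z.Dl

open Vale.Agent.P251 Vale.Agent.P251.T Vale.Agent.P251.S Vale.Agent.P251.I Vale.Agent.P251.G
  Vale.Agent.P251.G.LC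

variable {T : Type u} [Category.{v} T] [Preadditive T] [HasZeroObject T]
    [HasShift T ℤ] [∀ n : ℤ, (shiftFunctor T n).Additive] [Pretriangulated T]
    [MonoidalCategory T] [SymmetricCategory T] [TensorTriangulated T]

namespace Rc

variable (F : SpaceFunctor T)

/-- the iterated suspension isomorphism -/
def sus (A : FCat) (n : ℕ) : F.S.obj (A ⊗ SphF n) ≅ (F.S.obj A)⟦(n : ℤ)⟧ :=
  (Functor.Monoidal.μIso F.S A (SphF n)).symm ≪≫ whiskerLeftIso _ (M.sphIso F n) ≪≫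
    tensorSph (n : ℤ) (F.S.obj A)

theorem full {X Y : FCat} (g : F.S.obj X ⟶ F.S.obj Y) :
    ∃ (n : ℕ) (h : X ⊗ SphF n ⟶ Y ⊗ SphF n),
      F.S.map h ≫ (sus F Y n).hom = (sus F X n).hom ≫ g⟦(n : ℤ)⟧' := by
  obtain ⟨n, h, hh⟩ := F.full g
  refine ⟨n, h, ?_⟩
  simp only [hh, sus, Iso.trans_hom, Iso.symm_hom, whiskerLeftIso_hom, Category.assoc,
    Iso.hom_inv_id_assoc]
  rw [← tensorSph_naturality, whisker_exchange_assoc]

/-- a good model of a shift -/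
def Md (Y : T) (k : ℤ) : Prop := ∃ A : FCat, Nice A.obj ∧ Nonempty (F.S.obj A ≅ Y⟦k⟧)

variable {F}

theorem Md.up (hs : NSPH) (ht : NTEN) {Y : T} {k l : ℤ} (h : Md F Y k) (hkl : k ≤ l) :
    Md F Y l := by
  obtain ⟨A, hA, ⟨e⟩⟩ := h
  obtain ⟨n, rfl⟩ := Int.le.dest hkl
  exact ⟨A ⊗ SphF n, ht _ _ hA (hs.2 n), ⟨sus F A n ≪≫ (shiftFunctor T (n : ℤ)).mapIso e ≪≫
    (shiftFunctorAdd T k n).symm.app Y⟩⟩

theorem md_cone (hs : NSPH) (ht : NTEN) (hc : NCONE) (Δ : Triangle T) (hΔ : Δ ∈ distTriang T)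
    {X A : FCat} (hX : Nice X.obj) (hA : Nice A.obj) (e₁ : F.S.obj X ≅ Δ.obj₁)
    (e₂ : F.S.obj A ≅ Δ.obj₂) : ∃ n : ℤ, Md F Δ.obj₃ n := by
  obtain ⟨n, h, hh⟩ := full F (e₁.hom ≫ Δ.mor₁ ≫ e₂.inv)
  have h1 := Triangle.shift_distinguished Δ hΔ (n : ℤ)
  refine ⟨n, coneF h, hc h.hom (ht _ _ hX (hs.2 n)) (ht _ _ hA (hs.2 n)), ⟨?_⟩⟩
  refine Triangle.π₃.mapIso (isoTriangleOfIso₁₂ _ _ (F.cone_distinguished h) h1
    ((n : ℤ).negOnePow • (sus F X n ≪≫ (shiftFunctor T (n : ℤ)).mapIso e₁))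
    (sus F A n ≪≫ (shiftFunctor T (n : ℤ)).mapIso e₂) ?_)
  change F.S.map h ≫ (sus F A n).hom ≫ e₂.hom⟦(n : ℤ)⟧' =
    ((n : ℤ).negOnePow • ((sus F X n).hom ≫ e₁.hom⟦(n : ℤ)⟧')) ≫
      ((n : ℤ).negOnePow • Δ.mor₁⟦(n : ℤ)⟧')
  rw [Linear.units_smul_comp, Linear.comp_units_smul, smul_smul, Int.units_mul_self, one_smul,
    reassoc_of% hh, ← Functor.map_comp, Category.assoc, Category.assoc, Category.assoc,
    Iso.inv_hom_id, Category.comp_id, Functor.map_comp]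

theorem md_of_fn (hs : NSPH) (ht : NTEN) (hc : NCONE) {Y : T} (hY : Fn Y) : ∃ k, Md F Y k := by
  induction hY with
  | @zero Z h =>
    exact ⟨0, FCat.mk hs.1.fc, hs.1, ⟨(F.isZero (X := FCat.mk hs.1.fc)
      (inferInstanceAs (IsEmpty Empty))).iso ((shiftFunctor T (0 : ℤ)).map_isZero h)⟩⟩
  | sphere k =>
    exact ⟨-k, SphF 0, hs.2 0, ⟨M.sphIso F 0 ≪≫
      (shiftFunctorAdd' T k (-k) ((0 : ℕ) : ℤ) (by simp)).app _⟩⟩
  | ext Δ hΔ _ _ ih₁ ih₃ =>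
    obtain ⟨k₁, h₁⟩ := ih₁
    obtain ⟨k₃, h₃⟩ := ih₃
    obtain ⟨A, hA, ⟨e₂⟩⟩ := h₁.up hs ht (le_max_left k₁ (k₃ + 1))
    obtain ⟨X, hX, ⟨e₁⟩⟩ := h₃.up hs ht (l := -1 + max k₁ (k₃ + 1))
      (by have := le_max_right k₁ (k₃ + 1); omega)
    obtain ⟨n, C, hC, ⟨e⟩⟩ := md_cone hs ht hc _
      (Triangle.shift_distinguished _ (inv_rot_of_distTriang Δ hΔ) (max k₁ (k₃ + 1))) hX hA
      (e₁ ≪≫ (shiftFunctorAdd T (-1) (max k₁ (k₃ + 1))).app Δ.obj₃) e₂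
    exact ⟨max k₁ (k₃ + 1) + n, C, hC, ⟨e ≪≫ (shiftFunctorAdd T _ n).symm.app Δ.obj₂⟩⟩

end Rc

theorem real_of (F : SpaceFunctor T) (hs : NSPH) (ht : NTEN) (hc : NCONE) : REAL F := by
  intro Y f hY
  obtain ⟨k, A, hA, ⟨e⟩⟩ := Rc.md_of_fn (F := F) hs ht hc hY
  obtain ⟨n, h, hh⟩ := Rc.full F (e.hom ≫ f⟦k⟧' ≫ e.inv)
  refine ⟨A ⊗ SphF n, h, k + n, Rc.sus F A n ≪≫ (shiftFunctor T (n : ℤ)).mapIso e ≪≫
    (shiftFunctorAdd T k n).symm.app Y, ht _ _ hA (hs.2 n), ?_⟩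
  have h1 := (shiftFunctorAdd T k n).inv.naturality f
  simp only [Functor.comp_map] at h1
  simp only [Iso.trans_hom, Functor.mapIso_hom, Iso.app_hom, Iso.symm_hom, Category.assoc]
  rw [reassoc_of% hh, ← h1, ← Functor.map_comp_assoc, ← Functor.map_comp_assoc, Category.assoc,
    Category.assoc, Iso.inv_hom_id, Category.comp_id]

end Vale.Agent.P261Z.Dl
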