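import Vale.Agent.P261Z.T2.DPre
import Vale.Agent.P261Z.T2.DDiag
import Vale.Agent.P261Z.T2.DNice
import Vale.Agent.P261Z.T2.DRealC

/-!
# P261, block T2: theorem DELTA
-/

open CategoryTheory MonoidalCategory Limits Pretriangulated

noncomputable section

universe v u

namespace Vale.Agent.P261Z.Dl

open Vale.Agent.P251 Vale.Agent.P251.T Vale.Agent.P251.S Vale.Agent.P251.I Vale.Agent.P251.G

variable {T : Type u} [Category.{v} T] [Preadditive T] [HasZeroObject T]
    [HasShift T ℤ] [∀ n : ℤ, (shiftFunctor T n).Additive] [Pretriangulated T]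
    [MonoidalCategory T] [SymmetricCategory T] [TensorTriangulated T]

theorem real_all (F : SpaceFunctor T) : REAL F := real_of F nsph nten ncone

/-- **THEOREM DELTA.** -/
theorem delta [IsTriangulated T] [MonoidalClosed T] [HasCoproducts.{0} T] [HasProducts.{0} T]
    [StableCat T] [LocallySmall.{0} T] (F : SpaceFunctor T) : DELTA F :=
  delta_of_real F diag (real_all F)

end Vale.Agent.P261Z.Dl
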