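import Vale.Agent.P261Z.T2.DSk
import Vale.Agent.P251.G.NDR

/-!
# P261, block T2, theorem DELTA: the row NDR
-/

open CategoryTheory MonoidalCategory Limits Pretriangulated MonObj Topology OnePoint

set_option linter.unusedSectionVars false

noncomputable section

namespace Vale.Agent.P261Z.Dl

open Vale.Agent.P251 Vale.Agent.P251.T Vale.Agent.P251.S Vale.Agent.P251.I Vale.Agent.P251.G
  Vale.Agent.P251.G.LC

namespace Ndr

/-- deformation data on the level of points -/
structure Dat {A B : Type} [TopologicalSpace B] (j : A → B) (u : B → ℝ)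
    (h : B × unitInterval → B) : Prop where
  inj : Function.Injective j
  cont : Continuous u
  nn : ∀ b, 0 ≤ u b
  zero : ∀ b, u b = 0 ↔ b ∈ Set.range j
  prop : IsProperMap h
  h0 : ∀ b, h (b, 0) = b
  hA : ∀ b t, u b = 0 → h (b, t) = b
  h1 : ∀ b, u b < 1 → h (b, 1) ∈ Set.range j

theorem Dat.cofib {A B : LC} {j : A → B} {u : B → ℝ} {h : B × unitInterval → B} (D : Dat j u h)
    {i : A ⟶ B} (hi : ∀ a : A, app i (a : OnePoint A) = (j a : OnePoint B)) : Cofib i := by
  have e : app i = OnePoint.map j := funext fun a => by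
    induction a using OnePoint.rec with
    | infty => exact app_infty i
    | coe a => exact hi a
  have hr : ∀ b : B, (b : OnePoint B) ∈ Set.range (app i) ↔ b ∈ Set.range j := fun b => by
    refine ⟨?_, fun ⟨a, ha⟩ => ⟨a, by rw [hi, ha]⟩⟩
    rintro ⟨a, ha⟩
    induction a using OnePoint.rec with
    | infty => exact absurd ((app_infty i).symm.trans ha) (OnePoint.infty_ne_coe b)
    | coe a => exact ⟨a, OnePoint.coe_injective ((hi a).symm.trans ha)⟩
  refine cofib_of_ndr (e ▸ Option.map_injective D.inj) u D.cont D.nn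
    (fun b => (D.zero b).trans (hr b).symm) (ofIsProper (X := B ⊗ II) h D.prop) ?_
    (fun b t hb => congrArg _ (D.hA b t hb)) fun b hb => (hr _).2 (D.h1 b hb)
  ext b
  rw [app_comp, app_incl]
  exact congrArg _ (D.h0 b)

theorem Dat.prod {A B : Type} [TopologicalSpace B] {j : A → B} {u : B → ℝ}
    {h : B × unitInterval → B} (D : Dat j u h) (W : Type) [TopologicalSpace W] :
    Dat (Prod.map j (id : W → W)) (fun x => u x.1) fun x => (h (x.1.1, x.2), x.1.2) where
  inj := D.inj.prodMap Function.injective_id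
  cont := D.cont.comp continuous_fst
  nn _ := D.nn _
  zero x := (D.zero x.1).trans ⟨fun ⟨a, ha⟩ => ⟨(a, x.2), Prod.ext ha rfl⟩,
    fun ⟨a, ha⟩ => ⟨a.1, congrArg Prod.fst ha⟩⟩
  prop := (D.prop.prodMap isProperMap_id).comp (((Homeomorph.prodAssoc B W unitInterval).trans
    ((Homeomorph.refl B).prodCongr (Homeomorph.prodComm W unitInterval))).trans
      (Homeomorph.prodAssoc B unitInterval W).symm).isProperMap
  h0 x := Prod.ext (D.h0 x.1) rfl
  hA x t hx := Prod.ext (D.hA x.1 t hx) rfl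
  h1 x hx := let ⟨a, ha⟩ := D.h1 x.1 hx; ⟨(a, x.2), Prod.ext ha rfl⟩

variable {G : Type} [Group G] [Finite G]

theorem Dat.cofib_orb {A B : GSp G} {j : A.X → B.X} {u : B.X → ℝ} {h : B.X × unitInterval → B.X}
    (D : Dat j u h) {i : A.X ⟶ B.X} (hi : ∀ a : A.X, app i (a : OnePoint A.X) = (j a : OnePoint B.X))
    (he : GSp.IsEq i) (hu : ∀ (g : G) b, u (g • b) = u b)
    (hh : ∀ (g : G) b t, h (g • b, t) = g • h (b, t)) : Cofib (GSp.orbMap i he) := by
  have hj : ∀ (g : G) a, j (g • a) = g • j a := fun g a => OnePoint.coe_injective <|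
    (hi _).symm.trans ((congrArg (fun k => app k (a : OnePoint A.X)) (he g)).trans
      (congrArg (app (B.ρ g)) (hi a)))
  let j' : A.Orb → B.Orb := Quotient.lift (s := MulAction.orbitRel G A.X) (fun a => B.mk' (j a)) (by
    rintro x y ⟨g, rfl⟩
    exact (congrArg B.mk' (hj g y)).trans (B.mk'_smul g _))
  let u' : B.Orb → ℝ := Quotient.lift (s := MulAction.orbitRel G B.X) u (by
    rintro x y ⟨g, rfl⟩
    exact hu g y)
  let h' : B.Orb × unitInterval → B.Orb := fun x =>
    Quotient.lift (s := MulAction.orbitRel G B.X) (fun b => B.mk' (h (b, x.2))) (by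
      rintro a y ⟨g, rfl⟩
      exact (congrArg B.mk' (hh g y _)).trans (B.mk'_smul g _)) x.1
  have hA := A.isOpenQuotientMap_mk'.surjective
  have hB := B.isOpenQuotientMap_mk'
  have hq := hB.prodMap (IsOpenQuotientMap.id (X := unitInterval))
  have hp : IsProperMap (h' ∘ Prod.map B.mk' id) := B.isProperMap_mk'.comp D.prop
  have hr : ∀ b, B.mk' b ∈ Set.range j' ↔ b ∈ Set.range j := fun b => by
    refine ⟨?_, fun ⟨a, ha⟩ => ⟨A.mk' a, congrArg B.mk' ha⟩⟩
    rintro ⟨a, ha⟩
    obtain ⟨a, rfl⟩ := hA a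
    obtain ⟨g, hg⟩ := (B.mk'_eq_iff b (j a)).1 ha.symm
    exact ⟨g • a, (hj g a).trans hg⟩
  refine Dat.cofib (A := A.orb) (B := B.orb) (j := j') (u := u') (h := h')
    ⟨?_, hB.continuous_comp_iff.1 D.cont, hB.surjective.forall.2 D.nn,
      hB.surjective.forall.2 fun b => (D.zero b).trans (hr b).symm,
      isProperMap_of_comp_of_surj hq.continuous (hq.continuous_comp_iff.1 hp.continuous) hp
        hq.surjective,
      hB.surjective.forall.2 fun b => congrArg B.mk' (D.h0 b),
      hB.surjective.forall.2 fun b t hb => congrArg B.mk' (D.hA b t hb),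
      hB.surjective.forall.2 fun b hb => (hr _).2 (D.h1 b hb)⟩ (hA.forall.2 fun a => ?_)
  · refine hA.forall₂.2 fun a a' e => ?_
    obtain ⟨g, hg⟩ := (B.mk'_eq_iff (j a) (j a')).1 e
    exact (A.mk'_eq_iff _ _).2 ⟨g, D.inj ((hj g a').trans hg)⟩
  · exact (congrArg (fun k => app k (a : OnePoint A.X)) (GSp.π_orbMap i he)).trans
      (congrArg (app B.π) (hi a))

variable {M : ℕ} (i : ℕ) {z : Fin M → G → ℝ}

/-- the largest of the first `i` coordinates -/
def mx (z : Fin M → G → ℝ) : ℝ :=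
  letI := Fintype.ofFinite G
  ‖fun x : {l : Fin M // (l : ℕ) < i} × G => z x.1 x.2‖

theorem continuous_mx : Continuous (mx (G := G) (M := M) i) := by
  unfold mx
  fun_prop

theorem mx_lt {r : ℝ} : mx i z < r ↔ 0 < r ∧ ∀ l : Fin M, (l : ℕ) < i → ∀ g, |z l g| < r := by
  let _ := Fintype.ofFinite G
  refine ⟨fun h => ?_, fun h => (pi_norm_lt_iff h.1).2 fun x => h.2 _ x.1.2 _⟩
  have h0 := (norm_nonneg _).trans_lt h
  exact ⟨h0, fun l hl g => (pi_norm_lt_iff h0).1 h (⟨l, hl⟩, g)⟩

theorem mx_tl (g : G) : mx i (tl g z) = mx i z := eq_of_forall_gt_iff fun _ => by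
  rw [mx_lt, mx_lt]
  exact and_congr_right' (forall₂_congr fun l _ =>
    ⟨fun h k => by simpa [tl] using h (g * k), fun h k => h _⟩)

theorem mx_le (hz : z ∈ PSet G M) : mx i z ≤ 1 := le_of_forall_gt fun r hr =>
  (mx_lt i).2 ⟨by linarith, fun l _ g => by
    rw [abs_of_nonneg (hz.1 l g).1]; exact (hz.1 l g).2.trans_lt hr⟩

theorem exists_le (hz : z ∈ PSet G M) {r : ℝ} (h0 : 0 < r) (h : r ≤ mx i z) :
    ∃ l : Fin M, (l : ℕ) < i ∧ ∃ g, r ≤ z l g := by
  by_contra h'
  push Not at h'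
  exact h.not_gt ((mx_lt i).2 ⟨h0, fun l hl g => by
    rw [abs_of_nonneg (hz.1 l g).1]; exact h' l hl g⟩)

/-- the function which vanishes on the `i`-th step -/
def uu (z : Fin M → G → ℝ) : ℝ := 2 * (1 - mx i z)

/-- the deformation -/
def hh (z : Fin M → G → ℝ) (t : unitInterval) : Fin M → G → ℝ :=
  fun l g => min 1 ((1 + t * uu i z) * z l g)

theorem uu_nonneg (hz : z ∈ PSet G M) : 0 ≤ uu i z := by
  have := mx_le i hz
  unfold uu
  linarith

theorem uu_eq_zero (hz : z ∈ PSet G M) : uu i z = 0 ↔ z ∈ ESet G M i := by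
  have h1 := mx_le i hz
  refine ⟨fun h => ?_, fun ⟨_, l, hl, g, hg⟩ => ?_⟩
  · obtain ⟨l, hl, g, hg⟩ := exists_le i hz one_pos (by unfold uu at h; linarith)
    exact ⟨hz, l, hl, g, le_antisymm (hz.1 l g).2 hg⟩
  · have : ¬ mx i z < 1 := fun h => by simpa [hg] using ((mx_lt i).1 h).2 l hl g
    unfold uu
    linarith

theorem hh_mem (hz : z ∈ PSet G M) (t : unitInterval) : hh i z t ∈ PSet G M := by
  have h0 := mul_nonneg t.2.1 (uu_nonneg i hz)
  refine ⟨fun l g => ⟨le_min zero_le_one (mul_nonneg (by linarith) (hz.1 l g).1), min_le_left _ _⟩,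
    fun l g k hgk => ?_⟩
  rcases mul_eq_zero.1 (hz.2 l g k hgk) with h | h <;> simp [hh, h]

theorem hh_memE {j : ℕ} (hz : z ∈ ESet G M j) (t : unitInterval) : hh i z t ∈ ESet G M j := by
  obtain ⟨hz, l, hl, g, hg⟩ := hz
  have h0 := mul_nonneg t.2.1 (uu_nonneg i hz)
  exact ⟨hh_mem i hz t, l, hl, g, min_eq_left (by rw [hg]; linarith)⟩

theorem hh_eq (hz : z ∈ PSet G M) {t : unitInterval} (h : t * uu i z = 0) : hh i z t = z :=
  funext₂ fun l g => by
    rw [hh, h, add_zero, _root_.one_mul]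
    exact min_eq_right (hz.1 l g).2

theorem hh_one (hz : z ∈ PSet G M) (h : uu i z < 1) : hh i z 1 ∈ ESet G M i := by
  have h0 := uu_nonneg i hz
  have h1 := mx_le i hz
  obtain ⟨l, hl, g, hg⟩ := exists_le i hz (r := mx i z) (by unfold uu at h; linarith) le_rfl
  refine ⟨hh_mem i hz 1, l, hl, g, min_eq_left ?_⟩
  rw [Set.Icc.coe_one, _root_.one_mul]
  refine le_trans ?_ (mul_le_mul_of_nonneg_left hg (by linarith))
  unfold uu at h ⊢
  nlinarith

theorem hh_tl (g : G) (t : unitInterval) : hh i (tl g z) t = tl g (hh i z t) :=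
  funext₂ fun l k => by simp only [hh, uu, mx_tl]; rfl

theorem dat {S : Set (Fin M → G → ℝ)} [CompactSpace S] (h1 : ESet G M i ⊆ S) (h2 : S ⊆ PSet G M)
    (h3 : ∀ z ∈ S, ∀ t, hh i z t ∈ S) :
    Dat (Set.inclusion h1) (fun z => uu i z.1) fun x => ⟨hh i x.1.1 x.2, h3 _ x.1.2 _⟩ where
  inj := Set.inclusion_injective h1
  cont := by
    have := continuous_mx (G := G) (M := M) i
    unfold uu
    fun_prop
  nn z := uu_nonneg i (h2 z.2)
  zero z := (uu_eq_zero i (h2 z.2)).trans ⟨fun h => ⟨⟨z.1, h⟩, rfl⟩, fun ⟨a, ha⟩ => ha ▸ a.2⟩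
  prop := Continuous.isProperMap (Continuous.subtype_mk (continuous_pi fun l => continuous_pi fun g => by
    have := continuous_mx (G := G) (M := M) i
    have h : Continuous fun x : S × unitInterval => x.1.1 l g :=
      ((continuous_apply_apply l g).comp continuous_subtype_val).comp continuous_fst
    refine continuous_const.min (Continuous.mul ?_ h)
    unfold uu
    fun_prop) _)
  h0 z := Subtype.ext (hh_eq i (h2 z.2) (by simp))
  hA z t h := Subtype.ext (hh_eq i (h2 z.2) (by rw [h, mul_zero]))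
  h1 z h := ⟨⟨_, hh_one i (h2 z.2) h⟩, rfl⟩

end Ndr

open Ndr

/-- the steps are cofibrations in every compact set between them and the power of the star which is
stable under the deformation -/
theorem cofib_ES {G : Type} [Group G] [Finite G] {M : ℕ} (i : ℕ) {S : Set (Fin M → G → ℝ)}
    [CompactSpace S] (h1 : ESet G M i ⊆ S) (h2 : S ⊆ PSet G M)
    (h3 : ∀ z ∈ S, ∀ t, hh i z t ∈ S) :
    Cofib (ofCompact (X := (EG G M i).X) (Y := LC.of S) (Set.inclusion h1) (continuous_inclusion _)) :=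
  Dat.cofib (A := (EG G M i).X) (B := LC.of S) (dat i h1 h2 h3) fun _ => rfl

/-- the steps are cofibrations in the power of the star -/
theorem cofib_EP (G : Type) [Group G] [Finite G] (M i : ℕ) [CompactSpace (PSet G M)] :
    Cofib (ofCompact (X := (EG G M i).X) (Y := LC.of (PSet G M))
      (Set.inclusion fun _ hz => hz.1) (continuous_inclusion _)) :=
  cofib_ES i _ subset_rfl fun _ hz t => hh_mem i hz t

theorem ndr : NDR := fun G _ _ M i => by
  have D := dat i (ESet_mono G M (Nat.le_succ i)) (fun _ hz => hz.1) fun _ hz t => hh_memE i hz t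
  exact ⟨Dat.cofib (A := (EG G M i).X) (B := (EG G M (i + 1)).X) D fun _ => rfl,
    fun W => Dat.cofib_orb (A := Eh M i W) (B := Eh M (i + 1) W) (D.prod W.X) (fun _ => rfl) _
      (fun g b => congrArg (fun x => 2 * (1 - x)) (mx_tl i g))
      fun g b t => Prod.ext (Subtype.ext (hh_tl i g t)) rfl⟩

end Vale.Agent.P261Z.Dl
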