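import Vale.Agent.P251.G.PowLC
import Vale.Agent.P251.G.Glue
import Vale.Agent.P251.G.CellLC
import Vale.Agent.P251.G.Cofib

/-!
# P261, T2 (delta trick): orbit spaces of finite group actions in `LC`
-/

open CategoryTheory MonoidalCategory Filter Topology OnePoint
open Vale.Agent.P251.G Vale.Agent.P251.G.LC

set_option linter.unusedSectionVars false
set_option linter.dupNamespace false

namespace Vale.Agent.P261Z.T2.Orb

/-- an action of `G` on `X` by homeomorphisms -/
abbrev Act (G : Type) [Group G] (X : LC) : Type := G →* (X ≃ₜ X)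

variable {G : Type} [Group G] {X Y Z : LC}

/-- the automorphism of `X` in `LC` given by a group element -/
def act (ρ : Act G X) (g : G) : X ⟶ X := (ofHomeo (ρ g)).hom

@[simp] theorem app_act_coe (ρ : Act G X) (g : G) (x : X) :
    app (act ρ g) (x : OnePoint X) = (ρ g x : X) := rfl

theorem act_one (ρ : Act G X) : act ρ 1 = 𝟙 X := by
  ext x
  rw [app_act_coe, map_one]
  rfl

theorem act_mul (ρ : Act G X) (g h : G) : act ρ (g * h) = act ρ h ≫ act ρ g := by
  ext x
  rw [app_comp, app_act_coe, app_act_coe, app_act_coe, map_mul]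
  rfl

theorem app_act_act (ρ : Act G X) (g h : G) (x : OnePoint X) :
    app (act ρ g) (app (act ρ h) x) = app (act ρ (g * h)) x := by
  rw [act_mul, app_comp]

theorem app_act_one (ρ : Act G X) (x : OnePoint X) : app (act ρ 1) x = x := by
  rw [act_one, app_id]

theorem app_act_inv (ρ : Act G X) (g : G) (x : OnePoint X) :
    app (act ρ g⁻¹) (app (act ρ g) x) = x := by
  rw [app_act_act, inv_mul_cancel, app_act_one]

theorem injective_act (ρ : Act G X) (g : G) : Function.Injective (app (act ρ g)) :=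
  Function.LeftInverse.injective (app_act_inv ρ g)

theorem apply_apply (ρ : Act G X) (g h : G) (x : X) : ρ g (ρ h x) = ρ (g * h) x := by
  rw [map_mul]; rfl

theorem apply_one (ρ : Act G X) (x : X) : ρ 1 x = x := by
  rw [map_one]; rfl

/-- equivariant morphisms -/
def Equi (ρ : Act G X) (ρ' : Act G Y) (f : X ⟶ Y) : Prop :=
  ∀ g, act ρ g ≫ f = f ≫ act ρ' g

theorem Equi.app {ρ : Act G X} {ρ' : Act G Y} {f : X ⟶ Y} (h : Equi ρ ρ' f) (g : G)
    (x : OnePoint X) : app f (app (act ρ g) x) = app (act ρ' g) (app f x) := by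
  rw [← app_comp, h g, app_comp]

theorem Equi.comp {ρ : Act G X} {ρ' : Act G Y} {ρ'' : Act G Z} {f : X ⟶ Y} {k : Y ⟶ Z}
    (h : Equi ρ ρ' f) (h' : Equi ρ' ρ'' k) : Equi ρ ρ'' (f ≫ k) := fun g => by
  rw [← Category.assoc, h g, Category.assoc, h' g, Category.assoc]

theorem Equi.id (ρ : Act G X) : Equi ρ ρ (𝟙 X) := fun g => by simp

/-- The action is free with finite genus: finitely many open sets `{φ j > 0}`, each disjoint from
its translates, whose translates cover. -/
def Genus (ρ : Act G X) : Prop :=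
  ∃ (J : Type) (_ : Fintype J) (φ : J → X → ℝ), (∀ j, Continuous (φ j)) ∧ (∀ j x, 0 ≤ φ j x) ∧
    (∀ j x g, 0 < φ j x → 0 < φ j (ρ g x) → g = 1) ∧ ∀ x, ∃ j g, 0 < φ j (ρ g x)

/-- the diagonal action on a product -/
def prodAct (σ : Act G X) (ρ : Act G Y) : Act G (X ⊗ Y) where
  toFun g := (σ g).prodCongr (ρ g)
  map_one' := by
    rw [map_one, map_one]
    rfl
  map_mul' g h := by
    rw [map_mul, map_mul]
    rfl

theorem act_prodAct (σ : Act G X) (ρ : Act G Y) (g : G) :
    act (prodAct σ ρ) g = act σ g ⊗ₘ act ρ g := by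
  apply tensor_ext
  intro x y
  rw [app_tensorHom_smash]
  rfl

theorem app_act_prodAct (σ : Act G X) (ρ : Act G Y) (g : G) (x : OnePoint X) (y : OnePoint Y) :
    app (act (prodAct σ ρ) g) (smash x y) = smash (app (act σ g) x) (app (act ρ g) y) := by
  rw [act_prodAct, app_tensorHom_smash]

theorem Equi.tensor {X' Y' : LC} {σ : Act G X} {σ' : Act G X'} {ρ : Act G Y} {ρ' : Act G Y'}
    {f : X ⟶ X'} {k : Y ⟶ Y'} (h : Equi σ σ' f) (h' : Equi ρ ρ' k) :
    Equi (prodAct σ ρ) (prodAct σ' ρ') (f ⊗ₘ k) := fun g => by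
  rw [act_prodAct, act_prodAct, tensorHom_comp_tensorHom, tensorHom_comp_tensorHom, h g, h' g]

theorem Equi.whiskerRight {X' : LC} {σ : Act G X} {σ' : Act G X'} (ρ : Act G Y)
    {f : X ⟶ X'} (h : Equi σ σ' f) : Equi (prodAct σ ρ) (prodAct σ' ρ) (f ▷ Y) := by
  rw [← tensorHom_id]
  exact h.tensor (Equi.id ρ)

theorem Equi.whiskerLeft {Y' : LC} (σ : Act G X) {ρ : Act G Y} {ρ' : Act G Y'}
    {k : Y ⟶ Y'} (h : Equi ρ ρ' k) : Equi (prodAct σ ρ) (prodAct σ ρ') (X ◁ k) := by
  rw [← id_tensorHom]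
  exact (Equi.id σ).tensor h

/-! ### The orbit space -/

/-- the orbit relation -/
def orbSetoid (ρ : Act G X) : Setoid X where
  r x y := ∃ g, ρ g x = y
  iseqv :=
    ⟨fun x => ⟨1, apply_one ρ x⟩,
      fun ⟨g, h⟩ => ⟨g⁻¹, by rw [← h, apply_apply, inv_mul_cancel, apply_one]⟩,
      fun ⟨g, h⟩ ⟨g', h'⟩ => ⟨g' * g, by rw [← apply_apply, h, h']⟩⟩

theorem mk_eq_iff (ρ : Act G X) (x y : X) :
    Quotient.mk (orbSetoid ρ) x = Quotient.mk (orbSetoid ρ) y ↔ ∃ g, ρ g x = y :=
  Quotient.eq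

theorem preimage_image_mk (ρ : Act G X) (s : Set X) :
    Quotient.mk (orbSetoid ρ) ⁻¹' (Quotient.mk (orbSetoid ρ) '' s) = ⋃ g, ρ g '' s := by
  ext x
  simp only [Set.mem_preimage, Set.mem_image, Set.mem_iUnion, mk_eq_iff]
  constructor
  · rintro ⟨y, hy, g, h⟩
    exact ⟨g, y, hy, h⟩
  · rintro ⟨g, y, hy, h⟩
    exact ⟨y, hy, g, h⟩

theorem isOpenQuotientMap_mk (ρ : Act G X) :
    IsOpenQuotientMap (Quotient.mk (orbSetoid ρ)) := by
  refine ⟨Quotient.mk_surjective, continuous_quotient_mk', fun s hs => ?_⟩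
  rw [← isQuotientMap_quotient_mk'.isOpen_preimage]
  change IsOpen (Quotient.mk (orbSetoid ρ) ⁻¹' (Quotient.mk (orbSetoid ρ) '' s))
  rw [preimage_image_mk]
  exact isOpen_iUnion fun g => (ρ g).isOpenMap s hs

variable [Finite G]

theorem isProperMap_mk (ρ : Act G X) : IsProperMap (Quotient.mk (orbSetoid ρ)) := by
  rw [isProperMap_iff_isClosedMap_and_compact_fibers]
  refine ⟨continuous_quotient_mk', fun s hs => ?_, fun y => ?_⟩
  · rw [← isQuotientMap_quotient_mk'.isClosed_preimage]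
    change IsClosed (Quotient.mk (orbSetoid ρ) ⁻¹' (Quotient.mk (orbSetoid ρ) '' s))
    rw [preimage_image_mk]
    exact isClosed_iUnion_of_finite fun g => (ρ g).isClosedMap s hs
  · obtain ⟨x, rfl⟩ := Quotient.mk_surjective y
    rw [← Set.image_singleton, preimage_image_mk]
    exact isCompact_iUnion fun g => isCompact_singleton.image (ρ g).continuous

theorem t2Space_orb (ρ : Act G X) : T2Space (Quotient (orbSetoid ρ)) := by
  rw [t2Space_iff_of_isOpenQuotientMap (isOpenQuotientMap_mk ρ)]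
  have : {q : X × X | Quotient.mk (orbSetoid ρ) q.1 = Quotient.mk (orbSetoid ρ) q.2} =
      ⋃ g, {q : X × X | ρ g q.1 = q.2} := by
    ext q
    simp only [Set.mem_ofPred_eq, mk_eq_iff, Set.mem_iUnion]
  rw [this]
  exact isClosed_iUnion_of_finite fun g =>
    isClosed_eq ((ρ g).continuous.comp continuous_fst) continuous_snd

/-- the orbit space -/
def Orb (ρ : Act G X) : LC :=
  haveI := t2Space_orb ρ
  haveI : LocallyCompactSpace (Quotient (orbSetoid ρ)) :=
    (isOpenQuotientMap_mk ρ).locallyCompactSpace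
  LC.of (Quotient (orbSetoid ρ))

/-- the projection to the orbit space -/
def q (ρ : Act G X) : X ⟶ Orb ρ :=
  ofIsProper (Y := Orb ρ) (Quotient.mk (orbSetoid ρ)) (isProperMap_mk ρ)

theorem app_q_coe (ρ : Act G X) (x : X) :
    app (q ρ) (x : OnePoint X) = OnePoint.some (X := Orb ρ) (Quotient.mk (orbSetoid ρ) x) := rfl

theorem surjective_q (ρ : Act G X) : Function.Surjective (app (q ρ)) := by
  intro y
  induction y using OnePoint.rec with
  | infty => exact ⟨∞, app_infty _⟩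
  | coe y =>
    obtain ⟨x, rfl⟩ := Quotient.mk_surjective (s := orbSetoid ρ) y
    exact ⟨x, rfl⟩

theorem q_eq_iff (ρ : Act G X) (x y : OnePoint X) :
    app (q ρ) x = app (q ρ) y ↔ ∃ g, app (act ρ g) x = y := by
  induction x using OnePoint.rec with
  | infty =>
    induction y using OnePoint.rec with
    | infty => exact ⟨fun _ => ⟨1, app_infty _⟩, fun _ => rfl⟩
    | coe y =>
      constructor
      · intro h
        rw [app_infty, app_q_coe] at h
        exact absurd h (OnePoint.infty_ne_coe _)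
      · rintro ⟨g, h⟩
        rw [app_infty] at h
        exact absurd h (OnePoint.infty_ne_coe _)
  | coe x =>
    induction y using OnePoint.rec with
    | infty =>
      constructor
      · intro h
        rw [app_infty, app_q_coe] at h
        exact absurd h (OnePoint.coe_ne_infty _)
      · rintro ⟨g, h⟩
        exact absurd h (OnePoint.coe_ne_infty _)
    | coe y =>
      rw [app_q_coe, app_q_coe]
      refine (OnePoint.coe_eq_coe (X := Orb ρ)).trans ((mk_eq_iff ρ x y).trans ?_)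
      simp only [app_act_coe, OnePoint.coe_eq_coe]

@[reassoc]
theorem act_q (ρ : Act G X) (g : G) : act ρ g ≫ q ρ = q ρ := by
  apply hom_ext'
  intro x
  rw [app_comp]
  exact ((q_eq_iff ρ x _).mpr ⟨g, rfl⟩).symm

theorem q_cancel (ρ : Act G X) {f k : Orb ρ ⟶ Z} (h : q ρ ≫ f = q ρ ≫ k) : f = k := by
  apply hom_ext'
  intro y
  obtain ⟨x, rfl⟩ := surjective_q ρ y
  rw [← app_comp, h, app_comp]

/-- invariant morphisms descend to the orbit space -/
def desc (ρ : Act G X) (f : X ⟶ Z) (hf : ∀ g, act ρ g ≫ f = f) : Orb ρ ⟶ Z :=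
  descend (A := Orb ρ) (Quotient.mk (orbSetoid ρ)) (isProperMap_mk ρ) Quotient.mk_surjective f
    (Quotient.lift (fun x : X => app f (x : OnePoint X)) (by
      rintro x y ⟨g, rfl⟩
      rw [← app_act_coe, ← app_comp, hf g])) (fun _ => rfl)

@[reassoc]
theorem q_desc (ρ : Act G X) (f : X ⟶ Z) (hf : ∀ g, act ρ g ≫ f = f) :
    q ρ ≫ desc ρ f hf = f :=
  ofIsProper_comp_descend (A := Orb ρ) _ _ _ _ _ _

/-- the morphism of orbit spaces induced by an equivariant morphism -/
def omap {ρ : Act G X} {ρ' : Act G Y} {f : X ⟶ Y} (h : Equi ρ ρ' f) : Orb ρ ⟶ Orb ρ' :=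
  desc ρ (f ≫ q ρ') fun g => by rw [← Category.assoc, h g, Category.assoc, act_q]

@[reassoc]
theorem q_omap {ρ : Act G X} {ρ' : Act G Y} {f : X ⟶ Y} (h : Equi ρ ρ' f) :
    q ρ ≫ omap h = f ≫ q ρ' := q_desc _ _ _

theorem app_omap_q {ρ : Act G X} {ρ' : Act G Y} {f : X ⟶ Y} (h : Equi ρ ρ' f) (x : OnePoint X) :
    app (omap h) (app (q ρ) x) = app (q ρ') (app f x) := by
  rw [← app_comp, q_omap, app_comp]

theorem injective_omap {ρ : Act G X} {ρ' : Act G Y} {f : X ⟶ Y} (h : Equi ρ ρ' f)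
    (hf : Function.Injective (app f)) : Function.Injective (app (omap h)) := by
  intro y y' hy
  obtain ⟨x, rfl⟩ := surjective_q ρ y
  obtain ⟨x', rfl⟩ := surjective_q ρ y'
  rw [app_omap_q, app_omap_q, q_eq_iff] at hy
  obtain ⟨g, hg⟩ := hy
  rw [← h.app] at hg
  exact (q_eq_iff ρ x x').mpr ⟨g, hf hg⟩

theorem q_mem_range_omap {ρ : Act G X} {ρ' : Act G Y} {f : X ⟶ Y} (h : Equi ρ ρ' f)
    (y : OnePoint Y) :
    app (q ρ') y ∈ Set.range (app (omap h)) ↔ y ∈ Set.range (app f) := by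
  constructor
  · rintro ⟨z, hz⟩
    obtain ⟨x, rfl⟩ := surjective_q ρ z
    rw [app_omap_q, q_eq_iff] at hz
    obtain ⟨g, hg⟩ := hz
    exact ⟨app (act ρ g) x, by rw [h.app, hg]⟩
  · rintro ⟨x, rfl⟩
    exact ⟨app (q ρ) x, app_omap_q h x⟩

end Vale.Agent.P261Z.T2.Orb
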