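import Mathlib.CategoryTheory.Triangulated.Functor

/-!
# P261, T2 (delta trick): the five lemma for rational transfers
-/

open CategoryTheory Limits Pretriangulated

universe v u v' u'

namespace Vale.Agent.P261Z.T2.Orb

variable {T : Type u} [Category.{v} T] [Preadditive T]

/-- `q : P ⟶ O` has a transfer for the norm `N` -/
def Tf (m : ℕ) {P O : T} (N : P ⟶ P) (q : P ⟶ O) : Prop :=
  ∃ t : O ⟶ P, t ≫ q = m • 𝟙 O ∧ q ≫ t = N

theorem Tf.map {T' : Type u'} [Category.{v'} T'] [Preadditive T'] (Φ : T ⥤ T') [Φ.Additive]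
    {m : ℕ} {P O : T} {N : P ⟶ P} {q : P ⟶ O} (h : Tf m N q) : Tf m (Φ.map N) (Φ.map q) := by
  obtain ⟨t, h1, h2⟩ := h
  refine ⟨Φ.map t, ?_, ?_⟩
  · rw [← Φ.map_comp, h1, Φ.map_nsmul, Φ.map_id]
  · rw [← Φ.map_comp, h2]

theorem tf_of_isZero (m : ℕ) {P O : T} (hP : IsZero P) (hO : IsZero O) (N : P ⟶ P)
    (q : P ⟶ O) : Tf m N q :=
  ⟨0, hO.eq_of_src _ _, hP.eq_of_src _ _⟩

theorem cancel_src {m : ℕ} {A B : T} (h : IsIso (m • 𝟙 A)) {x y : A ⟶ B}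
    (hxy : m • x = m • y) : x = y := by
  rw [← cancel_epi (m • 𝟙 A), Preadditive.nsmul_comp, Preadditive.nsmul_comp, Category.id_comp,
    Category.id_comp, hxy]

/-- the free case: `P` is a sum of translates of `X`, and `X ≅ O` -/
theorem tf_free {G : Type} [Group G] [Fintype G] {X P O : T} (σ : G → (P ⟶ P))
    (hσ : ∀ g h, σ (g * h) = σ h ≫ σ g) (q : P ⟶ O) (hq : ∀ g, σ g ≫ q = q) (ι : X ⟶ P)
    [IsIso (ι ≫ q)] (r : G → (P ⟶ X)) (hr : ∑ g, r g ≫ ι ≫ σ g = 𝟙 P) :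
    Tf (Fintype.card G) (∑ g, σ g) q := by
  have hN : ∀ g, σ g ≫ ∑ h, σ h = ∑ h, σ h := by
    intro g
    rw [Preadditive.comp_sum]
    simp only [← hσ]
    exact Fintype.sum_equiv (Equiv.mulRight g) _ _ fun _ => rfl
  refine ⟨inv (ι ≫ q) ≫ ι ≫ ∑ g, σ g, ?_, ?_⟩
  · have : (∑ g, σ g) ≫ q = Fintype.card G • q := by
      rw [Preadditive.sum_comp]
      simp only [hq, Finset.sum_const, Finset.card_univ]
    rw [Category.assoc, Category.assoc, this, Preadditive.comp_nsmul, Preadditive.comp_nsmul,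
      IsIso.inv_hom_id]
  · calc q ≫ inv (ι ≫ q) ≫ ι ≫ ∑ g, σ g
        = (∑ g, r g ≫ ι ≫ σ g) ≫ q ≫ inv (ι ≫ q) ≫ ι ≫ ∑ g, σ g := by
          rw [hr, Category.id_comp]
      _ = ∑ g, (r g ≫ ι ≫ σ g) ≫ ∑ h, σ h := by
          rw [Preadditive.sum_comp]
          refine Finset.sum_congr rfl fun g _ => ?_
          simp only [Category.assoc]
          rw [hN g, ← Category.assoc (σ g), hq g, ← Category.assoc ι q, IsIso.hom_inv_id_assoc]
      _ = ∑ h, σ h := by rw [← Preadditive.sum_comp, hr, Category.id_comp]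

variable [HasZeroObject T] [HasShift T ℤ] [∀ n : ℤ, (shiftFunctor T n).Additive]
  [Pretriangulated T]

/-- the five lemma for transfers -/
theorem Tf.ext {m : ℕ} {D D' : Triangle T} (hD : D ∈ distTriang T) (hD' : D' ∈ distTriang T)
    (q : D ⟶ D') (N : D ⟶ D) (hq : N.hom₂ ≫ q.hom₂ = m • q.hom₂)
    (hN : N.hom₂ ≫ N.hom₂ = m • N.hom₂) (i₁ : IsIso (m • 𝟙 D'.obj₁))
    (i₃ : IsIso (m • 𝟙 D'.obj₃)) (i₂ : IsIso (m • 𝟙 D.obj₂))
    (h₁ : Tf m N.hom₁ q.hom₁) (h₃ : Tf m N.hom₃ q.hom₃) : Tf m N.hom₂ q.hom₂ := by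
  obtain ⟨t₁, a₁, b₁⟩ := h₁
  obtain ⟨t₃, a₃, b₃⟩ := h₃
  have hc : D'.mor₃ ≫ t₁⟦(1 : ℤ)⟧' = t₃ ≫ D.mor₃ := by
    apply cancel_src i₃
    calc m • (D'.mor₃ ≫ t₁⟦(1 : ℤ)⟧') = (t₃ ≫ q.hom₃) ≫ D'.mor₃ ≫ t₁⟦(1 : ℤ)⟧' := by
          rw [a₃, Preadditive.nsmul_comp, Category.id_comp]
      _ = t₃ ≫ D.mor₃ ≫ (q.hom₁ ≫ t₁)⟦(1 : ℤ)⟧' := by
          rw [Category.assoc, ← Category.assoc q.hom₃, ← q.comm₃, Functor.map_comp,
            Category.assoc]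
      _ = (t₃ ≫ q.hom₃) ≫ t₃ ≫ D.mor₃ := by
          rw [b₁, N.comm₃, ← b₃, Category.assoc, Category.assoc]
      _ = m • (t₃ ≫ D.mor₃) := by rw [a₃, Preadditive.nsmul_comp, Category.id_comp]
  obtain ⟨t₂, c₁, c₂⟩ := complete_distinguished_triangle_morphism₂ D' D hD' hD t₁ t₃ hc
  let U : D' ⟶ D' := Triangle.homMk D' D' (t₁ ≫ q.hom₁) (t₂ ≫ q.hom₂) (t₃ ≫ q.hom₃)
    (by rw [← Category.assoc, c₁, Category.assoc, q.comm₁, Category.assoc])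
    (by rw [← Category.assoc, c₂, Category.assoc, q.comm₂, Category.assoc])
    (by rw [Functor.map_comp, ← Category.assoc, hc, Category.assoc, q.comm₃, Category.assoc])
  have hU : IsIso (t₂ ≫ q.hom₂) := by
    refine isIso₂_of_isIso₁₃ U hD' hD' ?_ ?_
    · change IsIso (t₁ ≫ q.hom₁)
      rw [a₁]; exact i₁
    · change IsIso (t₃ ≫ q.hom₃)
      rw [a₃]; exact i₃
  have hv1 : D.mor₁ ≫ (q.hom₂ ≫ t₂ - N.hom₂) = 0 := by
    rw [Preadditive.comp_sub, N.comm₁, ← Category.assoc, q.comm₁, Category.assoc, c₁,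
      ← Category.assoc, b₁, sub_self]
  have hv2 : (q.hom₂ ≫ t₂ - N.hom₂) ≫ D.mor₂ = 0 := by
    rw [Preadditive.sub_comp, ← N.comm₂, Category.assoc, ← c₂, ← Category.assoc, ← q.comm₂,
      Category.assoc, b₃, sub_self]
  obtain ⟨w, hw⟩ := Triangle.yoneda_exact₂ D hD _ hv1
  have hvv : (q.hom₂ ≫ t₂ - N.hom₂) ≫ (q.hom₂ ≫ t₂ - N.hom₂) = 0 := by
    nth_rewrite 2 [hw]
    rw [← Category.assoc, hv2, zero_comp]
  have hker : ∀ x : D.obj₂ ⟶ D.obj₂, x ≫ q.hom₂ = 0 → x ≫ N.hom₂ = 0 := by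
    intro x hx
    have h1 : (x ≫ N.hom₂) ≫ q.hom₂ = 0 := by
      rw [Category.assoc, hq, Preadditive.comp_nsmul, hx, smul_zero]
    have h2 : (x ≫ N.hom₂) ≫ (q.hom₂ ≫ t₂ - N.hom₂) = -(m • (x ≫ N.hom₂)) := by
      rw [Preadditive.comp_sub, ← Category.assoc, h1, zero_comp, Category.assoc, hN,
        Preadditive.comp_nsmul, zero_sub]
    have h3 : m • m • (x ≫ N.hom₂) = 0 := by
      have h4 : (x ≫ N.hom₂) ≫ (q.hom₂ ≫ t₂ - N.hom₂) ≫ (q.hom₂ ≫ t₂ - N.hom₂) =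
          m • m • (x ≫ N.hom₂) := by
        rw [← Category.assoc, h2, Preadditive.neg_comp, Preadditive.nsmul_comp, h2, smul_neg,
          neg_neg]
      rw [← h4, hvv, comp_zero]
    exact cancel_src i₂ ((cancel_src i₂ (h3.trans (smul_zero m).symm)).trans (smul_zero m).symm)
  refine ⟨inv (t₂ ≫ q.hom₂) ≫ t₂ ≫ N.hom₂, ?_, ?_⟩
  · rw [Category.assoc, Category.assoc, hq, Preadditive.comp_nsmul, Preadditive.comp_nsmul,
      IsIso.inv_hom_id]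
  · have h5 := hker (𝟙 _ - q.hom₂ ≫ inv (t₂ ≫ q.hom₂) ≫ t₂) (by
      rw [Preadditive.sub_comp, Category.id_comp, Category.assoc, Category.assoc,
        IsIso.inv_hom_id, Category.comp_id, sub_self])
    rw [Preadditive.sub_comp, Category.id_comp, sub_eq_zero] at h5
    simp only [Category.assoc] at h5
    exact h5.symm

end Vale.Agent.P261Z.T2.Orb
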