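import Vale.Agent.P261Z.T2.DRule
import Mathlib.GroupTheory.Perm.Option

/-!
# P261, block T2, theorem DELTA: traces of powers and of permutations
-/

open CategoryTheory MonoidalCategory Limits Pretriangulated

set_option linter.unusedSectionVars false

noncomputable section

universe v u

namespace Vale.Agent.P261Z.Dl

open Vale.Agent.P251 Vale.Agent.P251.T Vale.Agent.P251.S Vale.Agent.P251.I Vale.Agent.P251.G
  Vale.Agent.P251.G.LC Ru

namespace Pm

theorem ind {P : ∀ (J : Type) [Finite J], Prop}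
    (h1 : ∀ {J K : Type} [Finite J] [Finite K], J ≃ K → P J → P K) (h2 : P PEmpty)
    (h3 : ∀ {J : Type} [Finite J], P J → P (Option J)) (J : Type) [h : Finite J] : P J :=
  Finite.induction_empty_option (P := fun J => ∀ [Finite J], P J)
    (fun e ih _ => have := Finite.of_equiv _ e.symm; h1 e ih) h2 (fun ih _ => h3 ih) J

/-- the number of invariant functions -/
def fx (M : ℕ) {J : Type} (σ : Equiv.Perm J) : ℕ := Nat.card {u : J → Fin M // u ∘ σ = u}

theorem fx_congr (M : ℕ) {J K : Type} (e : J ≃ K) (σ : Equiv.Perm J) :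
    fx M (e.permCongr σ) = fx M σ :=
  Nat.card_congr
    { toFun := fun u => ⟨u.1 ∘ e, funext fun j => by simpa using congrFun u.2 (e j)⟩
      invFun := fun u => ⟨u.1 ∘ e.symm, funext fun k => by simpa using congrFun u.2 (e.symm k)⟩
      left_inv := fun u => Subtype.ext (funext fun k => congrArg u.1 (e.apply_symm_apply k))
      right_inv := fun u => Subtype.ext (funext fun j => congrArg u.1 (e.symm_apply_apply j)) }

theorem fx_empty (M : ℕ) {J : Type} [IsEmpty J] (σ : Equiv.Perm J) : fx M σ = 1 :=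
  Nat.card_eq_one_iff_unique.2 ⟨inferInstance, ⟨fun j => isEmptyElim j, Subsingleton.elim _ _⟩⟩

theorem fx_none (M : ℕ) {J : Type} (σ : Equiv.Perm J) : fx M σ.optionCongr = fx M σ * M := by
  have e : {u : Option J → Fin M // u ∘ σ.optionCongr = u} ≃
      {u : J → Fin M // u ∘ σ = u} × Fin M :=
    { toFun := fun u => (⟨fun j => u.1 (some j), funext fun j => congrFun u.2 (some j)⟩, u.1 none)
      invFun := fun u => ⟨fun o => o.elim u.2 u.1.1, funext fun o => by
        cases o with
        | none => rfl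
        | some j => exact congrFun u.1.2 j⟩
      left_inv := fun u => Subtype.ext (funext fun o => by cases o <;> rfl)
      right_inv := fun _ => rfl }
  rw [fx, Nat.card_congr e, Nat.card_prod, Nat.card_fin, fx]

theorem fx_some (M : ℕ) {J : Type} [DecidableEq (Option J)] (σ : Equiv.Perm J) (b : J) :
    fx M (Equiv.swap none (some b) * σ.optionCongr) = fx M σ := by
  have h : ∀ u : Option J → Fin M, u (some b) = u none → ∀ o,
      u ((Equiv.swap none (some b) * σ.optionCongr) o) = u (o.map σ) :=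
    fun u hu o => Equiv.apply_swap_eq_self hu.symm _
  have h' : ∀ u : Option J → Fin M, u ∘ (Equiv.swap none (some b) * σ.optionCongr :) = u →
      u (some b) = u none := fun u hu => by simpa using congrFun hu none
  exact Nat.card_congr
    { toFun := fun u => ⟨fun j => u.1 (some j), funext fun j =>
        (h u.1 (h' u.1 u.2) (some j)).symm.trans (congrFun u.2 (some j))⟩
      invFun := fun u => ⟨fun o => o.elim (u.1 b) u.1, funext fun o =>
        (h (fun o => o.elim (u.1 b) u.1) rfl o).trans (by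
          cases o with
          | none => rfl
          | some j => exact congrFun u.2 j)⟩
      left_inv := fun u => Subtype.ext (funext fun o => by
        cases o with
        | none => exact h' u.1 u.2
        | some j => rfl)
      right_inv := fun _ => rfl }

variable {T : Type u} [Category.{v} T] [Preadditive T] [HasZeroObject T]
    [HasShift T ℤ] [∀ n : ℤ, (shiftFunctor T n).Additive] [Pretriangulated T]
    [MonoidalCategory T] [SymmetricCategory T] [TensorTriangulated T]
    (F : SpaceFunctor T) (τ : TrR T)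

/-- the empty power -/
def nilIso (A : LC) (J : Type) [IsEmpty J] : powObj J A ≅ 𝟙_ LC :=
  ofHomeo (X := powObj J A) (Y := LC.of Unit) (Homeomorph.homeomorphOfUnique _ _)

theorem l_nil {J : Type} [IsEmpty J] (A : FCat) : l F τ (𝟙 (pwF J A)) = 1 :=
  (l_conj F τ (B := 𝟙_ FCat) (nilIso A.obj J)
    ((Category.id_comp _).trans (Category.comp_id _).symm)).trans (l_one F τ)

theorem l_pow {A : FCat} (g : A ⟶ A) (J : Type) [Finite J] :
    l F τ (pwH J g) = l F τ g ^ Nat.card J := by
  refine ind (P := fun J _ => l F τ (pwH J g) = l F τ g ^ Nat.card J) (fun e ih => ?_) ?_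
    (fun {J} _ ih => ?_) J
  · rw [← Nat.card_congr e, ← ih]
    exact (l_conj F τ (reIso A.obj e) (reIso_powHom e g.hom).symm).symm
  · have h : pwH PEmpty g = 𝟙 _ := ObjectProperty.hom_ext _ (by
      ext a
      exact OP.smash_eq_coe_iff.2 fun j => j.elim)
    rw [h, l_nil, Nat.card_of_isEmpty, pow_zero]
  · rw [Finite.card_option, pow_succ, ← ih, ← l_ten]
    exact (l_conj F τ (A := pwF J A ⊗ A) (optIso A.obj J) (optIso_powHom J g.hom)).symm

theorem l_congr (A : FCat) {J K : Type} [Finite J] [Finite K] (e : J ≃ K) (σ : Equiv.Perm J) :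
    l F τ (pmF A (e.permCongr σ)) = l F τ (pmF A σ) :=
  (l_conj F τ (reIso A.obj e) (reIso_perm A.obj e σ)).symm

theorem l_none (A : FCat) {J : Type} [Finite J] (σ : Equiv.Perm J) :
    l F τ (pmF A σ.optionCongr) = l F τ (pmF A σ) * l F τ (𝟙 A) := by
  rw [← l_ten]
  exact (l_conj F τ (A := pwF J A ⊗ A) (optIso A.obj J) (optIso_perm A.obj σ)).symm

theorem l_some' (A : FCat) {J : Type} [Finite J] [DecidableEq (Option (Option J))]
    (σ : Equiv.Perm (Option J)) :
    l F τ (pmF A (Equiv.swap none (some none) * σ.optionCongr)) = l F τ (pmF A σ) := by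
  let e := optIso A.obj J
  let h : pwF J A ⊗ A ⟶ pwF J A ⊗ A := FCat.hom (e.hom ≫ perm A.obj σ ≫ e.inv)
  have w : (e.hom ≫ perm A.obj σ ≫ e.inv) ≫ e.hom = e.hom ≫ perm A.obj σ := by simp
  refine (l_conj F τ (A := (pwF J A ⊗ A) ⊗ A)
    (whiskerRightIso e A.obj ≪≫ optIso A.obj (Option J)) ?_).symm.trans
    ((l_swap F τ h (𝟙 A)).trans (l_conj F τ (A := pwF J A ⊗ A) e ?_))
  · show (((e.hom ≫ perm A.obj σ ≫ e.inv) ⊗ₘ 𝟙 A.obj) ≫ (α_ _ A.obj A.obj).hom ≫
      powObj J A.obj ◁ (β_ A.obj A.obj).hom ≫ (α_ _ A.obj A.obj).inv) ≫ e.hom ▷ A.obj ≫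
      (optIso A.obj (Option J)).hom = (e.hom ▷ A.obj ≫ (optIso A.obj (Option J)).hom) ≫
      perm A.obj (Equiv.swap none (some none) * σ.optionCongr)
    rw [Category.assoc, optIso_swap, perm_mul, Category.assoc, Category.assoc,
      ← reassoc_of% optIso_perm A.obj σ, tensorHom_id, tensorHom_id,
      ← comp_whiskerRight_assoc, ← comp_whiskerRight_assoc, w]
  · rw [whiskerLeft_id, Category.comp_id]
    exact w

theorem l_some (A : FCat) {J : Type} [Finite J] [DecidableEq J] (σ : Equiv.Perm J) (b : J) :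
    l F τ (pmF A (Equiv.swap none (some b) * σ.optionCongr)) = l F τ (pmF A σ) := by
  let e := Equiv.optionSubtypeNe b
  obtain ⟨ρ, rfl⟩ := e.permCongr.surjective σ
  rw [l_congr, ← l_some' F τ A ρ, ← l_congr F τ A e.optionCongr]
  congr 2
  rw [Equiv.permCongr_mul]
  congr 1
  · rw [Equiv.permCongr_def, Equiv.symm_trans_swap_trans]
    rfl
  · ext1 o
    cases o <;> rfl

theorem l_fix (A : FCat) (M : ℕ) (hM : l F τ (𝟙 A) = M) (J : Type) [Finite J] :
    ∀ σ : Equiv.Perm J, l F τ (pmF A σ) = fx M σ := by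
  refine ind (P := fun J _ => ∀ σ : Equiv.Perm J, l F τ (pmF A σ) = fx M σ)
    (fun e ih σ => ?_) (fun σ => ?_) (fun {J} _ ih σ => ?_) J
  · obtain ⟨ρ, rfl⟩ := e.permCongr.surjective σ
    rw [l_congr, fx_congr, ih]
  · rw [fx_empty, Subsingleton.elim σ 1,
      show pmF A (1 : Equiv.Perm PEmpty.{1}) = 𝟙 _ from ObjectProperty.hom_ext _ (perm_one A.obj),
      l_nil, Nat.cast_one]
  · classical
    obtain ⟨⟨a, ρ⟩, rfl⟩ := Equiv.Perm.decomposeOption.symm.surjective σ
    rw [Equiv.Perm.decomposeOption_symm_apply]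
    cases a with
    | none =>
      rw [Equiv.swap_self, ← Equiv.Perm.one_def, one_mul, l_none, fx_none, ih, hM, Nat.cast_mul]
    | some b => rw [l_some, fx_some, ih]

end Pm

variable {T : Type u} [Category.{v} T] [Preadditive T] [HasZeroObject T]
    [HasShift T ℤ] [∀ n : ℤ, (shiftFunctor T n).Additive] [Pretriangulated T]
    [MonoidalCategory T] [SymmetricCategory T] [TensorTriangulated T]

theorem perm1 (F : SpaceFunctor T) (τ : TrR T) : PERM1 F τ where
  pow J _ _ g := Pm.l_pow F τ g J
  fix J _ A M hM σ := Pm.l_fix F τ A M ((congrArg τ.tr (F.S.map_id A)).trans hM) J σ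

end Vale.Agent.P261Z.Dl
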