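import Vale.Agent.P261Z.T2.DSk

/-!
# P261, block T2, theorem DELTA: the trace of a cyclic permutation composed with a power
-/

open CategoryTheory MonoidalCategory Limits Pretriangulated Topology OnePoint

set_option linter.unusedSectionVars false

noncomputable section

universe v u

namespace Vale.Agent.P261Z.Dl

open Vale.Agent.P251 Vale.Agent.P251.T Vale.Agent.P251.S Vale.Agent.P251.I Vale.Agent.P251.G
  Vale.Agent.P251.G.LC

namespace Perm2

/-- splitting off the first factor, placed on the right -/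
def sIso (A : LC) (n : ℕ) : powObj (Fin n) A ⊗ A ≅ powObj (Fin (n + 1)) A :=
  β_ _ _ ≪≫ consIso A n

theorem app_sIso (A : LC) (n : ℕ) (x : Fin (n + 1) → OnePoint A) :
    app (sIso A n).hom (smash (OP.smash fun i : Fin n => x i.succ) (x 0)) = OP.smash x := by
  by_cases h : ∀ j, ∃ z : A, (z : OnePoint A) = x j
  · choose z hz using h
    obtain rfl : (fun j => (z j : OnePoint A)) = x := funext hz
    rw [OP.smash_coe, OP.smash_coe]
    exact congrArg OnePoint.some (Fin.cons_self_tail z)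
  · push Not at h
    obtain ⟨j, hj⟩ := h
    have hj' : x j = ∞ := by_contra fun e => (OnePoint.ne_infty_iff_exists.1 e).elim hj
    rw [OP.smash_infty x hj', smash_eq_infty.2, app_infty]
    induction j using Fin.cases with
    | zero => exact Or.inr hj'
    | succ j => exact Or.inl (OP.smash_infty _ (j := j) hj')

theorem sIso_pow {A : LC} (g : A ⟶ A) (n : ℕ) :
    (sIso A n).hom ≫ powHom _ g = (powHom _ g ⊗ₘ g) ≫ (sIso A n).hom :=
  tensor_ext fun b a => (app_sIso A n fun j => app g ((Fin.cons a b : Fin (n + 1) → A) j)).symm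

/-- the rotation -/
def rot (A : LC) (n : ℕ) : powObj (Fin n) A ⊗ A ⟶ powObj (Fin n) A ⊗ A :=
  (sIso A n).hom ≫ perm A (finRotate (n + 1)) ≫ (sIso A n).inv

theorem rot_zero (A : LC) : rot A 0 = 𝟙 _ := by
  rw [rot, show finRotate (0 + 1) = 1 from finRotate_one, perm_one, Category.id_comp,
    Iso.hom_inv_id]

theorem rot_succ (A : LC) (n : ℕ) : rot A (n + 1) = (sIso A n).inv ▷ A ≫ rot A n ▷ A ≫
    ((α_ _ A A).hom ≫ _ ◁ (β_ A A).hom ≫ (α_ _ A A).inv) ≫ (sIso A n).hom ▷ A := by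
  have h0 : ∀ m, (finRotate (m + 1)).symm 0 = Fin.last m := fun m =>
    (Equiv.symm_apply_eq _).2 finRotate_last.symm
  have h1 : ∀ m (i : Fin m), (finRotate (m + 1)).symm i.succ = i.castSucc := fun m i =>
    (Equiv.symm_apply_eq _).2 (finRotate_of_lt i.2).symm
  refine tensor_ext fun b a => congrArg OnePoint.some (Prod.ext (funext fun j => ?_) ?_)
  · change (Fin.cons a b : Fin (n + 2) → A) ((finRotate _).symm j.succ) = (Fin.cons a fun i =>
      (Fin.cons (b 0) fun i => b i.succ : Fin (n + 1) → A) ((finRotate _).symm i.succ) :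
        Fin (n + 1) → A) j
    rw [h1]
    induction j using Fin.cases with
    | zero => rfl
    | succ j =>
      rw [Fin.cons_succ, h1, ← Fin.succ_castSucc, Fin.cons_succ]
      exact (congrFun (Fin.cons_self_tail b) _).symm
  · change (Fin.cons a b : Fin (n + 2) → A) ((finRotate _).symm 0) =
      (Fin.cons (b 0) fun i => b i.succ : Fin (n + 1) → A) ((finRotate _).symm 0)
    rw [h0, h0, ← Fin.succ_last, Fin.cons_succ]
    exact (congrFun (Fin.cons_self_tail b) _).symm

variable {T : Type u} [Category.{v} T] [Preadditive T] [HasZeroObject T]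
    [HasShift T ℤ] [∀ n : ℤ, (shiftFunctor T n).Additive] [Pretriangulated T]
    [MonoidalCategory T] [SymmetricCategory T] [TensorTriangulated T]
    (F : SpaceFunctor T) (τ : TrR T)

theorem cyc {X Y : FCat} (a : X ⟶ Y) (b : Y ⟶ X) :
    τ.tr (F.S.map (a ≫ b)) = τ.tr (F.S.map (b ≫ a)) := by
  rw [F.S.map_comp, F.S.map_comp, τ.cyc (fn_S F X) (fn_S F Y)]

theorem conj {X Y : FCat} (e : X.obj ≅ Y.obj) {a : X ⟶ X} {b : Y ⟶ Y}
    (h : a.hom ≫ e.hom = e.hom ≫ b.hom) : τ.tr (F.S.map a) = τ.tr (F.S.map b) := by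
  rw [show a = FCat.hom (a.hom ≫ e.hom) ≫ FCat.hom e.inv from ObjectProperty.hom_ext _ (by simp),
    cyc, h]
  exact congrArg (fun x => τ.tr (F.S.map x)) (ObjectProperty.hom_ext _ (by simp))

open Functor.LaxMonoidal Functor.OplaxMonoidal Functor.Monoidal in
theorem swap {Z X : FCat} (h : Z ⊗ X ⟶ Z ⊗ X) (k : X ⟶ X) :
    τ.tr (F.S.map ((h ⊗ₘ k) ≫ (α_ Z X X).hom ≫ Z ◁ (β_ X X).hom ≫ (α_ Z X X).inv)) =
      τ.tr (F.S.map (h ≫ Z ◁ k)) := by
  have hZ := fn_S F Z
  have hX := fn_S F X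
  have h1 := τ.swap hZ hX (μ F.S Z X ≫ F.S.map h ≫ δ F.S Z X) (F.S.map k)
  have h2 := τ.cyc (hZ.tensor hX) (fn_S F _) (μ F.S Z X) (F.S.map (h ≫ Z ◁ k) ≫ δ F.S Z X)
  have h3 := τ.cyc ((hZ.tensor hX).tensor hX) (fn_S F _) (μ F.S Z X ▷ _ ≫ μ F.S (Z ⊗ X) X)
    (F.S.map ((h ⊗ₘ k) ≫ (α_ Z X X).hom ≫ Z ◁ (β_ X X).hom ≫ (α_ Z X X).inv) ≫
      δ F.S (Z ⊗ X) X ≫ δ F.S Z X ▷ _)
  simp only [Category.assoc, δ_μ, Category.comp_id, whiskerRight_δ_μ_assoc] at h2 h3
  rw [← h2, ← h3]
  refine (congrArg τ.tr ?_).trans (h1.trans (congrArg τ.tr ?_))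
  · simp only [Functor.map_comp, map_tensor, map_associator, map_associator_inv, map_whiskerLeft,
      Functor.map_braiding, Category.assoc, μ_δ_assoc, whiskerLeft_comp, whiskerLeft_μ_δ_assoc,
      whiskerRight_μ_δ, Category.comp_id]
    simp only [MonoidalCategory.tensorHom_def, comp_whiskerRight, whisker_exchange_assoc,
      Category.assoc]
  · simp only [Functor.map_comp, map_whiskerLeft, Category.assoc, μ_δ, Category.comp_id]

theorem main {A : FCat} (g : End A) (n : ℕ) : ∀ k : End A,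
    τ.tr (F.S.map (X := pwF (Fin n) A ⊗ A) (Y := pwF (Fin n) A ⊗ A)
      ((pwH (Fin n) g ⊗ₘ k) ≫ FCat.hom (rot A.obj n))) = τ.tr (F.S.map (g ^ n * k : End A)) := by
  induction n with
  | zero =>
    intro k
    rw [pow_zero, one_mul, rot_zero]
    refine conj F τ (ofHomeo (Homeomorph.uniqueProd (Fin 0 → A.obj) A.obj))
      (tensor_ext fun b a => ?_)
    change app (X := powObj (Fin 0) A.obj ⊗ A.obj) (ofHomeo (Homeomorph.uniqueProd _ _)).hom
      (smash (OP.smash fun j => app g.hom (b j)) (app k.hom a)) = app k.hom a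
    rw [show (fun j => app g.hom (b j)) = fun j => (b j : OnePoint A.obj) from
      Subsingleton.elim _ _, OP.smash_coe]
    induction app k.hom a using OnePoint.rec <;> rfl
  | succ n ih =>
    intro k
    rw [pow_succ, mul_assoc, ← ih, End.mul_def, ← Category.id_comp (pwH (Fin n) g),
      ← tensorHom_comp_tensorHom, id_tensorHom, Category.assoc, cyc F τ (_ ◁ k), ← swap]
    refine (conj F τ (whiskerRightIso (sIso A.obj n) A.obj) ?_).symm
    change (((powHom _ g.hom ⊗ₘ g.hom) ≫ rot A.obj n ⊗ₘ k.hom) ≫ (α_ _ _ _).hom ≫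
      _ ◁ (β_ A.obj A.obj).hom ≫ (α_ _ _ _).inv) ≫ (sIso A.obj n).hom ▷ _ =
      (sIso A.obj n).hom ▷ _ ≫ (powHom _ g.hom ⊗ₘ k.hom) ≫ rot A.obj (n + 1)
    rw [rot_succ, ← (Iso.inv_comp_eq _).2 (sIso_pow g.hom n).symm]
    simp only [MonoidalCategory.tensorHom_def, comp_whiskerRight, Category.assoc,
      whisker_exchange_assoc, hom_inv_whiskerRight_assoc]

end Perm2

open Perm2 in
theorem perm2 {T : Type u} [Category.{v} T] [Preadditive T] [HasZeroObject T]
    [HasShift T ℤ] [∀ n : ℤ, (shiftFunctor T n).Additive] [Pretriangulated T]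
    [MonoidalCategory T] [SymmetricCategory T] [TensorTriangulated T]
    (F : SpaceFunctor T) (τ : TrR T) : PERM2 F τ := by
  intro G _ _ hp k hk A g
  obtain ⟨n, hn⟩ := Nat.exists_eq_succ_of_ne_zero hp.ne_zero
  have ho : orderOf k = n + 1 := ((hp.eq_one_or_self_of_dvd _ (orderOf_dvd_natCard k)).resolve_left
    (mt orderOf_eq_one_iff.1 hk)).trans hn
  let e : Fin (n + 1) ≃ G := Equiv.ofBijective (fun i => k ^ (i : ℕ))
    ((Nat.bijective_iff_injective_and_card _).2 ⟨fun i j h => Fin.ext (pow_injOn_Iio_orderOf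
      (i.2.trans_eq ho.symm) (j.2.trans_eq ho.symm) h), by rw [hn, Nat.card_fin]⟩)
  have he : (finRotate (n + 1)).trans e = e.trans (Equiv.mulLeft k) := Equiv.ext fun i => by
    change k ^ ((finRotate (n + 1) i : Fin (n + 1)) : ℕ) = k * k ^ (i : ℕ)
    rw [finRotate_apply, Fin.val_add, Fin.val_one', Nat.add_mod_mod, ← pow_succ',
      ← pow_mod_orderOf k (_ + 1), ho]
  have h1 : perm A.obj (finRotate (n + 1)) ≫ (reIso A.obj e).hom =
      (reIso A.obj e).hom ≫ perm A.obj (Equiv.mulLeft k) :=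
    hom_ext fun a => congrArg (fun σ => app (reIso A.obj σ).hom (OnePoint.some a)) he
  rw [hn, pow_succ, ← main F τ g n g]
  refine (conj F τ (sIso A.obj n ≪≫ reIso A.obj e) ?_).symm
  change ((powHom _ g.hom ⊗ₘ g.hom) ≫ rot A.obj n) ≫ (sIso A.obj n).hom ≫ (reIso A.obj e).hom =
    ((sIso A.obj n).hom ≫ (reIso A.obj e).hom) ≫ perm A.obj (Equiv.mulLeft k) ≫ powHom G g.hom
  rw [perm_powHom, Category.assoc, Category.assoc, reassoc_of% (reIso_powHom e g.hom),
    reassoc_of% (sIso_pow g.hom n), ← h1, rot]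
  simp only [Category.assoc, Iso.inv_hom_id_assoc]

end Vale.Agent.P261Z.Dl
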