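import Vale.Agent.P261Z.T2.DSk

/-!
# P261, block T2, theorem DELTA: small endomorphisms
-/

open CategoryTheory MonoidalCategory Limits Pretriangulated Preadditive

set_option linter.unusedSectionVars false

noncomputable section

universe v u

namespace Vale.Agent.P261Z.Dl

open Vale.Agent.P251 Vale.Agent.P251.T Vale.Agent.P251.S

namespace SmH

theorem fi_comap {A B : Type*} [AddCommGroup A] [AddCommGroup B] (q : A →+ B) {N : AddSubgroup B}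
    (h : N.FiniteIndex) : (N.comap q).FiniteIndex :=
  ⟨by rw [AddSubgroup.index_comap]; exact AddSubgroup.FiniteIndex.index_ne_zero⟩

section alg

variable {T : Type u} [Category.{v} T] [Preadditive T] {Y₁ Y₂ Y₃ Z₁ Z₂ Z₃ : T} {a : End Y₁}
  {b : End Y₂} {c : End Y₃}

omit [Preadditive T] in
theorem pw_add (i j : ℕ) (x : Y₁ ⟶ Z₁) :
    (a ^ (i + j) : End Y₁) ≫ x = (a ^ j : End Y₁) ≫ (a ^ i : End Y₁) ≫ x := by
  rw [pow_add, End.mul_def, Category.assoc]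

theorem pw (i : (Y₁ ⟶ Z₁) →+ (Y₂ ⟶ Z₂)) (hi : ∀ x, i (a ≫ x) = b ≫ i x) (j : ℕ) (x : Y₁ ⟶ Z₁) :
    i ((a ^ j : End Y₁) ≫ x) = (b ^ j : End Y₂) ≫ i x := by
  induction j with
  | zero => simp
  | succ j ih => rw [pw_add, pw_add, pow_one, pow_one, hi, ih]

end alg

variable {T : Type u} [Category.{v} T] [Preadditive T] [HasZeroObject T]
    [HasShift T ℤ] [∀ n : ℤ, (shiftFunctor T n).Additive] [Pretriangulated T]
    [MonoidalCategory T] [SymmetricCategory T] [TensorTriangulated T]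
    {Y₁ Y₂ Y₃ Z₁ Z₂ Z₃ Λ : T} {a : End Y₁} {b : End Y₂} {c : End Y₃}

theorem inj (i : (Y₁ ⟶ Z₁) →+ (Y₂ ⟶ Z₂)) (hi : ∀ x, i (a ≫ x) = b ≫ i x)
    (h : Function.Injective i) (hb : (Nil b Z₂).FiniteIndex) : (Nil a Z₁).FiniteIndex :=
  haveI := fi_comap i hb
  AddSubgroup.finiteIndex_of_le (H := (Nil b Z₂).comap i) fun x ⟨j, hj⟩ =>
    ⟨j, h ((pw i hi j x).trans (hj.trans (map_zero i).symm))⟩

theorem le_comap (i : (Y₁ ⟶ Z₁) →+ (Y₂ ⟶ Z₂)) (hi : ∀ x, i (a ≫ x) = b ≫ i x) :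
    Nil a Z₁ ≤ (Nil b Z₂).comap i := fun x ⟨j, hj⟩ =>
  ⟨j, by rw [← pw i hi, hj, map_zero]⟩

theorem surj (i : (Y₁ ⟶ Z₁) →+ (Y₂ ⟶ Z₂)) (hi : ∀ x, i (a ≫ x) = b ≫ i x)
    (h : Function.Surjective i) (ha : (Nil a Z₁).FiniteIndex) : (Nil b Z₂).FiniteIndex :=
  ⟨AddSubgroup.index_comap_of_surjective (Nil b Z₂) h ▸
    (AddSubgroup.finiteIndex_of_le (le_comap i hi)).index_ne_zero⟩

theorem onto (ha : (Nil a Z₁).FiniteIndex) (j : ℕ) (y : Y₁ ⟶ Z₁) :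
    ∃ y', (a ^ j : End Y₁) ≫ y' - y ∈ Nil a Z₁ := by
  have h : Function.Injective (QuotientAddGroup.map (Nil a Z₁) (Nil a Z₁)
      (leftComp Z₁ (a ^ j : End Y₁)) (le_comap _ fun x => by
        change (a ^ j : End Y₁) ≫ a ≫ x = a ≫ (a ^ j : End Y₁) ≫ x
        have h1 := pw_add (a := a) j 1 x
        rwa [add_comm, pw_add, pow_one] at h1)) := by
    refine (injective_iff_map_eq_zero _).2 fun x hx => ?_
    obtain ⟨x, rfl⟩ := QuotientAddGroup.mk_surjective x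
    obtain ⟨k, hk⟩ := (QuotientAddGroup.eq_zero_iff _).1 hx
    exact (QuotientAddGroup.eq_zero_iff _).2 ⟨j + k, (pw_add j k x).trans hk⟩
  obtain ⟨x, hx⟩ := Finite.surjective_of_injective h y
  obtain ⟨x, rfl⟩ := QuotientAddGroup.mk_surjective x
  exact ⟨x, QuotientAddGroup.eq_iff_sub_mem.1 hx⟩

theorem mid (i : (Y₁ ⟶ Z₁) →+ (Y₂ ⟶ Z₂)) (q : (Y₂ ⟶ Z₂) →+ (Y₃ ⟶ Z₃))
    (hi : ∀ x, i (a ≫ x) = b ≫ i x) (hq : ∀ x, q (b ≫ x) = c ≫ q x)
    (h : ∀ x, q x = 0 → ∃ y, x = i y) (ha : (Nil a Z₁).FiniteIndex)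
    (hc : (Nil c Z₃).FiniteIndex) : (Nil b Z₂).FiniteIndex := by
  have h1 := fi_comap q hc
  have h2 : (Nil c Z₃).comap q ≤ Nil b Z₂ ⊔ i.range := by
    rintro x ⟨j, hj⟩
    obtain ⟨y, hy⟩ := h _ ((pw q hq j x).trans hj)
    obtain ⟨y', hy'⟩ := onto ha j y
    obtain ⟨k, hk⟩ := le_comap i hi hy'
    refine AddSubgroup.mem_sup.2 ⟨-(i y' - x), neg_mem ⟨j + k, ?_⟩, i y', ⟨y', rfl⟩, by simp⟩
    rwa [pw_add, comp_sub, hy, ← pw i hi, ← map_sub]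
  refine ⟨?_⟩
  rw [← AddSubgroup.relIndex_mul_index (le_sup_left (b := i.range)),
    AddSubgroup.relIndex_sup_left, ← AddSubgroup.index_comap]
  exact mul_ne_zero (AddSubgroup.finiteIndex_of_le (le_comap i hi)).index_ne_zero
    (AddSubgroup.finiteIndex_of_le h2).index_ne_zero

theorem of_iso (e : Y₁ ≅ Y₂) (h : a ≫ e.hom = e.hom ≫ b) (ha : Sm Λ a) : Sm Λ b := fun t =>
  inj (leftComp _ e.hom) (fun x => by
    change e.hom ≫ b ≫ x = a ≫ e.hom ≫ x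
    rw [← Category.assoc, ← h, Category.assoc]) (fun _ _ => (cancel_epi e.hom).1) (ha t)

theorem of_iso' (e : Z₁ ≅ Z₂) (h : (Nil a Z₂).FiniteIndex) : (Nil a Z₁).FiniteIndex :=
  inj (rightComp _ e.hom) (fun _ => Category.assoc _ _ _) (fun _ _ => (cancel_mono e.hom).1) h

theorem shf (f : Y₁ ⟶ Y₁) (k : ℤ) : Sm Λ (Y := Y₁⟦k⟧) (f⟦k⟧') ↔ Sm Λ (Y := Y₁) f :=
  ⟨fun h t => inj (shiftFunctor T k).mapAddHom (fun _ => Functor.map_comp _ _ _)
    (shiftFunctor T k).map_injective (of_iso' ((shiftFunctorAdd T t k).app Λ).symm (h _)),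
  fun h t => of_iso' ((shiftFunctorAdd' T (t - k) k t (sub_add_cancel t k)).app Λ)
    (surj (shiftFunctor T k).mapAddHom (fun _ => Functor.map_comp _ _ _)
      (shiftFunctor T k).map_surjective (h _))⟩

theorem tri (Δ : Triangle T) (hΔ : Δ ∈ distTriang T) {a : End Δ.obj₁} {b : End Δ.obj₂}
    {c : End Δ.obj₃} (h1 : Δ.mor₁ ≫ b = a ≫ Δ.mor₁) (h2 : Δ.mor₂ ≫ c = b ≫ Δ.mor₂)
    (ha : Sm Λ a) (hc : Sm Λ c) : Sm Λ b := fun t =>
  mid (leftComp _ Δ.mor₂) (leftComp _ Δ.mor₁) (fun x => by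
    change Δ.mor₂ ≫ c ≫ x = b ≫ Δ.mor₂ ≫ x
    rw [← Category.assoc, h2, Category.assoc]) (fun x => by
    change Δ.mor₁ ≫ b ≫ x = a ≫ Δ.mor₁ ≫ x
    rw [← Category.assoc, h1, Category.assoc]) (Δ.yoneda_exact₂ hΔ) (hc t) (ha t)

theorem ten_iso (f : Y₁ ⟶ Y₁) (e : Z₁ ≅ Z₂) (h : Sm Λ (Y := Y₁ ⊗ Z₁) (f ▷ Z₁)) :
    Sm Λ (Y := Y₁ ⊗ Z₂) (f ▷ Z₂) :=
  of_iso (whiskerLeftIso Y₁ e) (whisker_exchange _ _).symm h

theorem ten_one (f : Y₁ ⟶ Y₁) (W : T) :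
    Sm Λ (Y := Y₁ ⊗ W⟦(1 : ℤ)⟧) (f ▷ _) ↔ Sm Λ (Y := Y₁ ⊗ W) (f ▷ W) :=
  (Iff.intro (of_iso (tsh Y₁ W).symm ((Iso.comp_inv_eq _).2 (by
    rw [Category.assoc, tsh_left, Iso.symm_hom, Iso.inv_hom_id_assoc])))
    (of_iso (tsh Y₁ W) (tsh_left f W))).trans (shf _ 1)

theorem ten {W : T} (f : Y₁ ⟶ Y₁) (hW : Fn W) (h : Sm Λ (Y := Y₁) f) :
    Sm Λ (Y := Y₁ ⊗ W) (f ▷ W) := by
  induction hW with
  | zero hZ =>
    intro t
    have : Subsingleton _ := ⟨((tensorLeft Y₁).map_isZero hZ).eq_of_src (Y := Λ⟦t⟧)⟩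
    exact @AddSubgroup.finiteIndex_of_finite _ _ _ (@Finite.of_subsingleton _ this)
  | sphere k =>
    induction k with
    | zero =>
      exact ten_iso f ((shiftFunctorZero T ℤ).app _).symm
        (of_iso (ρ_ Y₁).symm (rightUnitor_inv_naturality f) h)
    | succ n ih => exact ten_iso f ((shiftFunctorAdd T (n : ℤ) 1).app _).symm ((ten_one f _).2 ih)
    | pred n ih =>
      exact (ten_one f _).1 (ten_iso f
        ((shiftFunctorAdd' T (-(n : ℤ) - 1) 1 (-(n : ℤ)) (by ring)).app _) ih)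
  | ext Δ hΔ _ _ h1 h3 =>
    exact tri _ (TensorTriangulated.distinguished Y₁ Δ hΔ) (whisker_exchange _ _)
      (whisker_exchange _ _) h1 h3

theorem tgt {W : T} (hW : Fn W) (h : Sm Λ a) (t : ℤ) : (Nil a (Λ⟦t⟧ ⊗ W)).FiniteIndex := by
  induction hW with
  | zero hZ =>
    have : Subsingleton _ := ⟨((tensorLeft (Λ⟦t⟧)).map_isZero hZ).eq_of_tgt (Y := Y₁)⟩
    exact @AddSubgroup.finiteIndex_of_finite _ _ _ (@Finite.of_subsingleton _ this)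
  | sphere k =>
    exact of_iso' (M.tensorUnitShiftIso _ k ≪≫ ((shiftFunctorAdd T t k).app Λ).symm) (h _)
  | ext Δ hΔ _ _ h1 h3 =>
    exact mid (rightComp _ (_ ◁ Δ.mor₁)) (rightComp _ (_ ◁ Δ.mor₂))
      (fun _ => Category.assoc _ _ _) (fun _ => Category.assoc _ _ _)
      (fun x => exL _ Δ hΔ x) h1 h3

end SmH

open SmH

variable {T : Type u} [Category.{v} T] [Preadditive T] [HasZeroObject T]
    [HasShift T ℤ] [∀ n : ℤ, (shiftFunctor T n).Additive] [Pretriangulated T]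
    [MonoidalCategory T] [SymmetricCategory T] [TensorTriangulated T]

theorem sm1 (L : T) : SM1 L where
  shift f k := (shf f k).2
  tri₂ hΔ _ _ _ w := tri _ hΔ w.w₁ w.w₂
  tri₃ hΔ _ _ _ w ha hb := tri _ (rot_of_distTriang _ hΔ) w.w₂ w.w₃ hb ((shf _ 1).2 ha)
  ten := ten

theorem sm2 (L : T) : SM2 L := by
  intro p a hp h0 Y f hY hf h t
  let θ : (𝟙_ T ⟶ L⟦t⟧) →+ (Y ⟶ L⟦t⟧ ⊗ Y) :=
    (leftComp _ (λ_ Y).inv).comp (tensorRight Y).mapAddHom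
  have h1 := fi_comap θ (tgt hY hf t)
  have h2 : (Nil f _).comap θ ≤ ⊥ := by
    rintro x ⟨j, hj⟩
    obtain ⟨D, co, ev, m, h3, h4⟩ := h j
    have h5 : (f ^ (j + 1) : End Y) ≫ (λ_ Y).inv ≫ x ▷ Y = 0 := by
      rw [pw_add, show (f ^ j : End Y) ≫ (λ_ Y).inv ≫ x ▷ Y = 0 from hj, comp_zero]
    have h6 : ev ≫ x = ((λ_ Y).inv ≫ x ▷ Y) ▷ D ≫ (α_ _ Y D).hom ≫ _ ◁ ev ≫ (ρ_ _).hom := by
      rw [comp_whiskerRight, Category.assoc, associator_naturality_left_assoc,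
        ← whisker_exchange_assoc, rightUnitor_naturality]
      simp [← unitors_equal]
    have h7 : m • x = 0 := by
      rw [← Category.id_comp x, ← zsmul_comp, ← h3, Category.assoc, Category.assoc, h6,
        ← comp_whiskerRight_assoc, h5, MonoidalPreadditive.zero_whiskerRight, zero_comp, comp_zero]
    have h8 : ((p : ℤ) ^ a) • x = 0 := by
      rw [← Category.comp_id x, ← comp_zsmul, ← (shiftFunctor T t).map_id,
        ← Functor.map_zsmul, h0, Functor.map_zero, comp_zero]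
    obtain ⟨r, s, e⟩ := ((Nat.prime_iff_prime_int.1 hp).irreducible.coprime_iff_not_dvd.2 h4).pow_left
      (m := a)
    rw [AddSubgroup.mem_bot, ← one_smul ℤ x, ← e, add_smul, mul_smul, mul_smul, h7, h8, smul_zero,
      smul_zero, add_zero]
  exact (AddSubgroup.finite_iff_finite_and_finiteIndex ⊥).2
    ⟨inferInstance, AddSubgroup.finiteIndex_of_le h2⟩

end Vale.Agent.P261Z.Dl
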