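import Vale.Agent.P261Z.T2.DSk
import Vale.Agent.P251.G.CellLC

/-!
# P261, block T2, theorem DELTA: row STRAT (the strata are free)
-/

open CategoryTheory MonoidalCategory Limits Pretriangulated MonObj Topology OnePoint

set_option linter.unusedSectionVars false

noncomputable section

namespace Vale.Agent.P261Z.Dl

open Vale.Agent.P251 Vale.Agent.P251.T Vale.Agent.P251.S Vale.Agent.P251.I Vale.Agent.P251.G
  Vale.Agent.P251.G.LC

namespace Strat

/-- a morphism out of finitely many copies of `X` -/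
def finDesc {X Z : LC} {n : ℕ} (f : Fin n → (X ⟶ Z)) : finProd X n ⟶ Z :=
  lift₂ (X := LC.of (Fin n)) (Y := X)
    (fun p => OnePoint.elim p.1 ∞ fun a => app (f a) p.2) (by
      refine continuous_prod_of_discrete_left.mpr fun a => ?_
      induction a using OnePoint.rec with
      | infty => exact continuous_const
      | coe a => exact continuous_app (f a)) (fun _ => rfl) (by
      intro a
      induction a using OnePoint.rec with
      | infty => rfl
      | coe a => exact app_infty (f a))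

theorem app_finDesc {X Z : LC} {n : ℕ} (f : Fin n → (X ⟶ Z)) (a : Fin n) (x : X) :
    app (finDesc f) (((a, x) : Fin n × X) : OnePoint (Fin n × X)) = app (f a) x := rfl

theorem finIncl_finDesc {X Z : LC} {n : ℕ} (f : Fin n → (X ⟶ Z)) (a : Fin n) :
    finIncl X n a ≫ finDesc f = f a := by
  ext x
  rfl

theorem app_cofMap_inj {A B : LC} (i : A ⟶ B) {x y : OnePoint B} (hx : x ∉ Set.range (app i))
    (h : app (cofMap i) x = app (cofMap i) y) : x = y := by
  have hy : y ∉ Set.range (app i) := by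
    intro hy
    rw [app_cofMap_of_mem i hy, app_cofMap_eq_infty_iff] at h
    rcases h with rfl | h
    · exact hx (infty_mem_range_app i)
    · exact hx h
  induction x using OnePoint.rec with
  | infty => exact absurd (infty_mem_range_app i) hx
  | coe x =>
    induction y using OnePoint.rec with
    | infty => exact absurd (infty_mem_range_app i) hy
    | coe y =>
      have h1 := app_cofMap_coe i ⟨x, hx⟩
      have h2 := app_cofMap_coe i ⟨y, hy⟩
      have h3 : (⟨x, hx⟩ : cof i) = ⟨y, hy⟩ := OnePoint.coe_injective (h1.symm.trans (h.trans h2))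
      exact congrArg _ (congrArg Subtype.val h3)

theorem app_cofMap_ne {A B : LC} (i : A ⟶ B) {x : OnePoint B} (hx : x ∉ Set.range (app i)) :
    app (cofMap i) x ≠ ∞ := by
  intro h
  rw [app_cofMap_eq_infty_iff] at h
  rcases h with rfl | h
  · exact hx (infty_mem_range_app i)
  · exact hx h

/-- a criterion for isomorphisms in terms of points -/
theorem isIso_of_points {X Y : LC} (f : X ⟶ Y) (h0 : ∀ x : X, app f (x : OnePoint X) ≠ ∞)
    (h1 : ∀ x x' : X, app f (x : OnePoint X) = app f (x' : OnePoint X) → x = x')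
    (h2 : ∀ y : Y, ∃ x : X, app f (x : OnePoint X) = y) : IsIso f := by
  apply Cell.isIso_of_bijective
  constructor
  · intro y y' hy
    induction y using OnePoint.rec with
    | infty =>
      induction y' using OnePoint.rec with
      | infty => rfl
      | coe y' => exact absurd (hy.symm.trans (app_infty _)) (h0 y')
    | coe y =>
      induction y' using OnePoint.rec with
      | infty => exact absurd (hy.trans (app_infty _)) (h0 y)
      | coe y' => rw [h1 y y' hy]
  · intro z
    induction z using OnePoint.rec with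
    | infty => exact ⟨∞, app_infty _⟩
    | coe z =>
      obtain ⟨x, hx⟩ := h2 z
      exact ⟨x, hx⟩

variable {G : Type} [Group G] [Finite G]

theorem app_ρ_inv (W : GSp G) (g : G) (x : OnePoint W.X) :
    app (W.ρ g⁻¹) (app (W.ρ g) x) = x := by
  rw [← app_comp, ← GSp.ρ_mul, inv_mul_cancel, GSp.ρ_one, app_id]

theorem surjective_π (W : GSp G) : Function.Surjective (app W.π) := by
  intro y
  induction y using OnePoint.rec with
  | infty => exact ⟨∞, app_infty _⟩
  | coe y =>
    obtain ⟨x, rfl⟩ := W.isOpenQuotientMap_mk'.surjective y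
    exact ⟨x, rfl⟩

theorem π_eq_iff (W : GSp G) (x y : OnePoint W.X) :
    app W.π x = app W.π y ↔ ∃ g, app (W.ρ g) y = x := by
  constructor
  · intro h
    induction x using OnePoint.rec with
    | infty =>
      induction y using OnePoint.rec with
      | infty => exact ⟨1, app_infty _⟩
      | coe y => exact absurd ((app_infty _).symm.trans h) (OnePoint.infty_ne_coe _)
    | coe x =>
      induction y using OnePoint.rec with
      | infty => exact absurd (h.trans (app_infty _)) (OnePoint.coe_ne_infty _)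
      | coe y =>
        obtain ⟨g, hg⟩ := (W.mk'_eq_iff x y).1 (OnePoint.coe_injective (X := W.orb) h)
        exact ⟨g, congrArg _ hg⟩
  · rintro ⟨g, rfl⟩
    rw [← app_comp, GSp.ρ_π]

theorem ρ_mem {W W' : GSp G} {f : W.X ⟶ W'.X} (h : GSp.IsEq f) (g : G) {y : OnePoint W'.X}
    (hy : y ∈ Set.range (app f)) : app (W'.ρ g) y ∈ Set.range (app f) := by
  obtain ⟨x, rfl⟩ := hy
  exact ⟨app (W.ρ g) x, by rw [← app_comp, h g, app_comp]⟩

theorem π_mem_iff {W W' : GSp G} {f : W.X ⟶ W'.X} (h : GSp.IsEq f) (y : OnePoint W'.X) :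
    app W'.π y ∈ Set.range (app (GSp.orbMap f h)) ↔ y ∈ Set.range (app f) := by
  constructor
  · rintro ⟨z, hz⟩
    obtain ⟨x, rfl⟩ := surjective_π W z
    rw [← app_comp, GSp.π_orbMap, app_comp] at hz
    obtain ⟨g, rfl⟩ := (π_eq_iff W' _ _).1 hz.symm
    exact ρ_mem h g ⟨x, rfl⟩
  · rintro ⟨x, rfl⟩
    exact ⟨app W.π x, by rw [← app_comp, GSp.π_orbMap, app_comp]⟩

variable {M : ℕ} {i : Fin M}

/-- the base sheet lies in the next step -/
def up (z : FG G M i) : (EG G M (i + 1)).X :=
  (⟨z.1, z.2.1.1, i, Nat.lt_succ_self _, 1, z.2.1.2⟩ : ESet G M (i + 1))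

/-- points of the base sheet -/
def pt (W : GSp G) (z : FG G M i) (y : OnePoint W.X) : OnePoint (Eh M (i + 1) W).X :=
  smash (up z : OnePoint (EG G M (i + 1)).X) y

theorem mem_ιh (W : GSp G) (x : (EG G M (i + 1)).X) (w : W.X) :
    smash (x : OnePoint (EG G M (i + 1)).X) (w : OnePoint W.X) ∈ Set.range (app (ιh M i W)) ↔
      x.1 ∈ ESet G M i := by
  refine (mem_range_whiskerRight (εG G M i) W.X x w).trans ⟨?_, fun h => ?_⟩
  · rintro ⟨y, hy⟩
    induction y using OnePoint.rec with
    | infty => exact absurd ((app_infty _).symm.trans hy) (OnePoint.infty_ne_coe _)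
    | coe y =>
      have h1 : y.1 = x.1 := congrArg Subtype.val (OnePoint.coe_injective hy)
      exact h1 ▸ y.2
  · exact ⟨OnePoint.some (X := (EG G M i).X) ⟨x.1, h⟩, rfl⟩

theorem up_notMem (W : GSp G) (z : FG G M i) (w : W.X) :
    pt W z w ∉ Set.range (app (ιh M i W)) := by
  intro h
  obtain ⟨-, l, hl, g, hg⟩ := (mem_ιh W (up z) w).1 h
  exact (z.2.2 l hl g).ne hg

theorem ρ_up_notMem (W : GSp G) (g : G) (z : FG G M i) (w : W.X) :
    app ((Eh M (i + 1) W).ρ g) (pt W z w) ∉
      Set.range (app (ιh M i W)) := by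
  intro h
  have h1 := ρ_mem (isEq_ιh M i W) g⁻¹ h
  rw [app_ρ_inv] at h1
  exact up_notMem W z w h1

theorem free (W : GSp G) (g : G) (z z' : FG G M i) (w w' : W.X)
    (h : app ((Eh M (i + 1) W).ρ g)
      (pt W z w) =
      pt W z' w') :
    g = 1 ∧ (z, w) = (z', w') := by
  have h1 : ((g • up z, g • w) : (EG G M (i + 1)).X × W.X) = (up z', w') :=
    OnePoint.coe_injective h
  have h2 : tl g z.1 = z'.1 := congrArg (fun p : (EG G M (i + 1)).X × W.X => p.1.1) h1
  have h3 : g = 1 := by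
    by_contra hg
    have h4 : z.1 i (g⁻¹ * 1) = 1 := (congrFun (congrFun h2 i) 1).trans z'.2.1.2
    have h5 := z.2.1.1.2 i (g⁻¹ * 1) 1 (by simpa using hg)
    rw [h4, z.2.1.2] at h5
    norm_num at h5
  subst h3
  rw [one_smul, one_smul] at h1
  refine ⟨rfl, Prod.ext (Subtype.ext ?_) (Prod.ext_iff.1 h1).2⟩
  exact congrArg (fun p : (EG G M (i + 1)).X × W.X => p.1.1) h1

theorem cover (W : GSp G) (y : OnePoint (Eh M (i + 1) W).X) (hy : y ∉ Set.range (app (ιh M i W))) :
    ∃ (g : G) (z : FG G M i) (w : W.X), app ((Eh M (i + 1) W).ρ g)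
      (pt W z w) = y := by
  induction y using OnePoint.rec with
  | infty => exact absurd (infty_mem_range_app _) hy
  | coe y =>
    obtain ⟨x, w⟩ := y
    have hx : x.1 ∉ ESet G M i := fun h => hy ((mem_ιh W x w).2 h)
    obtain ⟨hP, l, hl, g, hg⟩ := x.2
    have hli : l = i := by
      by_contra hne
      exact hx ⟨hP, l, lt_of_le_of_ne (Nat.lt_succ_iff.1 hl) (fun h => hne (Fin.ext h)), g, hg⟩
    subst hli
    have hz : tl g⁻¹ x.1 ∈ FSet G M l := by
      refine ⟨⟨tl_mem_PSet G _ hP, by simpa [tl] using hg⟩, fun l' hl' k => ?_⟩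
      refine lt_of_le_of_ne (hP.1 l' _).2 fun h => hx ⟨hP, l', hl', _, h⟩
    refine ⟨g, ⟨tl g⁻¹ x.1, hz⟩, g⁻¹ • w, ?_⟩
    change (((g • g⁻¹ • x, g • g⁻¹ • w) : (EG G M (l + 1)).X × W.X) :
      OnePoint ((EG G M (l + 1)).X × W.X)) = _
    rw [smul_inv_smul, smul_inv_smul]
    rfl

/-- the base sheet in the stratum -/
def sFun (W : GSp G) (p : FG G M i × W.X) : cof (ιh M i W) :=
  ⟨((up p.1, p.2) : (EG G M (i + 1)).X × W.X), up_notMem W p.1 p.2⟩

theorem isClosedEmbedding_sFun (W : GSp G) : IsClosedEmbedding (sFun (i := i) W) := by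
  have hup : Continuous (up : FG G M i → (EG G M (i + 1)).X) :=
    continuous_subtype_val.subtype_mk _
  have hc : Continuous (sFun (i := i) W) :=
    ((hup.comp continuous_fst).prodMk continuous_snd).subtype_mk _
  let v : cof (ιh M i W) → (Fin M → G → ℝ) × W.X := fun p => (p.1.1.1, p.1.2)
  have hv0 : Continuous (fun p : cof (ιh M i W) => (p.1 : (EG G M (i + 1)).X × W.X)) :=
    (isOpenEmbedding_cof (ιh M i W)).continuous
  have hv : Continuous v :=
    (continuous_subtype_val.comp (continuous_fst.comp hv0)).prodMk (continuous_snd.comp hv0)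
  refine ⟨IsEmbedding.of_comp hc hv (IsEmbedding.subtypeVal.prodMap IsEmbedding.id), ?_⟩
  have h : Set.range (sFun (i := i) W) = {p | (v p).1 i 1 = 1} := by
    ext p
    constructor
    · rintro ⟨q, rfl⟩
      exact q.1.2.1.2
    · intro hp
      have hx : p.1.1.1 ∉ ESet G M i := fun h => p.2 ((mem_ιh W p.1.1 p.1.2).2 h)
      have hP : p.1.1.1 ∈ PSet G M := p.1.1.2.1
      exact ⟨(⟨p.1.1.1, ⟨hP, hp⟩, fun l hl k =>
        lt_of_le_of_ne (hP.1 l _).2 fun h => hx ⟨hP, l, hl, _, h⟩⟩, p.1.2), rfl⟩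
  rw [h]
  exact isClosed_eq (by fun_prop) continuous_const

/-- the base sheet in the stratum -/
def sm (i : Fin M) (W : GSp G) : FG G M i ⊗ W.X ⟶ cof (ιh M i W) :=
  ofClosed (X := FG G M i ⊗ W.X) (sFun W) (isClosedEmbedding_sFun W)

theorem app_sm (W : GSp G) (z : FG G M i) (y : OnePoint W.X) :
    app (sm i W) (smash (z : OnePoint (FG G M i)) y) =
      app (cofMap (ιh M i W)) (pt W z y) := by
  induction y using OnePoint.rec with
  | infty => exact (app_infty (sm i W)).trans (app_infty (cofMap (ιh M i W))).symm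
  | coe y => exact (app_cofMap_coe (ιh M i W) (sFun W (z, y))).symm

theorem app_sm_ρs (W : GSp G) (g : G) (z : FG G M i) (w : W.X) :
    app (sm i W ≫ ρs M i W g) (smash (z : OnePoint (FG G M i)) (w : OnePoint W.X)) =
      app (cofMap (ιh M i W)) (app ((Eh M (i + 1) W).ρ g)
        (pt W z w)) := by
  rw [app_comp, app_sm, ← app_comp, ρs, cofMap_cofInd, app_comp]

theorem app_sm_πs (W : GSp G) (z : FG G M i) (w : W.X) :
    app (sm i W ≫ πs M i W) (smash (z : OnePoint (FG G M i)) (w : OnePoint W.X)) =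
      app (cofMap (ιo M i W)) (app (Eh M (i + 1) W).π
        (pt W z w)) := by
  rw [app_comp, app_sm, ← app_comp, πs, cofMap_cofInd, app_comp]

theorem π_up_notMem (W : GSp G) (z : FG G M i) (w : W.X) :
    app (Eh M (i + 1) W).π (pt W z w) ∉
      Set.range (app (ιo M i W)) := fun h =>
  up_notMem W z w ((π_mem_iff (isEq_ιh M i W) _).1 h)

theorem isIso_e (W : GSp G) : IsIso (sm i W ≫ πs M i W) := by
  apply isIso_of_points
  · rintro ⟨z, w⟩ h
    exact app_cofMap_ne _ (π_up_notMem W z w) ((app_sm_πs W z w).symm.trans h)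
  · rintro ⟨z, w⟩ ⟨z', w'⟩ h
    have h1 := app_cofMap_inj _ (π_up_notMem W z w)
      ((app_sm_πs W z w).symm.trans (h.trans (app_sm_πs W z' w')))
    obtain ⟨g, hg⟩ := (π_eq_iff _ _ _).1 h1
    exact (free W g z' z w' w hg).2.symm
  · intro y
    obtain ⟨x, hx⟩ := surjective_π (Eh M (i + 1) W) (y.1 : OnePoint (Eh M (i + 1) W).orb)
    have hx' : x ∉ Set.range (app (ιh M i W)) := fun h =>
      y.2 (hx ▸ (π_mem_iff (isEq_ιh M i W) x).2 h)
    obtain ⟨g, z, w, rfl⟩ := cover W x hx'
    refine ⟨(z, w), (app_sm_πs W z w).trans ?_⟩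
    rw [← app_comp, GSp.ρ_π] at hx
    exact (congrArg _ hx).trans (app_cofMap_coe _ y)

theorem isIso_u (W : GSp G) {k : ℕ} (ν : G ≃ Fin k) :
    IsIso (finDesc fun a => sm i W ≫ ρs M i W (ν.symm a)) := by
  apply isIso_of_points
  · rintro ⟨a, z, w⟩ h
    exact app_cofMap_ne _ (ρ_up_notMem W (ν.symm a) z w) ((app_sm_ρs W _ z w).symm.trans h)
  · rintro ⟨a, z, w⟩ ⟨a', z', w'⟩ h
    have h1 := app_cofMap_inj _ (ρ_up_notMem W (ν.symm a) z w)
      ((app_sm_ρs W _ z w).symm.trans (h.trans (app_sm_ρs W (ν.symm a') z' w')))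
    have h2 := congrArg (app ((Eh M (i + 1) W).ρ (ν.symm a')⁻¹)) h1
    rw [app_ρ_inv, ← app_comp, ← GSp.ρ_mul] at h2
    obtain ⟨h3, h4⟩ := free W _ z z' w w' h2
    have h5 : a = a' := ν.symm.injective (inv_mul_eq_one.1 h3).symm
    exact Prod.ext h5 h4
  · intro y
    obtain ⟨g, z, w, h⟩ := cover W (y.1 : OnePoint (Eh M (i + 1) W).X) y.2
    refine ⟨(ν g, z, w), (app_sm_ρs W (ν.symm (ν g)) z w).trans ?_⟩
    rw [ν.symm_apply_apply]
    exact (congrArg _ h).trans (app_cofMap_coe _ y)

theorem nat (W : GSp G) (f : W.X ⟶ W.X) (hf : GSp.IsEq f) :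
    FG G M i ◁ f ≫ sm i W ≫ πs M i W = (sm i W ≫ πs M i W) ≫ fs M i f hf := by
  have h1 : πs M i W ≫ fs M i f hf =
      cofInd _ _ (fh M i f) (fh M (i + 1) f) (ιh_fh M i f) ≫ πs M i W := by
    rw [← cancel_epi (cofMap (ιh M i W)), πs, fs, cofMap_cofInd_assoc, cofMap_cofInd,
      cofMap_cofInd_assoc, cofMap_cofInd, fo, GSp.π_orbMap_assoc]
  have h2 : FG G M i ◁ f ≫ sm i W =
      sm i W ≫ cofInd _ _ (fh M i f) (fh M (i + 1) f) (ιh_fh M i f) := by
    apply tensor_ext
    intro z w
    rw [app_comp, app_comp, app_whiskerLeft_smash, app_sm, app_sm, ← app_comp, cofMap_cofInd,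
      app_comp]
    exact congrArg _ (app_whiskerLeft_smash (EG G M (i + 1)).X f _ _).symm
  rw [Category.assoc, h1, ← Category.assoc, h2, Category.assoc]

end Strat

open Strat in
theorem strat : STRAT := by
  intro G _ _ M i W
  have h1 := isIso_e (i := i) W
  refine ⟨sm i W, asIso (sm i W ≫ πs M i W), rfl, fun f hf => nat W f hf, fun k ν => ?_⟩
  have h2 := isIso_u (i := i) W ν
  refine ⟨asIso (finDesc fun a => sm i W ≫ ρs M i W (ν.symm a)), fun g => ?_⟩
  rw [asIso_hom, finIncl_finDesc, ν.symm_apply_apply]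

end Vale.Agent.P261Z.Dl
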