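import Vale.Agent.P261Z.T2.DAsm2
import Vale.Agent.P261Z.T2.DClass
import Vale.Agent.P261Z.T2.DCoi
import Vale.Agent.P261Z.T2.DCt
import Vale.Agent.P261Z.T2.DDual
import Vale.Agent.P261Z.T2.DFce
import Vale.Agent.P261Z.T2.DLef
import Vale.Agent.P261Z.T2.DLin2
import Vale.Agent.P261Z.T2.DPerm1
import Vale.Agent.P261Z.T2.DPerm2
import Vale.Agent.P261Z.T2.DSm
import Vale.Agent.P261Z.T2.DStrat

/-!
# P261, block T2: theorem DELTA from the realization rows
-/

open CategoryTheory MonoidalCategory Limits Pretriangulated

noncomputable section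

universe v u

namespace Vale.Agent.P261Z.Dl

open Vale.Agent.P251 Vale.Agent.P251.T Vale.Agent.P251.S Vale.Agent.P251.I Vale.Agent.P251.G

variable {T : Type u} [Category.{v} T] [Preadditive T] [HasZeroObject T]
    [HasShift T ℤ] [∀ n : ℤ, (shiftFunctor T n).Additive] [Pretriangulated T]
    [MonoidalCategory T] [SymmetricCategory T] [TensorTriangulated T]
    [IsTriangulated T] [MonoidalClosed T] [HasCoproducts.{0} T] [HasProducts.{0} T]
    [StableCat T] [LocallySmall.{0} T]

theorem delta_of_real (F : SpaceFunctor T) (h : DIAG) (h' : REAL F) : DELTA F := by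
  obtain ⟨R⟩ := exists_ratD F
  exact delta_of (R := R)
    { diag := h
      ndr := ndr
      fce := fce ndr strat
      strat := strat
      cls := cls
      ct := ct T
      dual := dual
      lin1 := lin1 R
      lin2 := lin2 R
      lef := lef_eq R (ct T) (ct _)
      coi := coi R
      sm1 := sm1
      sm2 := sm2
      perm1 := perm1 F
      perm2 := perm2 F
      real := h' }

end Vale.Agent.P261Z.Dl
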