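import Vale.Agent.P261Z.T2.DNice
import Vale.Agent.P251.M.EvenShift

/-!
# P261, block T2, theorem DELTA: row REAL (realization of endomorphisms by good spaces)
-/

open CategoryTheory MonoidalCategory Limits Pretriangulated

set_option linter.unusedSectionVars false

noncomputable section

universe v u

namespace Vale.Agent.P261Z.Dl

open Vale.Agent.P251 Vale.Agent.P251.T Vale.Agent.P251.I Vale.Agent.P251.G
  Vale.Agent.P251.G.LC

variable {T : Type u} [Category.{v} T] [Preadditive T] [HasZeroObject T]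
    [HasShift T ℤ] [∀ n : ℤ, (shiftFunctor T n).Additive] [Pretriangulated T]
    [MonoidalCategory T] [SymmetricCategory T] [TensorTriangulated T] (F : SpaceFunctor T)

namespace Rl

/-- tensoring with a sphere is the shift -/
def nu : ∀ n : ℕ, tensorRight (F.S.obj (SphF n)) ≅ shiftFunctor T (n : ℤ)
  | 0 => (curriedTensor T).flip.mapIso
      (F.S.mapIso (M.fcIso (X := SphF 0) (Y := 𝟙_ FCat) M.sphZeroIso) ≪≫
        (Functor.Monoidal.εIso F.S).symm) ≪≫ rightUnitorNatIso T ≪≫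
      (shiftFunctorZero' T ((0 : ℕ) : ℤ) (by simp)).symm
  | n + 1 => (curriedTensor T).flip.mapIso
      (F.S.mapIso (M.fcIso (X := SphF (n + 1)) (Y := SphF n ⊗ RRF)
        ((sphTensor n 1).symm ≪≫ whiskerLeftIso (Sph n) M.lineSph)) ≪≫
        (Functor.Monoidal.μIso F.S (SphF n) RRF).symm ≪≫ whiskerLeftIso _ F.line) ≪≫
      tensorRightTensor _ _ ≪≫ Functor.isoWhiskerRight (nu n) _ ≪≫
      Functor.isoWhiskerLeft _ M.tensorS1 ≪≫
      (shiftFunctorAdd' T (n : ℤ) 1 ((n + 1 : ℕ) : ℤ) (by push_cast; ring)).symm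

/-- the iterated suspension isomorphism -/
def sus (A : FCat) (n : ℕ) : F.S.obj (A ⊗ SphF n) ≅ (F.S.obj A)⟦(n : ℤ)⟧ :=
  (Functor.Monoidal.μIso F.S A (SphF n)).symm ≪≫ (nu F n).app (F.S.obj A)

theorem stab {A B : FCat} (g : F.S.obj A ⟶ F.S.obj B) :
    ∃ (n : ℕ) (h : A ⊗ SphF n ⟶ B ⊗ SphF n),
      F.S.map h ≫ (sus F B n).hom = (sus F A n).hom ≫ g⟦(n : ℤ)⟧' := by
  obtain ⟨n, h, hh⟩ := F.full g
  refine ⟨n, h, ?_⟩
  have h1 : g ▷ F.S.obj (SphF n) ≫ (nu F n).hom.app (F.S.obj B) =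
      (nu F n).hom.app (F.S.obj A) ≫ g⟦(n : ℤ)⟧' := (nu F n).hom.naturality g
  rw [hh, sus, sus, Iso.trans_hom, Iso.trans_hom, Iso.symm_hom, Iso.symm_hom, Iso.app_hom,
    Iso.app_hom, Category.assoc, Category.assoc, Category.assoc, Iso.hom_inv_id_assoc, h1]

theorem nice_sus {A : FCat} (h : Nice A.obj) (n : ℕ) : Nice (A ⊗ SphF n).obj :=
  nten _ _ h (nsph.2 n)

/-- the `k`-th shift of `Y` is the suspension spectrum of a good space -/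
def RO (Y : T) (k : ℤ) : Prop := ∃ A : FCat, Nice A.obj ∧ Nonempty (F.S.obj A ≅ Y⟦k⟧)

variable {F}

theorem RO.up {Y : T} {k k' : ℤ} (h : RO F Y k) (hk : k ≤ k') : RO F Y k' := by
  obtain ⟨A, hA, ⟨a⟩⟩ := h
  obtain ⟨n, rfl⟩ := Int.le.dest hk
  exact ⟨_, nice_sus hA n, ⟨sus F A n ≪≫ (shiftFunctor T (n : ℤ)).mapIso a ≪≫
    ((shiftFunctorAdd T k n).app Y).symm⟩⟩

theorem ro_cone (Δ : Triangle T) (hΔ : Δ ∈ distTriang T) {A B : FCat} (hA : Nice A.obj)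
    (hB : Nice B.obj) (a : F.S.obj A ≅ Δ.obj₁) (b : F.S.obj B ≅ Δ.obj₂) :
    ∃ n : ℤ, RO F Δ.obj₃ n := by
  obtain ⟨n, h, hh⟩ := stab F (a.hom ≫ Δ.mor₁ ≫ b.inv)
  refine ⟨n, coneF h, ncone h.hom (nice_sus hA n) (nice_sus hB n), ⟨Triangle.π₃.mapIso
    (isoTriangleOfIso₁₂ _ _ (F.cone_distinguished h) (Triangle.shift_distinguished Δ hΔ (n : ℤ))
      ((n : ℤ).negOnePow • (sus F A n ≪≫ (shiftFunctor T (n : ℤ)).mapIso a))
      (sus F B n ≪≫ (shiftFunctor T (n : ℤ)).mapIso b) ?_)⟩⟩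
  change F.S.map h ≫ (sus F B n).hom ≫ b.hom⟦(n : ℤ)⟧' =
    ((n : ℤ).negOnePow • ((sus F A n).hom ≫ a.hom⟦(n : ℤ)⟧')) ≫
      ((n : ℤ).negOnePow • Δ.mor₁⟦(n : ℤ)⟧')
  rw [Linear.units_smul_comp, Linear.comp_units_smul, smul_smul, Int.units_mul_self, one_smul,
    ← Category.assoc, hh, Category.assoc, Category.assoc, ← Functor.map_comp, ← Functor.map_comp,
    Category.assoc, Category.assoc, Iso.inv_hom_id, Category.comp_id]

variable (F)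

theorem exists_ro {Y : T} (h : Fn Y) : ∃ k, RO F Y k := by
  induction h with
  | zero h =>
    exact ⟨0, FCat.mk FC.empty, nsph.1, ⟨(F.isZero (X := FCat.mk FC.empty)
      (inferInstanceAs (IsEmpty Empty))).iso ((shiftFunctor T (0 : ℤ)).map_isZero h)⟩⟩
  | sphere k =>
    exact ⟨-k, SphF 0, nsph.2 0, ⟨M.sphIso F 0 ≪≫
      (shiftFunctorAdd' T k (-k) ((0 : ℕ) : ℤ) (by simp)).app _⟩⟩
  | ext Δ hΔ _ _ ih₁ ih₃ =>
    obtain ⟨k₁, h₁⟩ := ih₁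
    obtain ⟨k₃, h₃⟩ := ih₃
    obtain ⟨B, hB, ⟨b⟩⟩ := h₁.up (le_max_left k₁ (k₃ + 1))
    obtain ⟨A, hA, ⟨a⟩⟩ := h₃.up (k' := max k₁ (k₃ + 1) - 1) (by omega)
    obtain ⟨n, C, hC, ⟨c⟩⟩ := ro_cone _ (Triangle.shift_distinguished _
      (inv_rot_of_distTriang _ hΔ) (max k₁ (k₃ + 1))) hA hB
      (a ≪≫ (shiftFunctorAdd' T (-1) (max k₁ (k₃ + 1)) _ (by omega)).app Δ.obj₃) b
    exact ⟨max k₁ (k₃ + 1) + n, C, hC, ⟨c ≪≫ ((shiftFunctorAdd T _ n).app Δ.obj₂).symm⟩⟩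

end Rl

open Rl

theorem real : REAL F := by
  intro Y f hY
  obtain ⟨k, A, hA, ⟨a⟩⟩ := exists_ro F hY
  obtain ⟨n, h, hh⟩ := stab F (a.hom ≫ f⟦k⟧' ≫ a.inv)
  refine ⟨A ⊗ SphF n, h, k + n, sus F A n ≪≫ (shiftFunctor T (n : ℤ)).mapIso a ≪≫
    ((shiftFunctorAdd T k n).app Y).symm, nice_sus hA n, ?_⟩
  have h1 : (f⟦k⟧')⟦(n : ℤ)⟧' ≫ (shiftFunctorAdd T k n).inv.app Y =
      (shiftFunctorAdd T k n).inv.app Y ≫ f⟦k + n⟧' := (shiftFunctorAdd T k n).inv.naturality f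
  change F.S.map h ≫ (sus F A n).hom ≫ a.hom⟦(n : ℤ)⟧' ≫ (shiftFunctorAdd T k n).inv.app Y =
    ((sus F A n).hom ≫ a.hom⟦(n : ℤ)⟧' ≫ (shiftFunctorAdd T k n).inv.app Y) ≫ f⟦k + n⟧'
  rw [← Category.assoc, hh, Category.assoc, Category.assoc, Category.assoc, ← h1,
    ← Functor.map_comp_assoc, ← Functor.map_comp_assoc, Category.assoc, Category.assoc,
    Iso.inv_hom_id, Category.comp_id]

end Vale.Agent.P261Z.Dl
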