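import Vale.Agent.P261Z.T2.DSk

/-!
# P261, block T2, theorem DELTA: the rules of a trace on finite cell spaces
-/

open CategoryTheory MonoidalCategory Limits Pretriangulated Topology OnePoint
open Functor.LaxMonoidal Functor.OplaxMonoidal

set_option linter.unusedSectionVars false

noncomputable section

universe v u

namespace Vale.Agent.P261Z.Dl

open Vale.Agent.P251 Vale.Agent.P251.T Vale.Agent.P251.S Vale.Agent.P251.I Vale.Agent.P251.G
  Vale.Agent.P251.G.LC

namespace Ru

theorem mu_swap {C D : Type*} [Category C] [Category D] [MonoidalCategory C] [MonoidalCategory D]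
    [BraidedCategory C] [BraidedCategory D] (S : C ⥤ D) [S.Braided] (Z X : C) :
    ((α_ (S.obj Z) (S.obj X) (S.obj X)).hom ≫ S.obj Z ◁ (β_ (S.obj X) (S.obj X)).hom ≫
      (α_ (S.obj Z) (S.obj X) (S.obj X)).inv) ≫ μ S Z X ▷ S.obj X ≫ μ S (Z ⊗ X) X =
    μ S Z X ▷ S.obj X ≫ μ S (Z ⊗ X) X ≫
      S.map ((α_ Z X X).hom ≫ Z ◁ (β_ X X).hom ≫ (α_ Z X X).inv) := by
  rw [S.map_comp, S.map_comp, Functor.LaxMonoidal.associativity_assoc, ← μ_natural_right_assoc,
    ← MonoidalCategory.whiskerLeft_comp_assoc, Functor.LaxBraided.braided,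
    MonoidalCategory.whiskerLeft_comp_assoc, Functor.LaxMonoidal.associativity_inv, Category.assoc,
    Category.assoc]

variable {T : Type u} [Category.{v} T] [Preadditive T] [HasZeroObject T]
    [HasShift T ℤ] [∀ n : ℤ, (shiftFunctor T n).Additive] [Pretriangulated T]
    [MonoidalCategory T] [SymmetricCategory T] [TensorTriangulated T]

theorem tr_conj (τ : TrR T) {X Y : T} (hX : Fn X) (e : X ≅ Y) {f : X ⟶ X} {g : Y ⟶ Y}
    (w : f ≫ e.hom = e.hom ≫ g) : τ.tr f = τ.tr g := by
  have h := τ.cyc hX (hX.of_iso e) (f ≫ e.hom) e.inv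
  rwa [Category.assoc, e.hom_inv_id, Category.comp_id, w, e.inv_hom_id_assoc] at h

variable (F : SpaceFunctor T) (τ : TrR T)

/-- the trace of a map of finite cell spaces -/
def l {A : FCat} (h : A ⟶ A) : ℚ := τ.tr (F.S.map h)

theorem l_cyc {A B : FCat} (a : A ⟶ B) (b : B ⟶ A) : l F τ (a ≫ b) = l F τ (b ≫ a) := by
  rw [l, l, F.S.map_comp, F.S.map_comp]
  exact τ.cyc (fn_S F A) (fn_S F B) _ _

theorem l_conj {A B : FCat} (e : A.obj ≅ B.obj) {f : A ⟶ A} {g : B ⟶ B}
    (w : f.hom ≫ e.hom = e.hom ≫ g.hom) : l F τ f = l F τ g :=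
  tr_conj τ (fn_S F A) (F.S.mapIso (ObjectProperty.isoMk _ e)) (by
    rw [Functor.mapIso_hom, ← F.S.map_comp, ← F.S.map_comp]
    exact congrArg F.S.map (ObjectProperty.hom_ext _ w))

theorem l_ten {A B : FCat} (f : A ⟶ A) (g : B ⟶ B) :
    l F τ (f ⊗ₘ g) = l F τ f * l F τ g :=
  (tr_conj τ ((fn_S F A).tensor (fn_S F B)) (Functor.Monoidal.μIso F.S A B)
    (μ_natural F.S f g)).symm.trans (τ.ten (fn_S F A) (fn_S F B) _ _)

theorem l_one : l F τ (𝟙 (𝟙_ FCat)) = 1 :=
  (tr_conj τ Fn.one (Functor.Monoidal.εIso F.S) (by simp)).symm.trans τ.one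

theorem l_swap {Z X : FCat} (h : Z ⊗ X ⟶ Z ⊗ X) (k : X ⟶ X) :
    l F τ ((h ⊗ₘ k) ≫ (α_ Z X X).hom ≫ Z ◁ (β_ X X).hom ≫ (α_ Z X X).inv) =
      l F τ (h ≫ Z ◁ k) := by
  have hZ := (fn_S F Z).tensor (fn_S F X)
  have a := τ.swap (fn_S F Z) (fn_S F X) (μ F.S Z X ≫ F.S.map h ≫ δ F.S Z X) (F.S.map k)
  refine (tr_conj τ (hZ.tensor (fn_S F X)) (whiskerRightIso (Functor.Monoidal.μIso F.S Z X) _ ≪≫
    Functor.Monoidal.μIso F.S (Z ⊗ X) X) ?_).symm.trans
    (a.trans (tr_conj τ hZ (Functor.Monoidal.μIso F.S Z X) ?_))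
  · show _ ≫ μ F.S Z X ▷ F.S.obj X ≫ μ F.S (Z ⊗ X) X =
      (μ F.S Z X ▷ F.S.obj X ≫ μ F.S (Z ⊗ X) X) ≫ _
    rw [Category.assoc, mu_swap, F.S.map_comp (h ⊗ₘ k), Category.assoc, ← μ_natural_assoc,
      ← tensorHom_id, tensorHom_comp_tensorHom_assoc, tensorHom_comp_tensorHom_assoc]
    simp
  · show _ ≫ μ F.S Z X = μ F.S Z X ≫ _
    rw [Category.assoc, μ_natural_right]
    simp

/-! ### Adding one factor to a power -/

/-- adding one factor -/
def optHomeo (A : LC) (J : Type) : ((J → A) × A) ≃ₜ (Option J → A) where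
  toFun x := fun o => o.elim x.2 x.1
  invFun a := (fun j => a (.some j), a none)
  left_inv _ := rfl
  right_inv a := funext fun o => by cases o <;> rfl
  continuous_toFun := continuous_pi fun o => by
    cases o with
    | none => exact continuous_snd
    | some j => exact (continuous_apply j).comp continuous_fst
  continuous_invFun := (continuous_pi fun _ => continuous_apply _).prodMk (continuous_apply _)

/-- adding one factor -/
def optIso (A : LC) (J : Type) [Finite J] : powObj J A ⊗ A ≅ powObj (Option J) A :=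
  ofHomeo (X := LC.of ((J → A) × A)) (Y := powObj (Option J) A) (optHomeo A J)

theorem app_optIso_smash (A : LC) (J : Type) [Finite J] (a : J → OnePoint A) (b : OnePoint A) :
    app (optIso A J).hom (smash (OP.smash a) b) = OP.smash fun o : Option J => o.elim b a := by
  induction b using OnePoint.rec with
  | infty => rw [smash_infty_right, OP.smash_infty _ (j := none) rfl]; exact app_infty _
  | coe b =>
    by_cases h : ∃ j, a j = ∞
    · obtain ⟨j, hj⟩ := h
      rw [OP.smash_infty a hj, OP.smash_infty _ (j := .some j) hj]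
      exact app_infty _
    · choose z hz using fun j => OnePoint.ne_infty_iff_exists.1 (not_exists.1 h j)
      obtain rfl : (fun j => (z j : OnePoint A)) = a := funext hz
      rw [OP.smash_coe]
      exact (OP.smash_eq_coe_iff.2 fun o => by cases o <;> rfl).symm

theorem optIso_powHom (J : Type) [Finite J] {A B : LC} (g : A ⟶ B) :
    (powHom J g ⊗ₘ g) ≫ (optIso B J).hom = (optIso A J).hom ≫ powHom (Option J) g := by
  refine tensor_ext fun a b => ?_
  rw [app_comp, app_tensorHom_smash, app_powHom_coe, app_optIso_smash]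
  exact congrArg OP.smash (funext fun o => by cases o <;> rfl)

theorem optIso_perm {J : Type} [Finite J] (A : LC) (σ : Equiv.Perm J) :
    (perm A σ ⊗ₘ 𝟙 A) ≫ (optIso A J).hom = (optIso A J).hom ≫ perm A σ.optionCongr := by
  refine tensor_ext fun a b => ?_
  exact congrArg OnePoint.some (funext fun o => by cases o <;> rfl)

theorem reIso_perm {J K : Type} [Finite J] [Finite K] (A : LC) (e : J ≃ K) (σ : Equiv.Perm J) :
    perm A σ ≫ (reIso A e).hom = (reIso A e).hom ≫ perm A (e.permCongr σ) := by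
  ext a
  exact congrArg OnePoint.some (funext fun k => congrArg a (e.symm_apply_apply _).symm)

theorem optIso_swap (J : Type) [Finite J] [DecidableEq (Option (Option J))] (A : LC) :
    ((α_ (powObj J A) A A).hom ≫ powObj J A ◁ (β_ A A).hom ≫ (α_ (powObj J A) A A).inv) ≫
      (optIso A J).hom ▷ A ≫ (optIso A (Option J)).hom =
    ((optIso A J).hom ▷ A ≫ (optIso A (Option J)).hom) ≫
      perm A (Equiv.swap none (.some none)) := by
  refine tensor_ext₃ fun a b c => congrArg OnePoint.some (funext fun o => ?_)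
  show Option.elim o b (fun o' => Option.elim o' c a) =
    Option.elim (Equiv.swap none (.some none) o) c fun o' => Option.elim o' b a
  rcases o with _ | _ | j
  · rw [Equiv.swap_apply_left]; rfl
  · rw [Equiv.swap_apply_right]; rfl
  · rw [Equiv.swap_apply_of_ne_of_ne (by simp) (by simp)]; rfl

end Ru

end Vale.Agent.P261Z.Dl
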