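import Vale.Agent.P251.I.CofTriangle
import Vale.Agent.P251.G.PowLC
import Vale.Agent.P251.G.FinSum
import Vale.Agent.P251.G.Cofib

/-!
# P261, block T2, theorem DELTA: the spaces

* `dg A`, `dgJ J A` : the diagonals; `Sep`, `Nice` : the good finite cell spaces;
* `perm A σ` : permutation of the factors of a power;
* `GSp G` : spaces with an action of `G`, orbit spaces `GSp.orb`, `GSp.π`, `GSp.lift`;
* `EG G M i` : the filtration of the boundary of the `M`-th power of the compact star;
* `Wd G A` : the complement of the diagonal of `G → A`.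
-/

open CategoryTheory MonoidalCategory Limits Topology OnePoint

set_option linter.unusedSectionVars false

noncomputable section

namespace Vale.Agent.P261Z.Dl

open Vale.Agent.P251 Vale.Agent.P251.G Vale.Agent.P251.G.LC

/-! ### Diagonals, good spaces -/

theorem isClosedEmbedding_dg (A : LC) : IsClosedEmbedding (fun a : A => ((a, a) : A × A)) :=
  Function.LeftInverse.isClosedEmbedding (f := Prod.fst) (fun _ => rfl) continuous_fst
    (continuous_id.prodMk continuous_id)

/-- the diagonal -/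
def dg (A : LC) : A ⟶ A ⊗ A :=
  ofClosed (X := A) (Y := LC.of (A × A)) (fun a => (a, a)) (isClosedEmbedding_dg A)

theorem app_dg_coe (A : LC) (a : A) :
    app (dg A) (a : OnePoint A) = (((a, a) : A × A) : OnePoint (A × A)) := rfl

theorem app_dg (A : LC) (a : OnePoint A) : app (dg A) a = smash a a := by
  induction a using OnePoint.rec with
  | infty => rfl
  | coe a => rfl

/-- finitely many continuous functions separate the points of the compactification -/
def Sep (A : LC) : Prop :=
  ∃ (N : ℕ) (φ : OnePoint A → Fin N → ℝ), Continuous φ ∧ Function.Injective φ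

/-- good finite cell spaces -/
structure Nice (A : LC) : Prop where
  fc : FC A
  cof : Cofib (dg A)
  sep : Sep A

theorem isClosedEmbedding_dgJ (J : Type) [Nonempty J] (A : LC) :
    IsClosedEmbedding (fun (a : A) (_ : J) => a) :=
  Function.LeftInverse.isClosedEmbedding (f := fun b : J → A => b (Classical.arbitrary J))
    (fun _ => rfl) (continuous_apply _) (continuous_pi fun _ => continuous_id)

/-- the diagonal of a power -/
def dgJ (J : Type) [Finite J] [Nonempty J] (A : LC) : A ⟶ powObj J A :=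
  ofClosed (X := A) (Y := powObj J A) (fun a _ => a) (isClosedEmbedding_dgJ J A)

theorem app_dgJ_coe (J : Type) [Finite J] [Nonempty J] (A : LC) (a : A) :
    app (dgJ J A) (a : OnePoint A) = ((fun _ => a : J → A) : OnePoint (J → A)) := rfl

/-- reindexing of the factors of a power, as a homeomorphism -/
def reHomeo {J K : Type} (A : LC) (σ : J ≃ K) : (J → A) ≃ₜ (K → A) where
  toFun a := fun k => a (σ.symm k)
  invFun b := fun j => b (σ j)
  left_inv a := by funext j; simp
  right_inv b := by funext k; simp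
  continuous_toFun := continuous_pi fun _ => continuous_apply _
  continuous_invFun := continuous_pi fun _ => continuous_apply _

/-- reindexing of the factors of a power -/
def reIso {J K : Type} [Finite J] [Finite K] (A : LC) (σ : J ≃ K) : powObj J A ≅ powObj K A :=
  ofHomeo (X := powObj J A) (Y := powObj K A) (reHomeo A σ)

/-- permutation of the factors of a power: `a ↦ a ∘ σ⁻¹` -/
def perm {J : Type} [Finite J] (A : LC) (σ : Equiv.Perm J) : powObj J A ⟶ powObj J A :=
  (reIso A σ).hom

theorem app_reIso_coe {J K : Type} [Finite J] [Finite K] (A : LC) (σ : J ≃ K) (a : J → A) :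
    app (reIso A σ).hom (a : OnePoint (J → A)) =
      ((fun k => a (σ.symm k) : K → A) : OnePoint (K → A)) := rfl

theorem app_perm_coe {J : Type} [Finite J] (A : LC) (σ : Equiv.Perm J) (a : J → A) :
    app (perm A σ) (a : OnePoint (J → A)) =
      ((fun j => a (σ.symm j) : J → A) : OnePoint (J → A)) := rfl

theorem perm_one {J : Type} [Finite J] (A : LC) : perm A (1 : Equiv.Perm J) = 𝟙 _ := by
  ext a; rfl

theorem perm_mul {J : Type} [Finite J] (A : LC) (σ τ : Equiv.Perm J) :
    perm A (σ * τ) = perm A τ ≫ perm A σ := by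
  ext a; rfl

theorem reIso_powHom {J K : Type} [Finite J] [Finite K] {A B : LC} (σ : J ≃ K) (f : A ⟶ B) :
    (reIso A σ).hom ≫ powHom K f = powHom J f ≫ (reIso B σ).hom := by
  ext a
  rw [app_comp, app_comp, app_reIso_coe, app_powHom_coe, app_powHom_coe]
  by_cases h : ∀ j, ∃ z : B, (z : OnePoint B) = app f (a j : OnePoint A)
  · choose z hz using h
    have h1 : (fun j => app f (a j : OnePoint A)) = fun j => (z j : OnePoint B) :=
      funext fun j => (hz j).symm
    have h2 : (fun k => app f (a (σ.symm k) : OnePoint A)) = fun k => (z (σ.symm k) : OnePoint B) :=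
      funext fun k => (hz _).symm
    rw [h1, h2, OP.smash_coe, OP.smash_coe, app_reIso_coe]
  · rw [not_forall] at h
    obtain ⟨j, hj⟩ := h
    have h0 : app f (a j : OnePoint A) = ∞ := by
      generalize app f (a j : OnePoint A) = y at hj
      induction y using OnePoint.rec with
      | infty => rfl
      | coe y => exact (hj ⟨y, rfl⟩).elim
    rw [OP.smash_infty (fun j => app f (a j : OnePoint A)) (j := j) h0,
      OP.smash_infty (fun k => app f (a (σ.symm k) : OnePoint A)) (j := σ j) (by simpa using h0),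
      app_infty]

theorem perm_powHom {J : Type} [Finite J] {A B : LC} (σ : Equiv.Perm J) (f : A ⟶ B) :
    perm A σ ≫ powHom J f = powHom J f ≫ perm B σ := reIso_powHom σ f

theorem dgJ_perm {J : Type} [Finite J] [Nonempty J] (A : LC) (σ : Equiv.Perm J) :
    dgJ J A ≫ perm A σ = dgJ J A := by
  ext a; rfl

theorem dgJ_powHom (J : Type) [Finite J] [Nonempty J] {A B : LC} (f : A ⟶ B) :
    dgJ J A ≫ powHom J f = f ≫ dgJ J B := by
  ext a
  rw [app_comp, app_comp, app_dgJ_coe, app_powHom_coe]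
  generalize app f (a : OnePoint A) = y
  induction y using OnePoint.rec with
  | infty =>
    rw [app_infty]
    exact OP.smash_infty _ (j := Classical.arbitrary J) rfl
  | coe y => exact OP.smash_coe (fun _ : J => y)

/-! ### Induced maps of strict cofibres -/

/-- the map of strict cofibres induced by a commutative square -/
def cofInd {A B A' B' : LC} (i : A ⟶ B) (i' : A' ⟶ B') (a : A ⟶ A') (b : B ⟶ B')
    (w : i ≫ b = a ≫ i') : cof i ⟶ cof i' :=
  cofDesc i (b ≫ cofMap i') (by
    rw [← Category.assoc, w, Category.assoc, comp_cofMap, comp_zero])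

@[reassoc]
theorem cofMap_cofInd {A B A' B' : LC} (i : A ⟶ B) (i' : A' ⟶ B') (a : A ⟶ A') (b : B ⟶ B')
    (w : i ≫ b = a ≫ i') : cofMap i ≫ cofInd i i' a b w = b ≫ cofMap i' :=
  cofMap_cofDesc _ _ _

/-! ### Spaces with a group action -/

/-- a space with an action of `G` -/
structure GSp (G : Type) [Group G] where
  /-- the space -/
  X : LC
  [act : MulAction G X]
  [cont : ContinuousConstSMul G X]

attribute [instance] GSp.act GSp.cont

namespace GSp

variable {G : Type} [Group G]

/-- the action of an element -/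
def ρ (W : GSp G) (g : G) : W.X ⟶ W.X := (ofHomeo (X := W.X) (Y := W.X) (Homeomorph.smul g)).hom

theorem app_ρ_coe (W : GSp G) (g : G) (x : W.X) :
    app (W.ρ g) (x : OnePoint W.X) = ((g • x : W.X) : OnePoint W.X) := rfl

theorem ρ_one (W : GSp G) : W.ρ 1 = 𝟙 _ := by
  ext x; rw [app_ρ_coe, one_smul]; rfl

theorem ρ_mul (W : GSp G) (g h : G) : W.ρ (g * h) = W.ρ h ≫ W.ρ g := by
  ext x; rw [app_ρ_coe, mul_smul]; rfl

/-- the product with the diagonal action -/
def prod (E W : GSp G) : GSp G where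
  X := E.X ⊗ W.X
  act := inferInstanceAs (MulAction G (E.X × W.X))
  cont := inferInstanceAs (ContinuousConstSMul G (E.X × W.X))

theorem prod_ρ (E W : GSp G) (g : G) : (E.prod W).ρ g = E.ρ g ⊗ₘ W.ρ g := by
  ext x; rfl

/-- equivariant morphisms -/
def IsEq {W W' : GSp G} (f : W.X ⟶ W'.X) : Prop := ∀ g, W.ρ g ≫ f = f ≫ W'.ρ g

theorem IsEq.comp {W W' W'' : GSp G} {f : W.X ⟶ W'.X} {f' : W'.X ⟶ W''.X} (h : IsEq f)
    (h' : IsEq f') : IsEq (f ≫ f') := fun g => by
  rw [← Category.assoc, h g, Category.assoc, h' g, Category.assoc]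

theorem isEq_id (W : GSp G) : IsEq (W := W) (W' := W) (𝟙 W.X) := fun g => by simp

theorem IsEq.tensor {E E' W W' : GSp G} {e : E.X ⟶ E'.X} {f : W.X ⟶ W'.X} (h : IsEq e)
    (h' : IsEq f) : IsEq (W := E.prod W) (W' := E'.prod W') (e ⊗ₘ f) := fun g => by
  rw [prod_ρ, prod_ρ]
  change (E.ρ g ⊗ₘ W.ρ g) ≫ (e ⊗ₘ f) = (e ⊗ₘ f) ≫ (E'.ρ g ⊗ₘ W'.ρ g)
  rw [tensorHom_comp_tensorHom, tensorHom_comp_tensorHom, h g, h' g]

theorem IsEq.whiskerLeft (E : GSp G) {W W' : GSp G} {f : W.X ⟶ W'.X} (h : IsEq f) :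
    IsEq (W := E.prod W) (W' := E.prod W') (E.X ◁ f) := by
  rw [← id_tensorHom]; exact (isEq_id E).tensor h

theorem IsEq.whiskerRight {E E' : GSp G} {e : E.X ⟶ E'.X} (h : IsEq e) (W : GSp G) :
    IsEq (W := E.prod W) (W' := E'.prod W) (e ▷ W.X) := by
  rw [← tensorHom_id]; exact h.tensor (isEq_id W)

variable [Finite G]

/-- the type of orbits -/
abbrev Orb (W : GSp G) : Type := MulAction.orbitRel.Quotient G W.X

/-- the orbit of a point -/
def mk' (W : GSp G) (x : W.X) : W.Orb := Quotient.mk'' x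

theorem isOpenQuotientMap_mk' (W : GSp G) : IsOpenQuotientMap W.mk' :=
  MulAction.isOpenQuotientMap_quotientMk (Γ := G) (T := W.X)

theorem mk'_eq_iff (W : GSp G) (x y : W.X) : W.mk' x = W.mk' y ↔ ∃ g : G, g • y = x :=
  Quotient.eq''.trans MulAction.orbitRel_apply

theorem mk'_smul (W : GSp G) (g : G) (x : W.X) : W.mk' (g • x) = W.mk' x :=
  (W.mk'_eq_iff _ _).2 ⟨g, rfl⟩

theorem isProperMap_mk' (W : GSp G) : IsProperMap W.mk' := by
  rw [isProperMap_iff_isClosedMap_and_compact_fibers]
  refine ⟨W.isOpenQuotientMap_mk'.continuous, ?_, ?_⟩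
  · intro C hC
    rw [← W.isOpenQuotientMap_mk'.isQuotientMap.isClosed_preimage]
    have h : W.mk' ⁻¹' (W.mk' '' C) = ⋃ g : G, (fun x : W.X => g • x) ⁻¹' C := by
      ext x
      simp only [Set.mem_preimage, Set.mem_image, Set.mem_iUnion]
      constructor
      · rintro ⟨y, hy, h⟩
        obtain ⟨g, rfl⟩ := (W.mk'_eq_iff _ _).1 h
        exact ⟨g, hy⟩
      · rintro ⟨g, hg⟩
        exact ⟨g • x, hg, W.mk'_smul g x⟩
    rw [h]
    exact isClosed_iUnion_of_finite fun g => hC.preimage (continuous_const_smul g)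
  · intro q
    obtain ⟨y, rfl⟩ := W.isOpenQuotientMap_mk'.surjective q
    refine Set.Finite.isCompact ((Set.finite_range fun g : G => g • y).subset ?_)
    intro x hx
    exact (W.mk'_eq_iff _ _).1 hx

instance (W : GSp G) : LocallyCompactSpace W.Orb := W.isOpenQuotientMap_mk'.locallyCompactSpace

instance (W : GSp G) : T2Space W.Orb := t2Space_of_properlyDiscontinuousSMul_of_t2Space

/-- the orbit space -/
def orb (W : GSp G) : LC := LC.of W.Orb

/-- the projection to the orbit space -/
def π (W : GSp G) : W.X ⟶ W.orb := ofIsProper (X := W.X) (Y := W.orb) W.mk' W.isProperMap_mk'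

theorem app_π_coe (W : GSp G) (x : W.X) :
    app W.π (x : OnePoint W.X) = OnePoint.some (X := W.orb) (W.mk' x) := rfl

theorem ρ_π (W : GSp G) (g : G) : W.ρ g ≫ W.π = W.π := by
  ext x
  rw [app_comp, app_ρ_coe, app_π_coe, app_π_coe, mk'_smul]

instance (W : GSp G) : Epi W.π :=
  ⟨fun _ _ h => cancel_proper_surj (A' := W.X) (A := W.orb) W.isProperMap_mk'
    W.isOpenQuotientMap_mk'.surjective h⟩

/-- an invariant morphism factors through the orbit space -/
def lift (W : GSp G) {Z : LC} (f : W.X ⟶ Z) (h : ∀ g, W.ρ g ≫ f = f) : W.orb ⟶ Z :=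
  descend (A' := W.X) (A := W.orb) W.mk' W.isProperMap_mk' W.isOpenQuotientMap_mk'.surjective f
    (Quotient.lift (s := MulAction.orbitRel G W.X) (fun x : W.X => app f (x : OnePoint W.X)) (by
      rintro x y ⟨g, rfl⟩
      have := congrArg (fun k => app k (y : OnePoint W.X)) (h g)
      exact this))
    (fun _ => rfl)

@[reassoc]
theorem π_lift (W : GSp G) {Z : LC} (f : W.X ⟶ Z) (h : ∀ g, W.ρ g ≫ f = f) :
    W.π ≫ W.lift f h = f :=
  ofIsProper_comp_descend (A' := W.X) (A := W.orb) _ _ _ _ _ _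

/-- the map of orbit spaces induced by an equivariant morphism -/
def orbMap {W W' : GSp G} (f : W.X ⟶ W'.X) (h : IsEq f) : W.orb ⟶ W'.orb :=
  W.lift (f ≫ W'.π) (fun g => by rw [← Category.assoc, h g, Category.assoc, ρ_π])

@[reassoc]
theorem π_orbMap {W W' : GSp G} (f : W.X ⟶ W'.X) (h : IsEq f) :
    W.π ≫ orbMap f h = f ≫ W'.π := π_lift _ _ _

end GSp

/-! ### The finite join -/

section Join

variable (G : Type) [Group G]

/-- the `M`-th power of the compact star with one ray for each element of `G` -/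
def PSet (G : Type) (M : ℕ) : Set (Fin M → G → ℝ) :=
  {z | (∀ l g, z l g ∈ Set.Icc (0 : ℝ) 1) ∧ ∀ l g h, g ≠ h → z l g * z l h = 0}

/-- one of the first `i` coordinates is an end point -/
def ESet (G : Type) (M i : ℕ) : Set (Fin M → G → ℝ) :=
  {z | z ∈ PSet G M ∧ ∃ l : Fin M, (l : ℕ) < i ∧ ∃ g, z l g = 1}

/-- the base sheet of the `i`-th stratum -/
def FSet (M : ℕ) (i : Fin M) : Set (Fin M → G → ℝ) :=
  {z | (z ∈ PSet G M ∧ z i 1 = 1) ∧ ∀ l : Fin M, l < i → ∀ g, z l g < 1}

theorem isClosed_PSet (G : Type) (M : ℕ) : IsClosed (PSet G M) := by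
  have h : PSet G M = (⋂ l, ⋂ g, {z : Fin M → G → ℝ | z l g ∈ Set.Icc (0 : ℝ) 1}) ∩
      ⋂ l, ⋂ g, ⋂ h, ⋂ (_ : g ≠ h), {z : Fin M → G → ℝ | z l g * z l h = 0} := by
    ext z; simp [PSet]
  rw [h]
  refine (isClosed_iInter fun l => isClosed_iInter fun g => ?_).inter
    (isClosed_iInter fun l => isClosed_iInter fun g => isClosed_iInter fun h =>
      isClosed_iInter fun _ => isClosed_eq (by fun_prop) continuous_const)
  exact isClosed_Icc.preimage (by fun_prop : Continuous fun z : Fin M → G → ℝ => z l g)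

theorem isCompact_PSet (G : Type) (M : ℕ) : IsCompact (PSet G M) := by
  refine (isCompact_univ_pi fun _ : Fin M =>
    isCompact_univ_pi fun _ : G => isCompact_Icc (a := (0 : ℝ)) (b := 1)).of_isClosed_subset
    (isClosed_PSet G M) ?_
  intro z hz l _ g _
  exact hz.1 l g

theorem isClosed_ESet (G : Type) [Finite G] (M i : ℕ) : IsClosed (ESet G M i) := by
  have h : ESet G M i = PSet G M ∩
      ⋃ l : Fin M, ⋃ (_ : (l : ℕ) < i), ⋃ g, {z : Fin M → G → ℝ | z l g = 1} := by
    ext z; simp [ESet]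
  rw [h]
  exact (isClosed_PSet G M).inter (isClosed_iUnion_of_finite fun l =>
    isClosed_iUnion_of_finite fun _ => isClosed_iUnion_of_finite fun g =>
      isClosed_eq (by fun_prop) continuous_const)

theorem isCompact_ESet (G : Type) [Finite G] (M i : ℕ) : IsCompact (ESet G M i) :=
  (isCompact_PSet G M).of_isClosed_subset (isClosed_ESet G M i) fun _ hz => hz.1

theorem ESet_mono (G : Type) (M : ℕ) {i j : ℕ} (h : i ≤ j) : ESet G M i ⊆ ESet G M j := by
  rintro z ⟨hz, l, hl, g⟩
  exact ⟨hz, l, hl.trans_le h, g⟩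

theorem isLocallyClosed_FSet [Finite G] (M : ℕ) (i : Fin M) : IsLocallyClosed (FSet G M i) := by
  refine ⟨{z | ∀ l : Fin M, l < i → ∀ g, z l g < 1}, {z | z ∈ PSet G M ∧ z i 1 = 1}, ?_, ?_, ?_⟩
  · have h : {z : Fin M → G → ℝ | ∀ l : Fin M, l < i → ∀ g, z l g < 1} =
        ⋂ l : Fin M, ⋂ (_ : l < i), ⋂ g, {z : Fin M → G → ℝ | z l g < 1} := by
      ext z; simp
    rw [h]
    exact isOpen_iInter_of_finite fun l => isOpen_iInter_of_finite fun _ =>
      isOpen_iInter_of_finite fun g => isOpen_lt (by fun_prop) continuous_const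
  · exact (isClosed_PSet G M).inter (isClosed_eq (by fun_prop) continuous_const)
  · exact Set.inter_comm _ _

variable [Finite G]

instance (M i : ℕ) : CompactSpace (ESet G M i) := isCompact_iff_compactSpace.1 (isCompact_ESet G M i)

instance (M : ℕ) (i : Fin M) : LocallyCompactSpace (FSet G M i) :=
  (isLocallyClosed_FSet G M i).locallyCompactSpace

variable {G} in
/-- translation -/
def tl {M : ℕ} (g : G) (z : Fin M → G → ℝ) : Fin M → G → ℝ := fun l h => z l (g⁻¹ * h)

omit [Finite G] in
theorem tl_mem_PSet {M : ℕ} (g : G) {z : Fin M → G → ℝ} (hz : z ∈ PSet G M) :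
    tl g z ∈ PSet G M :=
  ⟨fun l _ => hz.1 l _, fun l _ _ h => hz.2 l _ _ fun e => h (mul_left_cancel e)⟩

omit [Finite G] in
theorem tl_mem_ESet {M i : ℕ} (g : G) {z : Fin M → G → ℝ} (hz : z ∈ ESet G M i) :
    tl g z ∈ ESet G M i := by
  obtain ⟨h, l, hl, k, hk⟩ := hz
  exact ⟨tl_mem_PSet G g h, l, hl, g * k, by simpa [tl] using hk⟩

/-- the translation action on the steps -/
@[reducible] def actE (M i : ℕ) : MulAction G (ESet G M i) where
  smul := fun g z => ⟨tl g z.1, tl_mem_ESet G g z.2⟩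
  one_smul := fun z => Subtype.ext (by
    funext l h
    change z.1 l (1⁻¹ * h) = _
    simp)
  mul_smul := fun g k z => Subtype.ext (by
    funext l h
    change z.1 l ((g * k)⁻¹ * h) = z.1 l (k⁻¹ * (g⁻¹ * h))
    rw [mul_inv_rev, mul_assoc])

omit [Finite G] in
theorem continuous_tl {M : ℕ} (g : G) : Continuous (tl (M := M) g) :=
  continuous_pi fun l => continuous_pi fun h =>
    (continuous_apply (g⁻¹ * h)).comp (continuous_apply l)

/-- the `i`-th step of the filtration of the free space -/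
def EG (M i : ℕ) : GSp G where
  X := LC.of (ESet G M i)
  act := actE G M i
  cont := @ContinuousConstSMul.mk _ _ _ (actE G M i).toSMul fun g =>
    ((continuous_tl G g).comp continuous_subtype_val).subtype_mk fun z => tl_mem_ESet G g z.2

instance (M i : ℕ) : CompactSpace (EG G M i).X := inferInstanceAs (CompactSpace (ESet G M i))

theorem EG_smul_val (M i : ℕ) (g : G) (z : (EG G M i).X) :
    Subtype.val (p := (· ∈ ESet G M i)) (g • z : (EG G M i).X) =
      tl g (Subtype.val (p := (· ∈ ESet G M i)) z) := rfl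

/-- the base sheet of the `i`-th stratum, as a space -/
def FG (M : ℕ) (i : Fin M) : LC := LC.of (FSet G M i)

/-- the inclusion of the steps -/
def εG (M i : ℕ) : (EG G M i).X ⟶ (EG G M (i + 1)).X :=
  ofCompact (X := (EG G M i).X) (Y := (EG G M (i + 1)).X)
    (Set.inclusion (ESet_mono G M (Nat.le_succ i))) (continuous_inclusion _)

theorem isEq_εG (M i : ℕ) : GSp.IsEq (εG G M i) := fun _ => by
  ext z; rfl

variable {G}

/-- the product `E_i × W` -/
abbrev Eh (M i : ℕ) (W : GSp G) : GSp G := (EG G M i).prod W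

/-- the inclusion `E_i × W ⟶ E_{i+1} × W` -/
def ιh (M i : ℕ) (W : GSp G) : (Eh M i W).X ⟶ (Eh M (i + 1) W).X := εG G M i ▷ W.X

theorem isEq_ιh (M i : ℕ) (W : GSp G) : GSp.IsEq (ιh M i W) := (isEq_εG G M i).whiskerRight W

/-- the inclusion of the orbit spaces -/
def ιo (M i : ℕ) (W : GSp G) : (Eh M i W).orb ⟶ (Eh M (i + 1) W).orb :=
  GSp.orbMap (ιh M i W) (isEq_ιh M i W)

/-- the endomorphism of `E_i × W` induced by `f` -/
def fh (M i : ℕ) {W : GSp G} (f : W.X ⟶ W.X) : (Eh M i W).X ⟶ (Eh M i W).X := (EG G M i).X ◁ f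

theorem isEq_fh (M i : ℕ) {W : GSp G} {f : W.X ⟶ W.X} (hf : GSp.IsEq f) :
    GSp.IsEq (fh M i f) := hf.whiskerLeft _

/-- the endomorphism of the orbit space induced by `f` -/
def fo (M i : ℕ) {W : GSp G} (f : W.X ⟶ W.X) (hf : GSp.IsEq f) :
    (Eh M i W).orb ⟶ (Eh M i W).orb := GSp.orbMap (fh M i f) (isEq_fh M i hf)

theorem ιh_fh (M i : ℕ) {W : GSp G} (f : W.X ⟶ W.X) :
    ιh M i W ≫ fh M (i + 1) f = fh M i f ≫ ιh M i W := (whisker_exchange _ _).symm

theorem ιo_fo (M i : ℕ) {W : GSp G} (f : W.X ⟶ W.X) (hf : GSp.IsEq f) :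
    ιo M i W ≫ fo M (i + 1) f hf = fo M i f hf ≫ ιo M i W := by
  rw [← cancel_epi (Eh M i W).π, ιo, fo, fo, GSp.π_orbMap_assoc, GSp.π_orbMap_assoc,
    GSp.π_orbMap, GSp.π_orbMap, ← Category.assoc, ιh_fh, Category.assoc]

theorem ιh_π (M i : ℕ) (W : GSp G) :
    ιh M i W ≫ (Eh M (i + 1) W).π = (Eh M i W).π ≫ ιo M i W := (GSp.π_orbMap _ _).symm

/-- the action on the stratum of `E_{i+1} × W` -/
def ρs (M i : ℕ) (W : GSp G) (g : G) : cof (ιh M i W) ⟶ cof (ιh M i W) :=
  cofInd _ _ ((Eh M i W).ρ g) ((Eh M (i + 1) W).ρ g) (isEq_ιh M i W g).symm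

/-- the projection of the strata -/
def πs (M i : ℕ) (W : GSp G) : cof (ιh M i W) ⟶ cof (ιo M i W) :=
  cofInd _ _ (Eh M i W).π (Eh M (i + 1) W).π (ιh_π M i W)

/-- the endomorphism of the stratum of the orbit space -/
def fs (M i : ℕ) {W : GSp G} (f : W.X ⟶ W.X) (hf : GSp.IsEq f) :
    cof (ιo M i W) ⟶ cof (ιo M i W) :=
  cofInd _ _ (fo M i f hf) (fo M (i + 1) f hf) (ιo_fo M i f hf)

end Join

/-! ### The complement of the diagonal -/

section Diag

variable (G : Type) [Group G] [Finite G]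

theorem mem_cofSet_dgJ {J : Type} [Finite J] [Nonempty J] (A : LC) (a : J → A) :
    a ∈ cofSet (dgJ J A) ↔ ∃ j k, a j ≠ a k := by
  change (¬ ∃ y, app (dgJ J A) y = (a : OnePoint (J → A))) ↔ _
  constructor
  · intro h
    by_contra h'
    push Not at h'
    refine h ⟨(a (Classical.arbitrary J) : OnePoint A), ?_⟩
    rw [app_dgJ_coe]
    congr 1
    funext j
    exact h' _ _
  · rintro ⟨j, k, hjk⟩ ⟨y, hy⟩
    induction y using OnePoint.rec with
    | infty => exact OnePoint.infty_ne_coe _ hy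
    | coe y =>
      rw [app_dgJ_coe] at hy
      have h := OnePoint.coe_injective hy
      exact hjk ((congrFun h j).symm.trans (congrFun h k))

/-- translation on the complement of the diagonal -/
def tlW (A : LC) (g : G) (a : cofSet (dgJ G A)) : cofSet (dgJ G A) :=
  ⟨fun h => a.1 (g⁻¹ * h), by
    obtain ⟨j, k, hjk⟩ := (mem_cofSet_dgJ A a.1).1 a.2
    exact (mem_cofSet_dgJ A _).2 ⟨g * j, g * k, by simpa using hjk⟩⟩

theorem continuous_tlW (A : LC) (g : G) : Continuous (tlW G A g) := by
  have h : Continuous fun (a : cofSet (dgJ G A)) (h : G) => a.1 (g⁻¹ * h) :=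
    continuous_pi fun h => (continuous_apply (g⁻¹ * h)).comp continuous_subtype_val
  exact h.subtype_mk _

/-- the translation action on the complement of the diagonal -/
@[reducible] def actW (A : LC) : MulAction G (cofSet (dgJ G A)) where
  smul := tlW G A
  one_smul := fun a => Subtype.ext (by
    funext h
    change a.1 (1⁻¹ * h) = _
    simp)
  mul_smul := fun g k a => Subtype.ext (by
    funext h
    change a.1 ((g * k)⁻¹ * h) = a.1 (k⁻¹ * (g⁻¹ * h))
    rw [mul_inv_rev, mul_assoc])

/-- the complement of the diagonal, with the translation action -/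
def Wd (A : LC) : GSp G where
  X := cof (dgJ G A)
  act := actW G A
  cont := @ContinuousConstSMul.mk _ _ _ (actW G A).toSMul (continuous_tlW G A)

theorem Wd_smul_val (A : LC) (g : G) (a : (Wd G A).X) (h : G) :
    Subtype.val (p := (· ∈ cofSet (dgJ G A))) (g • a : (Wd G A).X) h =
      Subtype.val (p := (· ∈ cofSet (dgJ G A))) a (g⁻¹ * h) := rfl

/-- the collapse onto the complement of the diagonal -/
def qW (A : LC) : powObj G A ⟶ (Wd G A).X := cofMap (dgJ G A)

instance (A : LC) : Epi (qW G A) := inferInstanceAs (Epi (cofMap (dgJ G A)))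

/-- the action on the complement of the diagonal is induced by the permutations of the factors -/
@[reassoc]
theorem qW_ρ (A : LC) (g : G) :
    qW G A ≫ (Wd G A).ρ g = perm A (Equiv.mulLeft g) ≫ qW G A := by
  ext a
  rw [app_comp, app_comp, app_perm_coe]
  by_cases h : a ∈ cofSet (dgJ G A)
  · have h1 := app_cofMap_coe (dgJ G A) ⟨a, h⟩
    have h2 := app_cofMap_coe (dgJ G A) (tlW G A g ⟨a, h⟩)
    exact (congrArg (app ((Wd G A).ρ g)) h1).trans h2.symm
  · have h1 : app (cofMap (dgJ G A)) (a : OnePoint (G → A)) = ∞ :=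
      app_cofMap_of_mem _ (not_not.1 h)
    have h2 : (fun j => a ((Equiv.mulLeft g).symm j) : G → A) ∉ cofSet (dgJ G A) := by
      rw [mem_cofSet_dgJ] at h ⊢
      rintro ⟨j, k, hjk⟩
      exact h ⟨_, _, hjk⟩
    exact (congrArg (app ((Wd G A).ρ g)) h1).trans (app_cofMap_of_mem _ (not_not.1 h2)).symm

variable {G}

/-- the endomorphism of the complement of the diagonal induced by `f` -/
def fW {A : LC} (f : A ⟶ A) : (Wd G A).X ⟶ (Wd G A).X :=
  cofInd (dgJ G A) (dgJ G A) f (powHom G f) (dgJ_powHom G f)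

@[reassoc]
theorem qW_fW {A : LC} (f : A ⟶ A) : qW G A ≫ fW f = powHom G f ≫ qW G A :=
  cofMap_cofInd _ _ _ _ _

theorem isEq_fW {A : LC} (f : A ⟶ A) : GSp.IsEq (fW (G := G) f) := fun g => by
  rw [← cancel_epi (qW G A), qW_ρ_assoc, qW_fW, qW_fW_assoc, qW_ρ, ← Category.assoc, perm_powHom,
    Category.assoc]

end Diag

end Vale.Agent.P261Z.Dl
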